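import Crest.Agent.NLib.Ell.CKA2

/-!
# Row 207 (helper3): quantitative Nemytskii estimates in the classes `CKA`

`DB W m K Φ`: `Φ` is smooth on `W` with all derivatives of order `≤ m` bounded by `K`.
`DB.comp` (bound), `DB.lip` (Lipschitz), `DB.sec` (second order remainder); the constants depend
only on `k` and on the bound `M` of the arguments.
-/

set_option autoImplicit false
open Metric Set Filter Topology
open scoped ContDiff

namespace Crest.Agent.N207.K

open Crest.Agent.NLib.Ell Crest.Agent.R273.SchA_152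

noncomputable section

variable {n k m : ℕ} {a M N K d δ : ℝ} {U : Set (EE n)}
  {F G : Type} [NormedAddCommGroup F] [NormedSpace ℝ F] [NormedAddCommGroup G] [NormedSpace ℝ G]

/-- Riemann sums of the derivative -/
theorem riem {φ ψ : ℝ → G} (hd : ∀ t ∈ Icc (0 : ℝ) 1, HasDerivAt φ (ψ t) t)
    (hc : ContinuousOn ψ (Icc 0 1)) :
    Tendsto (fun m : ℕ => ∑ j ∈ Finset.range (m + 1), ((m : ℝ) + 1)⁻¹ • ψ (j / ((m : ℝ) + 1)))
      atTop (𝓝 (φ 1 - φ 0)) := by
  rw [Metric.tendsto_atTop]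
  intro ε hε
  obtain ⟨η, hη, hu⟩ := Metric.uniformContinuousOn_iff.1
    (isCompact_Icc.uniformContinuousOn_of_continuous hc) (ε / 2) (by positivity)
  obtain ⟨m0, hm0⟩ := exists_nat_one_div_lt hη
  refine ⟨m0, fun m hm => ?_⟩
  have hp : (0 : ℝ) < (m : ℝ) + 1 := by positivity
  have hs : ((m : ℝ) + 1)⁻¹ < η := by
    refine lt_of_le_of_lt ?_ hm0
    rw [one_div]
    exact inv_anti₀ (by positivity) (by exact_mod_cast Nat.succ_le_succ hm)
  have e : φ 1 - φ 0 = ∑ j ∈ Finset.range (m + 1),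
      (φ (((j + 1 : ℕ) : ℝ) / ((m : ℝ) + 1)) - φ ((j : ℝ) / ((m : ℝ) + 1))) := by
    rw [Finset.sum_range_sub (fun j : ℕ => φ ((j : ℝ) / ((m : ℝ) + 1)))]
    simp [div_self hp.ne']
  rw [dist_comm, dist_eq_norm, e, ← Finset.sum_sub_distrib]
  have key : ∀ j ∈ Finset.range (m + 1),
      ‖φ (((j + 1 : ℕ) : ℝ) / ((m : ℝ) + 1)) - φ ((j : ℝ) / ((m : ℝ) + 1)) -
        ((m : ℝ) + 1)⁻¹ • ψ (j / ((m : ℝ) + 1))‖ ≤ ε / 2 * ((m : ℝ) + 1)⁻¹ := by
    intro j hj
    have hj' : (j : ℝ) + 1 ≤ (m : ℝ) + 1 := by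
      exact_mod_cast Finset.mem_range.1 hj
    set s : ℝ := (j : ℝ) / ((m : ℝ) + 1) with hs0
    have e1 : (((j + 1 : ℕ) : ℝ) / ((m : ℝ) + 1)) = s + ((m : ℝ) + 1)⁻¹ := by
      rw [hs0]; push_cast; field_simp
    have hs1 : 0 ≤ s := by positivity
    have hs2 : s + ((m : ℝ) + 1)⁻¹ ≤ 1 := by
      rw [← e1, div_le_one hp]; push_cast; exact hj'
    have hi : 0 < ((m : ℝ) + 1)⁻¹ := inv_pos.2 hp
    have hsub : Icc s (s + ((m : ℝ) + 1)⁻¹) ⊆ Icc 0 1 := Icc_subset_Icc hs1 hs2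
    have h1 := norm_image_sub_le_of_norm_deriv_le_segment' (f := fun t => φ t - t • ψ s)
      (f' := fun t => ψ t - ψ s) (a := s) (b := s + ((m : ℝ) + 1)⁻¹) (C := ε / 2)
      (fun t ht => by
        have := (hd t (hsub ht)).fun_sub ((hasDerivAt_id' t).smul_const (ψ s))
        rw [one_smul] at this
        exact this.hasDerivWithinAt)
      (fun t ht => by
        have := hu t (hsub (Ico_subset_Icc_self ht)) s (hsub (left_mem_Icc.2 (by linarith)))
          (by rw [Real.dist_eq, abs_of_nonneg (by linarith [ht.1])]; linarith [ht.2])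
        rw [dist_eq_norm] at this
        exact this.le)
      (s + ((m : ℝ) + 1)⁻¹) (right_mem_Icc.2 (by linarith))
    rw [e1]
    have e2 : φ (s + ((m : ℝ) + 1)⁻¹) - φ s - ((m : ℝ) + 1)⁻¹ • ψ s =
        φ (s + ((m : ℝ) + 1)⁻¹) - (s + ((m : ℝ) + 1)⁻¹) • ψ s - (φ s - s • ψ s) := by
      rw [add_smul]; abel
    rw [e2]
    simpa using h1
  refine lt_of_le_of_lt ((norm_sum_le _ _).trans (Finset.sum_le_sum key)) ?_
  rw [Finset.sum_const, Finset.card_range, nsmul_eq_mul]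
  push_cast
  rw [mul_left_comm, mul_inv_cancel₀ hp.ne']
  linarith

/-- mean value inequality in `CKA` -/
theorem cka_path [CompleteSpace G] (hU : IsOpen U) (ha : 0 < a) {φ ψ : ℝ → EE n → G}
    (hd : ∀ x ∈ U, ∀ t ∈ Icc (0 : ℝ) 1, HasDerivAt (fun s => φ s x) (ψ t x) t)
    (hc : ∀ x ∈ U, ContinuousOn (fun s => ψ s x) (Icc 0 1))
    (h : ∀ t ∈ Icc (0 : ℝ) 1, CKA a U k N (ψ t)) : CKA a U k N fun x => φ 1 x - φ 0 x := by
  refine CKA.limit (l := atTop) (u := fun (m : ℕ) x => ∑ j ∈ Finset.range (m + 1),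
    ((m : ℝ) + 1)⁻¹ • ψ (j / ((m : ℝ) + 1)) x) hU ha (Eventually.of_forall fun m => ?_)
    fun x hx => riem (hd x hx) (hc x hx)
  have hp : (0 : ℝ) < (m : ℝ) + 1 := by positivity
  refine (CKA.sum hU (Finset.range (m + 1)) (M := fun _ => |((m : ℝ) + 1)⁻¹| * N)
    fun j hj => (h _ ⟨by positivity, ?_⟩).smul hU _).mono (le_of_eq ?_)
  · rw [div_le_one hp]
    have : (j : ℝ) + 1 ≤ (m : ℝ) + 1 := by exact_mod_cast Finset.mem_range.1 hj
    linarith
  · rw [Finset.sum_const, Finset.card_range, nsmul_eq_mul, abs_of_pos (inv_pos.2 hp)]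
    push_cast
    rw [← mul_assoc, mul_inv_cancel₀ hp.ne', one_mul]

/-- smooth with bounded derivatives up to the order `m` -/
structure DB (W : Set F) (m : ℕ) (K : ℝ) (Φ : F → G) : Prop where
  sm : ContDiffOn ℝ ∞ Φ W
  bd : ∀ j ≤ m, ∀ z ∈ W, ‖iteratedFDeriv ℝ j Φ z‖ ≤ K

variable {W : Set F} {Φ : F → G}

theorem DB.mono (h : DB W m K Φ) {K' : ℝ} (hK : K ≤ K') : DB W m K' Φ :=
  ⟨h.sm, fun j hj z hz => (h.bd j hj z hz).trans hK⟩

theorem DB.of_le (h : DB W m K Φ) {m' : ℕ} (hm : m' ≤ m) : DB W m' K Φ :=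
  ⟨h.sm, fun j hj z hz => h.bd j (hj.trans hm) z hz⟩

theorem DB.subset (h : DB W m K Φ) {W' : Set F} (hW : W' ⊆ W) : DB W' m K Φ :=
  ⟨h.sm.mono hW, fun j hj z hz => h.bd j hj z (hW hz)⟩

theorem DB.zero (h : DB W m K Φ) {z : F} (hz : z ∈ W) : ‖Φ z‖ ≤ K := by
  simpa using h.bd 0 (Nat.zero_le _) z hz

theorem DB.fderiv (hW : IsOpen W) (h : DB W (m + 1) K Φ) : DB W m K (fderiv ℝ Φ) :=
  ⟨((contDiffOn_infty_iff_fderiv_of_isOpen hW).1 h.sm).2, fun j hj z hz => by
    rw [norm_iteratedFDeriv_fderiv]; exact h.bd (j + 1) (by omega) z hz⟩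

theorem DB.diffAt (hW : IsOpen W) (h : DB W m K Φ) {z : F} (hz : z ∈ W) : DifferentiableAt ℝ Φ z :=
  (h.sm.contDiffAt (hW.mem_nhds hz)).differentiableAt (by simp)

/-- a smooth map has bounded derivatives on subsets of compact sets -/
theorem exists_db {W' C : Set F} (hW' : IsOpen W') (hΦ : ContDiffOn ℝ ∞ Φ W') (hC : IsCompact C)
    (hCW : C ⊆ W') (hW : W ⊆ C) (m : ℕ) : ∃ K, 0 ≤ K ∧ DB W m K Φ := by
  have h1 : ∀ j : ℕ, ∃ B, ∀ z ∈ C, ‖iteratedFDeriv ℝ j Φ z‖ ≤ B := fun j =>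
    hC.exists_bound_of_continuousOn fun z hz =>
      ((hΦ.contDiffAt (hW'.mem_nhds (hCW hz))).continuousAt_iteratedFDeriv
        (by exact_mod_cast le_top)).continuousWithinAt
  choose B hB using h1
  refine ⟨∑ j ∈ Finset.range (m + 1), |B j|, Finset.sum_nonneg fun _ _ => abs_nonneg _,
    hΦ.mono (hW.trans hCW), fun j hj z hz => (hB j z (hW hz)).trans ((le_abs_self _).trans ?_)⟩
  exact Finset.single_le_sum (f := fun j => |B j|) (fun _ _ => abs_nonneg _)
    (Finset.mem_range.2 (by omega))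

/-- the constant of `DB.comp` -/
def cC (M : ℝ) : ℕ → ℝ
  | 0 => 1 + M
  | k + 1 => 1 + M + 2 ^ (k + 1) * (cC M k * M)

theorem cC_ge (hM : 0 ≤ M) (k : ℕ) : 1 + M ≤ cC M k := by
  induction k with
  | zero => exact le_rfl
  | succ k ih =>
    have : 0 ≤ cC M k := by linarith
    have : 0 ≤ 2 ^ (k + 1) * (cC M k * M) := by positivity
    simp only [cC]; linarith

theorem cC_pos (hM : 0 ≤ M) (k : ℕ) : 0 < cC M k := by linarith [cC_ge hM k]

theorem DB.comp (hU : IsOpen U) (hW : IsOpen W) (hc : Convex ℝ W) (h : DB W (k + 1) K Φ)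
    {f : EE n → F} (hf : ∀ x ∈ U, f x ∈ W) (hM : CKA a U k M f) :
    CKA a U k (cC M k * K) fun x => Φ (f x) := by
  rcases U.eq_empty_or_nonempty with rfl | ⟨x0, hx0⟩
  · exact CKA.empty _
  have hM0 : 0 ≤ M := hM.nonneg hx0
  have hK : 0 ≤ K := (norm_nonneg _).trans (h.zero (hf x0 hx0))
  have h0 : ∀ {G : Type} [NormedAddCommGroup G] [NormedSpace ℝ G] {Φ : F → G}, DB W 1 K Φ →
      HO a M U f → HO a ((1 + M) * K) U fun x => Φ (f x) := fun {G} _ _ {Φ} h hM =>
    ⟨fun x hx => (h.zero (hf x hx)).trans (by nlinarith), fun x hx y hy => by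
      have h1 := hc.norm_image_sub_le_of_norm_fderiv_le (f := Φ) (C := K)
        (fun w hw => h.diffAt hW hw) (fun w hw => (h.fderiv hW).zero hw) (hf y hy) (hf x hx)
      have h2 := mul_le_mul_of_nonneg_left (hM.hol x hx y hy) hK
      have h3 : 0 ≤ ‖x - y‖ ^ a := Real.rpow_nonneg (norm_nonneg _) a
      nlinarith [mul_nonneg hK h3]⟩
  induction k generalizing G with
  | zero => exact h0 h hM
  | succ k ih =>
    have hC := cC_pos hM0 k
    refine ⟨(h0 (h.of_le (by omega)) hM.1).mono (mul_le_mul_of_nonneg_right (cC_ge hM0 _) hK),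
      fun x hx => ((h.diffAt hW (hf x hx)).comp x (hM.diffAt hU hx)).differentiableWithinAt,
      fun i => ?_⟩
    refine ((((ih (h.fderiv hW) hM.pred).app hU (hM.pd i))).congr hU fun x hx => ?_).mono ?_
    · rw [fderiv_fun_comp x (h.diffAt hW (hf x hx)) (hM.diffAt hU hx)]
      rfl
    · simp only [cC]
      have : 0 ≤ (1 + M) * K := by positivity
      nlinarith

theorem cka_conv (hU : IsOpen U) {f g : EE n → F} (hf : CKA a U k M f) (hg : CKA a U k M g)
    {t : ℝ} (ht : t ∈ Icc (0 : ℝ) 1) : CKA a U k M fun x => g x + t • (f x - g x) := by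
  refine (((hg.smul hU (1 - t)).add hU (hf.smul hU t)).congr hU fun x _ => ?_).mono (le_of_eq ?_)
  · rw [smul_sub, sub_smul, one_smul]; abel
  · rw [abs_of_nonneg ht.1, abs_of_nonneg (by linarith [ht.2])]; ring

theorem conv_mem (hc : Convex ℝ W) {u v : F} (hu : u ∈ W) (hv : v ∈ W) {t : ℝ}
    (ht : t ∈ Icc (0 : ℝ) 1) : v + t • (u - v) ∈ W := hc.add_smul_sub_mem hv hu ht

theorem DB.line (hW : IsOpen W) (hc : Convex ℝ W) (h : DB W m K Φ) {u v : F} (hu : u ∈ W)
    (hv : v ∈ W) {t : ℝ} (ht : t ∈ Icc (0 : ℝ) 1) :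
    HasDerivAt (fun s : ℝ => Φ (v + s • (u - v))) (_root_.fderiv ℝ Φ (v + t • (u - v)) (u - v)) t := by
  have h1 : HasDerivAt (fun s : ℝ => v + s • (u - v)) (u - v) t := by
    simpa using ((hasDerivAt_id t).smul_const (u - v)).const_add v
  exact (h.diffAt hW (conv_mem hc hu hv ht)).hasFDerivAt.comp_hasDerivAt t h1

theorem DB.line_cont (hc : Convex ℝ W) (h : DB W m K Φ) {u v : F} (hu : u ∈ W) (hv : v ∈ W) :
    ContinuousOn (fun s : ℝ => Φ (v + s • (u - v))) (Icc 0 1) :=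
  h.sm.continuousOn.comp (by fun_prop) fun _ ht => conv_mem hc hu hv ht

/-- the constant of `DB.lip` -/
def cL (M : ℝ) (k : ℕ) : ℝ := 2 ^ (k + 1) * cC M k

theorem cL_pos (hM : 0 ≤ M) (k : ℕ) : 0 < cL M k := mul_pos (by positivity) (cC_pos hM k)

theorem DB.lip [CompleteSpace G] (hU : IsOpen U) (ha : 0 < a) (hW : IsOpen W) (hc : Convex ℝ W)
    (h : DB W (k + 2) K Φ) {f g : EE n → F} (hf : ∀ x ∈ U, f x ∈ W) (hg : ∀ x ∈ U, g x ∈ W)
    (hfM : CKA a U k M f) (hgM : CKA a U k M g) (hd : CKA a U k d fun x => f x - g x) :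
    CKA a U k (cL M k * K * d) fun x => Φ (f x) - Φ (g x) := by
  have := cka_path (k := k) (N := cL M k * K * d) hU ha
    (φ := fun s x => Φ (g x + s • (f x - g x)))
    (ψ := fun s x => _root_.fderiv ℝ Φ (g x + s • (f x - g x)) (f x - g x))
    (fun x hx t ht => h.line hW hc (hf x hx) (hg x hx) ht)
    (fun x hx => ((h.fderiv hW).line_cont hc (hf x hx) (hg x hx)).clm_apply continuousOn_const)
    fun t ht => (((h.fderiv hW).comp hU hW hc (fun x hx => conv_mem hc (hf x hx) (hg x hx) ht)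
      (cka_conv hU hfM hgM ht)).app hU hd).mono (le_of_eq (by simp only [cL]; ring))
  simpa using this

/-- second order remainder at the base point `p` -/
theorem DB.sec [CompleteSpace G] (hU : IsOpen U) (ha : 0 < a) (hW : IsOpen W) (hc : Convex ℝ W)
    (h : DB W (k + 3) K Φ) {f g p : EE n → F} (hf : ∀ x ∈ U, f x ∈ W) (hg : ∀ x ∈ U, g x ∈ W)
    (hp : ∀ x ∈ U, p x ∈ W) (hfM : CKA a U k M f) (hgM : CKA a U k M g) (hpM : CKA a U k M p)
    (hfp : CKA a U k δ fun x => f x - p x) (hgp : CKA a U k δ fun x => g x - p x)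
    (hd : CKA a U k d fun x => f x - g x) :
    CKA a U k (2 ^ (k + 1) * cL M k * K * δ * d) fun x =>
      Φ (f x) - Φ (g x) - _root_.fderiv ℝ Φ (p x) (f x - g x) := by
  have := cka_path (k := k) (N := 2 ^ (k + 1) * cL M k * K * δ * d) hU ha
    (φ := fun s x => Φ (g x + s • (f x - g x)) - s • _root_.fderiv ℝ Φ (p x) (f x - g x))
    (ψ := fun s x => (_root_.fderiv ℝ Φ (g x + s • (f x - g x)) - _root_.fderiv ℝ Φ (p x))
      (f x - g x))
    (fun x hx t ht => by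
      have := (h.line hW hc (hf x hx) (hg x hx) ht).fun_sub
        ((hasDerivAt_id' t).smul_const (_root_.fderiv ℝ Φ (p x) (f x - g x)))
      rw [one_smul] at this
      exact this)
    (fun x hx => (((h.fderiv hW).line_cont hc (hf x hx) (hg x hx)).sub
      continuousOn_const).clm_apply continuousOn_const)
    fun t ht => (((h.fderiv hW).lip hU ha hW hc (fun x hx => conv_mem hc (hf x hx) (hg x hx) ht) hp
      (cka_conv hU hfM hgM ht) hpM (d := δ) ((cka_conv hU hfp hgp ht).congr hU fun x _ => by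
        simp only [smul_sub]; abel)).app hU hd).mono (le_of_eq (by ring))
  refine this.congr hU fun x _ => ?_
  simp only [one_smul, zero_smul, add_zero, sub_zero, add_sub_cancel]
  abel

end

end Crest.Agent.N207.K
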