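import Crest.Agent.N207.Tens

/-!
# Row 207, block K (helper5): Hardy inequalities on annuli of `ℝ⁴`, no boundary conditions
-/

set_option autoImplicit false
open MeasureTheory Set Filter Topology Metric
open scoped ContDiff
open Crest.GeometryTopology.CoordMetric

noncomputable section

namespace Crest.Agent.N207.Hd

/-- `|Du|²` -/
def g2 (u : E4 → ℝ) (x : E4) : ℝ := ∑ i, pderiv i u x ^ 2

/-- `x · Du` -/
def dr (u : E4 → ℝ) (x : E4) : ℝ := fderiv ℝ u x x

/-- closed annulus -/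
def An (a c : ℝ) : Set E4 := {x | a ≤ ‖x‖ ∧ ‖x‖ ≤ c}

variable {U K : Set E4} {u f : E4 → ℝ} {a c : ℝ}

theorem g2_nonneg (u : E4 → ℝ) (x : E4) : 0 ≤ g2 u x :=
  Finset.sum_nonneg fun _ _ => sq_nonneg _

theorem isClosed_An (a c : ℝ) : IsClosed (An a c) :=
  (isClosed_le continuous_const continuous_norm).inter (isClosed_le continuous_norm continuous_const)

theorem isCompact_An (a c : ℝ) : IsCompact (An a c) :=
  (isCompact_closedBall (0 : E4) c).of_isClosed_subset (isClosed_An a c) fun _ hx =>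
    mem_closedBall_zero_iff.2 hx.2

theorem measurableSet_An (a c : ℝ) : MeasurableSet (An a c) := (isClosed_An a c).measurableSet

theorem An_mono {a' c' : ℝ} (h1 : a' ≤ a) (h2 : c ≤ c') : An a c ⊆ An a' c' := fun _ hx =>
  ⟨h1.trans hx.1, hx.2.trans h2⟩

theorem pos_of_An (ha : 0 < a) {x : E4} (hx : x ∈ An a c) : 0 < ‖x‖ := ha.trans_le hx.1

theorem fderiv_eq_sum (u : E4 → ℝ) (x v : E4) : fderiv ℝ u x v = ∑ i, v i * pderiv i u x := by
  have h : v = ∑ j, v j • EuclideanSpace.single j (1 : ℝ) := by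
    ext l; simp [Pi.single_apply]
  conv_lhs => rw [h]
  simp only [map_sum, map_smul, smul_eq_mul, pderiv]

theorem dr_eq_sum (u : E4 → ℝ) (x : E4) : dr u x = ∑ i, x i * pderiv i u x := fderiv_eq_sum u x x

theorem norm_sq_eq (x : E4) : ‖x‖ ^ 2 = ∑ i, x i ^ 2 := by
  rw [EuclideanSpace.norm_sq_eq]
  exact Finset.sum_congr rfl fun i _ => by rw [Real.norm_eq_abs, sq_abs]

theorem fderiv_sq_le (u : E4 → ℝ) (x v : E4) : fderiv ℝ u x v ^ 2 ≤ ‖v‖ ^ 2 * g2 u x := by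
  rw [fderiv_eq_sum, norm_sq_eq]
  exact Finset.sum_mul_sq_le_sq_mul_sq _ _ _

theorem dr_sq_le (u : E4 → ℝ) (x : E4) : dr u x ^ 2 ≤ ‖x‖ ^ 2 * g2 u x := fderiv_sq_le u x x

theorem contOn_pderiv (hU : IsOpen U) (hu : ContDiffOn ℝ 1 u U) (i : Fin 4) :
    ContinuousOn (pderiv i u) U :=
  (hu.continuousOn_fderiv_of_isOpen hU le_rfl).clm_apply continuousOn_const

theorem contOn_g2 (hU : IsOpen U) (hu : ContDiffOn ℝ 1 u U) : ContinuousOn (g2 u) U :=
  continuousOn_finsetSum _ fun i _ => (contOn_pderiv hU hu i).pow 2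

theorem contOn_dr (hU : IsOpen U) (hu : ContDiffOn ℝ 1 u U) : ContinuousOn (dr u) U :=
  (hu.continuousOn_fderiv_of_isOpen hU le_rfl).clm_apply continuousOn_id

/-- extension by zero -/
theorem contDiff_indicator {n : WithTop ℕ∞} (hU : IsOpen U) (hK : IsClosed K) (hKU : K ⊆ U)
    (hf : ContDiffOn ℝ n f U) (hz : ∀ x ∈ U, x ∉ K → f x = 0) : ContDiff ℝ n (U.indicator f) := by
  refine contDiff_iff_contDiffAt.2 fun x => ?_
  by_cases hx : x ∈ U
  · refine (hf.contDiffAt (hU.mem_nhds hx)).congr_of_eventuallyEq ?_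
    filter_upwards [hU.mem_nhds hx] with y hy using indicator_of_mem hy f
  · have hx' : x ∉ K := fun h => hx (hKU h)
    refine (contDiffAt_const (c := (0 : ℝ))).congr_of_eventuallyEq ?_
    filter_upwards [hK.isOpen_compl.mem_nhds hx'] with y hy
    by_cases hy' : y ∈ U
    · rw [indicator_of_mem hy', hz y hy' hy]
    · exact indicator_of_notMem hy' f

theorem int_pderiv_glob (hf : ContDiff ℝ 1 f) (hc : HasCompactSupport f) (i : Fin 4) :
    ∫ x, pderiv i f x = 0 := by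
  have h1 : Continuous (pderiv i f) := (hf.continuous_fderiv one_ne_zero).clm_apply continuous_const
  have h2 : HasCompactSupport (pderiv i f) :=
    (hc.fderiv ℝ).comp_left (g := fun L : E4 →L[ℝ] ℝ => L (EuclideanSpace.single i 1)) rfl
  have := integral_mul_fderiv_eq_neg_fderiv_mul_of_integrable (μ := (volume : Measure E4))
    (f := fun _ : E4 => (1 : ℝ)) (g := f) (v := EuclideanSpace.single i 1) (by simp)
    (by simp only [one_mul]; exact h1.integrable_of_hasCompactSupport h2)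
    (by simpa using hf.continuous.integrable_of_hasCompactSupport hc)
    (fun _ _ => differentiableAt_const _) (fun x _ => hf.differentiable one_ne_zero x)
  simpa [pderiv] using this

/-- the divergence theorem for `C¹` functions on `U` that vanish off a compact `K ⊆ U` -/
theorem int_pderiv (hU : IsOpen U) (hK : IsCompact K) (hKU : K ⊆ U) (hf : ContDiffOn ℝ 1 f U)
    (hz : ∀ x ∈ U, x ∉ K → f x = 0) (i : Fin 4) : ∫ x in K, pderiv i f x = 0 := by
  have hF := contDiff_indicator hU hK.isClosed hKU hf hz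
  have hz' : ∀ x, x ∉ K → U.indicator f x = 0 := fun x hx => by
    by_cases h : x ∈ U
    · rw [indicator_of_mem h, hz x h hx]
    · exact indicator_of_notMem h f
  have h0 := int_pderiv_glob hF (HasCompactSupport.intro hK hz') i
  rw [← setIntegral_eq_integral_of_forall_compl_eq_zero (s := K)] at h0
  · rw [← h0]
    refine setIntegral_congr_fun hK.measurableSet fun x hx => ?_
    have : U.indicator f =ᶠ[𝓝 x] f := by
      filter_upwards [hU.mem_nhds (hKU hx)] with y hy using indicator_of_mem hy f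
    simp only [pderiv, this.fderiv_eq]
  · intro x hx
    have : U.indicator f =ᶠ[𝓝 x] fun _ => 0 := by
      filter_upwards [hK.isClosed.isOpen_compl.mem_nhds hx] with y hy using hz' y hy
    simp [pderiv, this.fderiv_eq]

theorem contDiff_coord (i : Fin 4) {n : WithTop ℕ∞} : ContDiff ℝ n fun x : E4 => x i :=
  (EuclideanSpace.proj i : E4 →L[ℝ] ℝ).contDiff

theorem pderiv_coord_mul {x : E4} (hf : DifferentiableAt ℝ f x) (i j : Fin 4) :
    pderiv j (fun y => y i * f y) x = (if i = j then f x else 0) + x i * pderiv j f x := by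
  have h1 : HasFDerivAt (fun y : E4 => y i) (EuclideanSpace.proj i : E4 →L[ℝ] ℝ) x :=
    (EuclideanSpace.proj i : E4 →L[ℝ] ℝ).hasFDerivAt
  have h2 := (h1.mul hf.hasFDerivAt).fderiv
  have h3 : (fun y : E4 => y i * f y) = (fun y : E4 => y i) * f := rfl
  unfold pderiv
  rw [h3, h2]
  by_cases h : i = j
  · subst h; simp [add_comm]
  · simp [h]

/-- `∫ div (x f) = 0` -/
theorem int_euler (hU : IsOpen U) (hK : IsCompact K) (hKU : K ⊆ U) (hf : ContDiffOn ℝ 1 f U)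
    (hz : ∀ x ∈ U, x ∉ K → f x = 0) : ∫ x in K, (4 * f x + dr f x) = 0 := by
  have hm : ∀ i : Fin 4, ContDiffOn ℝ 1 (fun y : E4 => y i * f y) U := fun i =>
    (contDiff_coord i).contDiffOn.mul hf
  have h1 : ∀ i : Fin 4, ∫ x in K, pderiv i (fun y : E4 => y i * f y) x = 0 := fun i =>
    int_pderiv hU hK hKU (hm i) (fun x hx hx' => by rw [hz x hx hx', mul_zero]) i
  have h2 : ∫ x in K, ∑ i : Fin 4, pderiv i (fun y : E4 => y i * f y) x = 0 := by
    rw [integral_finsetSum _ fun i _ =>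
      ((contOn_pderiv hU (hm i) i).mono hKU).integrableOn_compact hK]
    simp [h1]
  rw [← h2]
  refine setIntegral_congr_fun hK.measurableSet fun x hx => ?_
  have hd : DifferentiableAt ℝ f x :=
    (hf.contDiffAt (hU.mem_nhds (hKU hx))).differentiableAt one_ne_zero
  simp only [pderiv_coord_mul hd, if_true, Finset.sum_add_distrib, dr_eq_sum]
  simp

theorem hasFDerivAt_nsq (x : E4) :
    HasFDerivAt (fun y : E4 => ‖y‖ ^ 2) (2 • innerSL ℝ x) x := (hasFDerivAt_id x).norm_sq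

theorem dr_rad {φ : ℝ → ℝ} {φ' : ℝ} {x : E4} (hφ : HasDerivAt φ φ' (‖x‖ ^ 2))
    (hu : DifferentiableAt ℝ u x) :
    dr (fun y => φ (‖y‖ ^ 2) * u y ^ 2) x =
      2 * ‖x‖ ^ 2 * φ' * u x ^ 2 + 2 * φ (‖x‖ ^ 2) * u x * dr u x := by
  have h1 := hφ.comp_hasFDerivAt x (hasFDerivAt_nsq x)
  have h2 := (h1.mul (hu.hasFDerivAt.pow 2)).fderiv
  have h3 : (fun y : E4 => φ (‖y‖ ^ 2) * u y ^ 2) = (φ ∘ fun y : E4 => ‖y‖ ^ 2) * fun y => u y ^ 2 := rfl
  unfold dr
  rw [h3, h2]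
  simp
  ring

theorem contOn_rad {φ : ℝ → ℝ} (hφ : ContinuousOn φ (Ioi 0)) (ha : 0 < a) :
    ContinuousOn (fun x : E4 => φ (‖x‖ ^ 2)) (An a c) :=
  hφ.comp (continuous_norm.pow 2).continuousOn fun _ hx => pow_pos (pos_of_An ha hx) 2

/-- the ground state inequality -/
theorem ground (hU : IsOpen U) (hu : ContDiffOn ℝ 1 u U) (ha : 0 < a) (hsub : An a c ⊆ U)
    {φ w b : ℝ → ℝ} (hφ : ContDiffOn ℝ 1 φ (Ioi 0)) (hw : ContinuousOn w (Ioi 0))
    (hb : ContinuousOn b (Ioi 0)) (hw0 : ∀ s, 0 < s → 0 ≤ w s) (he : ∀ s, 0 < s → φ s = w s * b s)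
    (hz : ∀ x ∈ U, x ≠ 0 → x ∉ An a c → φ (‖x‖ ^ 2) * u x ^ 2 = 0) :
    ∫ x in An a c, (4 * φ (‖x‖ ^ 2) + 2 * ‖x‖ ^ 2 * deriv φ (‖x‖ ^ 2)
        - w (‖x‖ ^ 2) * b (‖x‖ ^ 2) ^ 2) * u x ^ 2 ≤
      ∫ x in An a c, w (‖x‖ ^ 2) * dr u x ^ 2 := by
  have hU' : IsOpen (U ∩ {0}ᶜ) := hU.inter isOpen_compl_singleton
  have hsub' : An a c ⊆ U ∩ {0}ᶜ := fun x hx => ⟨hsub hx, norm_pos_iff.1 (pos_of_An ha hx)⟩
  have hf : ContDiffOn ℝ 1 (fun y : E4 => φ (‖y‖ ^ 2) * u y ^ 2) (U ∩ {0}ᶜ) := by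
    refine ContDiffOn.mul ?_ ((hu.mono inter_subset_left).pow 2)
    exact hφ.comp (contDiff_norm_sq ℝ).contDiffOn fun y hy => pow_pos (norm_pos_iff.2 hy.2) 2
  have h0 := int_euler hU' (isCompact_An a c) hsub' hf fun x hx hx' => hz x hx.1 hx.2 hx'
  have cu : ContinuousOn u (An a c) := hu.continuousOn.mono hsub
  have cd : ContinuousOn (dr u) (An a c) := (contOn_dr hU hu).mono hsub
  have c1 := contOn_rad (c := c) hφ.continuousOn ha
  have c2 := contOn_rad (c := c) (hφ.continuousOn_deriv_of_isOpen isOpen_Ioi le_rfl) ha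
  have c3 := contOn_rad (c := c) hw ha
  have c4 := contOn_rad (c := c) hb ha
  have cn : ContinuousOn (fun x : E4 => ‖x‖ ^ 2) (An a c) := (continuous_norm.pow 2).continuousOn
  have i0 : IntegrableOn (fun x => 4 * (φ (‖x‖ ^ 2) * u x ^ 2) +
      dr (fun y : E4 => φ (‖y‖ ^ 2) * u y ^ 2) x) (An a c) :=
    ((continuousOn_const.mul (hf.continuousOn.mono hsub')).add
      ((contOn_dr hU' hf).mono hsub')).integrableOn_compact (isCompact_An a c)
  have i1 : IntegrableOn (fun x => w (‖x‖ ^ 2) * dr u x ^ 2) (An a c) :=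
    (c3.mul (cd.pow 2)).integrableOn_compact (isCompact_An a c)
  rw [← add_zero (∫ x in An a c, w (‖x‖ ^ 2) * dr u x ^ 2), ← h0, ← integral_add i1 i0]
  refine setIntegral_mono_on ?_ (i1.add i0) (measurableSet_An a c) fun x hx => ?_
  · exact ((((continuousOn_const.mul c1).add ((continuousOn_const.mul cn).mul c2)).sub
      (c3.mul (c4.pow 2))).mul (cu.pow 2)).integrableOn_compact (isCompact_An a c)
  · have hs : 0 < ‖x‖ ^ 2 := pow_pos (pos_of_An ha hx) 2
    have hd : DifferentiableAt ℝ u x :=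
      (hu.contDiffAt (hU.mem_nhds (hsub hx))).differentiableAt one_ne_zero
    have hφ' : HasDerivAt φ (deriv φ (‖x‖ ^ 2)) (‖x‖ ^ 2) :=
      ((hφ.contDiffAt (isOpen_Ioi.mem_nhds hs)).differentiableAt one_ne_zero).hasDerivAt
    rw [dr_rad hφ' hd, he _ hs]
    have := mul_nonneg (hw0 _ hs) (sq_nonneg (dr u x + b (‖x‖ ^ 2) * u x))
    nlinarith

/-- power weights `|x|^(2σ)`, profile `β` -/
theorem hardy_pow (hU : IsOpen U) (hu : ContDiffOn ℝ 1 u U) (ha : 0 < a) (hsub : An a c ⊆ U)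
    (σ : ℝ) {β : ℝ → ℝ} (hβ : ContDiff ℝ 1 β)
    (hz : ∀ x ∈ U, x ≠ 0 → x ∉ An a c → β (‖x‖ ^ 2) * u x = 0) :
    ∫ x in An a c, (‖x‖ ^ 2) ^ (σ - 1) * ((1 + σ) ^ 2 * (2 * β (‖x‖ ^ 2) - β (‖x‖ ^ 2) ^ 2)
        + 2 * (1 + σ) * (‖x‖ ^ 2 * deriv β (‖x‖ ^ 2))) * u x ^ 2 ≤
      ∫ x in An a c, (‖x‖ ^ 2) ^ (σ - 1) * dr u x ^ 2 := by
  have hw : ContDiffOn ℝ 1 (fun s : ℝ => s ^ (σ - 1)) (Ioi 0) := fun s hs =>
    (Real.contDiffAt_rpow_const_of_ne (ne_of_gt hs)).contDiffWithinAt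
  have h := ground hU hu ha hsub (φ := fun s => s ^ (σ - 1) * ((1 + σ) * β s))
    (w := fun s => s ^ (σ - 1)) (b := fun s => (1 + σ) * β s)
    (hw.mul (contDiff_const.mul hβ).contDiffOn) hw.continuousOn
    (continuous_const.mul hβ.continuous).continuousOn
    (fun s hs => Real.rpow_nonneg hs.le _) (fun _ _ => rfl) (fun x hx h0 hx' => by
      have := hz x hx h0 hx'
      calc _ = (‖x‖ ^ 2) ^ (σ - 1) * (1 + σ) * (β (‖x‖ ^ 2) * u x) * u x := by ring
        _ = 0 := by rw [this]; ring)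
  refine le_of_eq_of_le (setIntegral_congr_fun (measurableSet_An a c) fun x hx => ?_) h
  have hs : 0 < ‖x‖ ^ 2 := pow_pos (pos_of_An ha hx) 2
  have d1 := Real.hasDerivAt_rpow_const (p := σ - 1) (Or.inl hs.ne')
  have d2 := ((hβ.differentiable one_ne_zero (‖x‖ ^ 2)).hasDerivAt).const_mul (1 + σ)
  have d3 : deriv (fun s => s ^ (σ - 1) * ((1 + σ) * β s)) (‖x‖ ^ 2) = _ := (d1.mul d2).deriv
  have e : (‖x‖ ^ 2) ^ (σ - 1) = ‖x‖ ^ 2 * (‖x‖ ^ 2) ^ (σ - 1 - 1) := by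
    rw [Real.rpow_sub_one hs.ne' (σ - 1), mul_div_cancel₀ _ hs.ne']
  simp only [d3]
  rw [e]
  ring

end Crest.Agent.N207.Hd

end
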