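import Crest.Agent.N207.K.Pop1
import Crest.Agent.N207.Lg.Nat
import Crest.Agent.N207.B.Ste1

/-!
# Row 207, block K (helper10): naturality of `Pop`, the leaf `POPS`
-/

set_option autoImplicit false

open scoped ContDiff
open Set Filter Topology Finset
open Crest.GeometryTopology.CoordMetric Crest.GeometryTopology.ChartCurvature
open Crest.Agent.N207.CB Crest.Agent.N207.Lg Crest.Agent.N207.I Crest.Agent.R202.Tens

noncomputable section

namespace Crest.Agent.N207.K

variable {G G' w w' : MetricField 4} {Φ : E4 → E4} {U V W : Set E4} {y : E4}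

/-- `G + s w` is a metric near a point for small `s` -/
theorem riem_add (hG : IsRiemannianOn G W) (hw : SmT (matT w) W) (hs : ∀ y ∈ W, (w y).IsSymm)
    (hy : y ∈ W) : ∃ W', y ∈ W' ∧ W' ⊆ W ∧ ∀ᶠ s in 𝓝 (0 : ℝ), IsRiemannianOn (G + s • w) W' := by
  have hc : ∀ i j, ContinuousAt (fun p : ℝ × E4 => (G p.2 + p.1 • w p.2) i j) (0, y) :=
    fun i j => by
      have h1 : ContinuousAt (fun z => G z i j) ((0, y) : ℝ × E4).2 :=
        (hG.contDiffOn i j).continuousOn.continuousAt (hG.isOpen.mem_nhds hy)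
      have h2 : ContinuousAt (fun z => w z i j) ((0, y) : ℝ × E4).2 :=
        (hw ![i, j]).continuousOn.continuousAt (hG.isOpen.mem_nhds hy)
      exact (h1.comp continuousAt_snd).add (continuousAt_fst.mul (h2.comp continuousAt_snd))
  have e : ∀ p : ℝ × E4, p.2 ∈ W → (Matrix.of fun i j => (1 / 2 : ℝ) *
      ((G p.2 + p.1 • w p.2) i j + (G p.2 + p.1 • w p.2) j i)) = G p.2 + p.1 • w p.2 :=
    fun p hp => by
      ext i j
      simp only [Matrix.of_apply, Matrix.add_apply, Matrix.smul_apply, g_sy hG hp j i,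
        (hs _ hp).apply i j]
      ring
  have h1 := B.eventually_posDef (x := ((0, y) : ℝ × E4)) (A := fun p => Matrix.of fun i j =>
    (1 / 2 : ℝ) * ((G p.2 + p.1 • w p.2) i j + (G p.2 + p.1 • w p.2) j i))
    (fun i j => continuousAt_const.mul ((hc i j).add (hc j i)))
    (fun p i j => by simp only [Matrix.of_apply, add_comm])
    (by rw [e _ hy]; simpa using hG.posDef y hy)
  rw [nhds_prod_eq, eventually_prod_iff] at h1
  obtain ⟨pa, ha, pb, hb, h2⟩ := h1
  obtain ⟨W', h3, h4, h5⟩ := eventually_nhds_iff.1 (hb.and (hG.isOpen.eventually_mem hy))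
  refine ⟨W', h5, fun z hz => (h3 z hz).2, ha.mono fun s hs' => ⟨h4, fun i j =>
    (((hG.contDiffOn i j).add (contDiffOn_const.mul (hw ![i, j]))).mono fun z hz => (h3 z hz).2),
    fun z hz => ?_⟩⟩
  have := h2 hs' (h3 z hz).1
  rwa [e (s, z) (h3 z hz).2] at this

theorem rel_symm (h : Rel Φ V (matT w') (matT w)) (hy : y ∈ V) (hs : (w (Φ y)).IsSymm) :
    (w' y).IsSymm := by
  refine Matrix.IsSymm.ext fun a b => ?_
  refine (congrFun (h y hy) ![b, a]).trans ((congrFun (h y hy) ![a, b]).trans ?_).symm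
  simp only [pullT, AI.evT_two, matT, Matrix.cons_val_zero, Matrix.cons_val_one]
  rw [sum_comm]
  exact sum_congr rfl fun i _ => sum_congr rfl fun j _ => by rw [hs.apply i j]; ring

/-- naturality of `Pop` -/
theorem rel_pop (p : Pull G' G Φ V W) (h : Rel Φ V (matT w') (matT w)) (hw : SmT (matT w) W)
    (hs : ∀ y ∈ W, (w y).IsSymm) : Rel Φ V (matT (Pop G' w')) (matT (Pop G w)) := by
  intro y hy
  have hy' := p.maps y hy
  obtain ⟨W', h1, h2, h3⟩ := riem_add p.riem hw hs hy'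
  have hW := h3.self_of_nhds.isOpen
  have hV : IsOpen (V ∩ Φ ⁻¹' W') := p.smooth.continuousOn.isOpen_inter_preimage p.isOpen hW
  have mk : ∀ {K K' : MetricField 4}, IsRiemannianOn K W' → Rel Φ V (matT K') (matT K) →
      Pull K' K Φ (V ∩ Φ ⁻¹' W') W' := fun {K K'} hK hr =>
    ⟨hV, hK, fun _ hz => hz.2, p.smooth.mono inter_subset_left, fun z hz i j => by
      have := congrFun (hr z hz.1) ![i, j]
      rw [pullT, AI.evT_two] at this
      refine this.trans (sum_congr rfl fun p _ => sum_congr rfl fun q _ => ?_)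
      simp [matT]
      ring, fun z hz => p.inj z hz.1⟩
  have p0 := mk ⟨hW, fun i j => (p.riem.contDiffOn i j).mono h2,
    fun z hz => p.riem.posDef z (h2 hz)⟩ (Rel.matT p)
  have h4 : ∀ᶠ s in 𝓝 (0 : ℝ), redT G' (G' + s • w') y = pullT Φ (redT G (G + s • w)) y :=
    h3.mono fun s hs' => rel_redT (mk (K' := G' + s • w') hs' ((Rel.matT p).add (h.smul s))) p0 y
      ⟨hy, h1⟩
  have hd := fun a b => (hd_red (.of_riem p.riem hy') (w_c2 p.riem.isOpen hw hy')
    (w_sy p.riem.isOpen hs hy') a b).differentiableAt.hasDerivAt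
  funext I
  have h5 : HasDerivAt (fun s : ℝ => redT G' (G' + s • w') y ![I 0, I 1]) _ 0 :=
    (HasDerivAt.fun_sum (u := univ) fun (J : Fin 2 → Fin 4) _ => (hd (J 0) (J 1)).const_mul
      (∏ s, fderiv ℝ Φ y (EuclideanSpace.single (I s) 1) (J s))).congr_of_eventuallyEq
      (h4.mono fun s hs' => by
        have e : ∀ J : Fin 2 → Fin 4, ![J 0, J 1] = J := fun J => by
          funext i; fin_cases i <;> rfl
        simp only [hs', e]; rfl)
  refine (congrArg (2 * ·) h5.deriv).trans ?_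
  simp only [pullT, evT, mul_sum]
  exact sum_congr rfl fun J _ => mul_left_comm _ _ _

theorem smT_pop (hG : IsRiemannianOn G U) (hw : SmT (matT w) U) (hs : ∀ y ∈ U, (w y).IsSymm) :
    SmT (matT (Pop G w)) U := fun I =>
  have h := cf_pop hG
  ((ContDiffOn.sum fun i _ => ContDiffOn.sum fun k _ => (h.sa i k).mul
    (smpd hG.isOpen (smpd hG.isOpen (hw I) k) i)).neg.add
    ((ContDiffOn.sum fun i _ => ContDiffOn.sum fun J _ => (h.sB i I J).mul
      (smpd hG.isOpen (hw J) i)).add (ContDiffOn.sum fun J _ => (h.sC I J).mul (hw J)))).congr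
    fun _ hy => pop_opc (.of_riem hG hy) (w_c2 hG.isOpen hw hy) (w_sy hG.isOpen hs hy) I

theorem pop_symm (hb : C2 G y) (hw : ∀ a b, ContDiffAt ℝ 2 (fun z => w z a b) y)
    (hs : ∀ᶠ z in 𝓝 y, Sy2 (w z)) : (Pop G w y).IsSymm := by
  refine Matrix.IsSymm.ext fun a b => ?_
  have h1 : ∀ (k H : M2 (Fin 4) ℝ) R, cvJ k H R b a = cvJ k H R a b := fun k H R => by
    simp only [cvJ, add_comm]
  have h2 : lapJ (iv G y) (TTG G w y) b a = lapJ (iv G y) (TTG G w y) a b :=
    sum_congr rfl fun c _ => sum_congr rfl fun d _ => by rw [TTG_sy G hs c d b a]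
  rw [pop_eq hb hw hs, pop_eq hb hw hs, ← lapJ_TTG, ← lapJ_TTG, h2]
  exact congrArg₂ (fun u v => _ - 2 * (u - v)) (h1 _ _ _) (h1 _ _ _)

theorem pops (X : Type*) : POPS X := fun _ _ _ _ h hG hw hs =>
  ⟨⟨fun a => smT_pop (hG.riem a) (hw.sm a) (hs a), fun _ b x _ t =>
    let ⟨_, h1, h2, p⟩ := hG.loc h t; rel_pop p (hw.compat.rel h2) (hw.sm b) (hs b) x h1⟩,
    fun a _ hx => pop_symm (.of_riem (hG.riem a) hx) (w_c2 (h.isOpen a) (hw.sm a) hx)
      (w_sy (h.isOpen a) (hs a) hx)⟩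

end Crest.Agent.N207.K

end
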