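import Crest.Agent.N207.K.Sys

/-!
# Row 207, block K (helper1): existence and uniqueness for abstract elliptic systems
-/

set_option autoImplicit false
set_option linter.unusedSectionVars false
open MeasureTheory Set Filter Topology Metric
open scoped ContDiff
open Crest.GeometryTopology.CoordMetric (pderiv)
open Crest.Agent.R249.SReg352 Crest.Agent.R249.EV

noncomputable section

namespace Crest.Agent.N207.K

variable {n : ℕ} {κ J S : Type*} [Fintype κ] [Fintype J] [AddCommGroup S] [Module ℝ S]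

theorem exists_lb {X : Type*} [TopologicalSpace X] {K : Set X} (hK : IsCompact K) {f : X → ℝ}
    (hf : ContinuousOn f K) (h0 : ∀ y ∈ K, 0 < f y) : ∃ c : ℝ, 0 < c ∧ ∀ y ∈ K, c ≤ f y := by
  rcases K.eq_empty_or_nonempty with rfl | hne
  · exact ⟨1, one_pos, by simp⟩
  obtain ⟨x, hx, h⟩ := hK.exists_isMinOn hne hf
  exact ⟨f x, h0 x hx, fun y hy => h hy⟩

theorem exists_ub {X : Type*} [TopologicalSpace X] {K : Set X} (hK : IsCompact K) {f : X → ℝ}
    (hf : ContinuousOn f K) : ∃ C : ℝ, 0 < C ∧ ∀ y ∈ K, |f y| ≤ C := by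
  obtain ⟨C, hC⟩ := hK.exists_bound_of_continuousOn hf
  exact ⟨max C 1, by positivity, fun y hy => (hC y hy).trans (le_max_left _ _)⟩

theorem iob {U : Set (En n)} {y₀ : En n} {r : ℝ} (hU : closedBall y₀ r ⊆ U) {f : En n → ℝ}
    (hf : ContinuousOn f U) : IntegrableOn f (ball y₀ r) :=
  ((hf.mono hU).integrableOn_compact (isCompact_closedBall _ _)).mono_set ball_subset_closedBall

theorem mlb {U : Set (En n)} {y₀ : En n} {r : ℝ} (hU : closedBall y₀ r ⊆ U) {f : En n → ℝ}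
    (hf : ContinuousOn f U) : MemLp f 2 (volume.restrict (ball y₀ r)) :=
  (memLp_two_iff_integrable_sq ((hf.mono (ball_subset_closedBall.trans hU)).aestronglyMeasurable
    measurableSet_ball)).2 (iob hU (hf.pow 2))

theorem cover {U K : Set (En n)} (hK : IsCompact K) (hKU : K ⊆ U) {r : En n → ℝ}
    (hr : ∀ y ∈ U, 0 < r y ∧ closedBall y (r y) ⊆ U) : ∃ t : Finset (En n), (∀ y ∈ t, y ∈ U) ∧
      ∀ f : En n → ℝ, ContinuousOn f U → (∀ y ∈ U, 0 ≤ f y) →
        ∫ y in K, f y ≤ ∑ x ∈ t, ∫ y in ball x (r x), f y := by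
  obtain ⟨t, h1, h2⟩ := hK.elim_nhds_subcover (fun y => ball y (r y)) fun y hy =>
    ball_mem_nhds y (hr y (hKU hy)).1
  refine ⟨t, fun y hy => hKU (h1 y hy), fun f hf f0 => ?_⟩
  have i1 : ∀ x ∈ t, Integrable ((ball x (r x)).indicator f) := fun x hx =>
    (integrable_indicator_iff measurableSet_ball).2 (iob (hr x (hKU (h1 x hx))).2 hf)
  simp only [← integral_indicator measurableSet_ball, ← integral_indicator hK.measurableSet]
  rw [← integral_finsetSum _ i1]
  refine integral_mono ((integrable_indicator_iff hK.measurableSet).2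
    ((hf.mono hKU).integrableOn_compact hK)) (integrable_finsetSum _ i1) fun y => ?_
  have p : ∀ x ∈ t, 0 ≤ (ball x (r x)).indicator f y := fun x hx => indicator_nonneg
    (fun z hz => f0 z ((hr x (hKU (h1 x hx))).2 (ball_subset_closedBall hz))) y
  by_cases hy : y ∈ K
  · obtain ⟨x, hx, hxy⟩ := mem_iUnion₂.1 (h2 hy)
    rw [indicator_of_mem hy]
    exact le_trans (le_of_eq (indicator_of_mem hxy f).symm) (Finset.single_le_sum p hx)
  · rw [indicator_of_notMem hy]
    exact Finset.sum_nonneg p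

theorem eq_zero_of_int {W : Set (En n)} (hW : IsOpen W) {g : En n → ℝ} (hi : IntegrableOn g W)
    (hc : ContinuousOn g W) (h0 : ∀ y ∈ W, 0 ≤ g y) (h : ∫ y in W, g y ≤ 0) :
    ∀ y ∈ W, g y = 0 :=
  Measure.eqOn_open_of_ae_eq ((setIntegral_eq_zero_iff_of_nonneg_ae
    ((ae_restrict_mem hW.measurableSet).mono h0) hi).1
      (le_antisymm h (setIntegral_nonneg hW.measurableSet h0))) hW hc continuousOn_const

theorem lim_uniq {B B' : Set (En n)} (hB : IsOpen B) (hB' : IsOpen B') {f : ℕ → En n → ℝ}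
    {v v' : En n → ℝ} (hf : ∀ m, MemLp (f m) 2 (volume.restrict B))
    (hf' : ∀ m, MemLp (f m) 2 (volume.restrict B')) (hv : MemLp v 2 (volume.restrict B))
    (hv' : MemLp v' 2 (volume.restrict B')) (cv : ContinuousOn v B) (cv' : ContinuousOn v' B')
    (l : Tendsto (fun m => ∫ x in B, (f m x - v x) ^ 2) atTop (𝓝 0))
    (l' : Tendsto (fun m => ∫ x in B', (f m x - v' x) ^ 2) atTop (𝓝 0)) :
    ∀ z ∈ B ∩ B', v z = v' z := by
  have hW := hB.inter hB'
  have i0 : IntegrableOn (fun x => (v x - v' x) ^ 2) (B ∩ B') :=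
    ((hv.mono_measure (Measure.restrict_mono inter_subset_left le_rfl)).sub
      (hv'.mono_measure (Measure.restrict_mono inter_subset_right le_rfl))).integrable_sq
  intro z hz
  refine sub_eq_zero.1 (pow_eq_zero_iff two_ne_zero |>.1 (eq_zero_of_int hW i0
    (((cv.mono inter_subset_left).sub (cv'.mono inter_subset_right)).pow 2)
    (fun _ _ => sq_nonneg _) ?_ z hz))
  have := (l.const_mul 2).add (l'.const_mul 2)
  rw [mul_zero, add_zero] at this
  refine ge_of_tendsto' this fun m => ?_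
  have i1 : IntegrableOn (fun x => (f m x - v x) ^ 2) B := ((hf m).sub hv).integrable_sq
  have i2 : IntegrableOn (fun x => (f m x - v' x) ^ 2) B' := ((hf' m).sub hv').integrable_sq
  have a1 := setIntegral_mono_set i1 (.of_forall fun _ => sq_nonneg _)
    (inter_subset_left (t := B')).eventuallyLE
  have a2 := setIntegral_mono_set i2 (.of_forall fun _ => sq_nonneg _)
    (inter_subset_right (s := B)).eventuallyLE
  have i3 := (i1.mono_set (inter_subset_left (t := B'))).const_mul 2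
  have i4 := (i2.mono_set (inter_subset_right (s := B))).const_mul 2
  have a3 := setIntegral_mono_on i0 (i3.add i4) hW.measurableSet fun x _ => by
    simp only [Pi.add_apply]
    nlinarith [sq_nonneg (2 * f m x - v x - v' x)]
  simp only [Pi.add_apply] at a3
  rw [integral_add i3 i4, integral_const_mul, integral_const_mul] at a3
  linarith

theorem pd_lc {U : Set (En n)} (hU : IsOpen U) {f g : En n → ℝ} (hf : ContDiffOn ℝ ∞ f U)
    (hg : ContDiffOn ℝ ∞ g U) (a b : ℝ) (i : Fin n) {y : En n} (hy : y ∈ U) :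
    pderiv i (fun z => a * f z + b * g z) y = a * pderiv i f y + b * pderiv i g y := by
  have d1 := ((hf.contDiffAt (hU.mem_nhds hy)).differentiableAt (by simp)).hasFDerivAt
  have d2 := ((hg.contDiffAt (hU.mem_nhds hy)).differentiableAt (by simp)).hasFDerivAt
  have := ((d1.const_mul a).add (d2.const_mul b)).fderiv
  simp only [pderiv]
  rw [show (fun z => a * f z + b * g z) = (fun z => a * f z) + fun z => b * g z from rfl, this]
  simp

theorem pd_congr {f g : En n → ℝ} {y : En n} (h : f =ᶠ[𝓝 y] g) (i : Fin n) :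
    pderiv i f y = pderiv i g y := by simp only [pderiv, h.fderiv_eq]

theorem opc_lc {U : Set (En n)} (hU : IsOpen U) (A : En n → Matrix (Fin n) (Fin n) ℝ)
    (B : Fin n → κ → κ → En n → ℝ) (C : κ → κ → En n → ℝ) {f g : κ → En n → ℝ}
    (hf : ∀ I, ContDiffOn ℝ ∞ (f I) U) (hg : ∀ I, ContDiffOn ℝ ∞ (g I) U) (a b : ℝ) (I : κ)
    {y : En n} (hy : y ∈ U) : opc A B C (fun I z => a * f I z + b * g I z) I y =
      a * opc A B C f I y + b * opc A B C g I y := by
  have e1 : ∀ i k, pderiv i (pderiv k fun z => a * f I z + b * g I z) y =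
      a * pderiv i (pderiv k (f I)) y + b * pderiv i (pderiv k (g I)) y := fun i k => by
    rw [← pd_lc hU (smpd hU (hf I) k) (smpd hU (hg I) k) a b i hy]
    refine pd_congr ?_ i
    filter_upwards [hU.mem_nhds hy] with z hz using pd_lc hU (hf I) (hg I) a b k hz
  simp only [opc, e1, fun i I => pd_lc hU (hf I) (hg I) a b i hy, mul_add, Finset.sum_add_distrib,
    Finset.mul_sum, mul_neg, mul_left_comm _ a, mul_left_comm _ b]
  ring

/-- the data: sections `S` with components `c`, tests `T0`, pairing `ip`, energy `N` -/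
structure Pb (n : ℕ) (κ J S : Type*) [AddCommGroup S] [Module ℝ S] where
  U : J → Set (En n)
  c : S →ₗ[ℝ] (J → κ → En n → ℝ)
  P : S → S
  T0 : Submodule ℝ S
  ip : S →ₗ[ℝ] T0 →ₗ[ℝ] ℝ
  N : T0 →ₗ[ℝ] T0 →ₗ[ℝ] ℝ

namespace Pb

open Sys

variable (Y : Pb n κ J S)

/-- equal components -/
def Eqv (s t : S) : Prop := ∀ j I, ∀ y ∈ Y.U j, Y.c s j I y = Y.c t j I y

/-- convergence in `H¹` on compact sets -/
def Lc (s : ℕ → Y.T0) (u : S) : Prop := ∀ j K, IsCompact K → K ⊆ Y.U j →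
  Tendsto (fun m => ∫ y in K, jet (Y.c (s m - u) j) y) atTop (𝓝 0)

/-- the class of uniqueness -/
def Cl (u : S) : Prop := ∃ s : ℕ → Y.T0,
  (∀ ε > 0, ∃ M, ∀ m ≥ M, ∀ l ≥ M, Y.N (s m - s l) (s m - s l) ≤ ε) ∧ Y.Lc s u ∧
    ∀ t, Tendsto (fun m => Y.ip (Y.P (s m)) t) atTop (𝓝 (Y.ip (Y.P u) t))

/-- the axioms -/
structure Ok (q : ℝ) : Prop where
  op : ∀ j, IsOpen (Y.U j)
  smc : ∀ s j I, ContDiffOn ℝ ∞ (Y.c s j I) (Y.U j)
  symm : ∀ s t, Y.N s t = Y.N t s
  N0 : ∀ s, 0 ≤ Y.N s s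
  ip_symm : ∀ s t : Y.T0, Y.ip s t = Y.ip t s
  q0 : 0 ≤ q
  P_eq : ∀ j, ∃ a B C, Cf (Y.U j) a B C ∧
    ∀ s I, ∀ y ∈ Y.U j, Y.c (Y.P s) j I y = opc a B C (Y.c s j) I y
  Q_le : ∀ s t : Y.T0, |Y.ip (Y.P s) t| ≤ q * √(Y.N s s) * √(Y.N t t)
  rep : ∀ t, ∃ (C : ℝ) (K : J → Set (En n)), 0 ≤ C ∧ (∀ j, IsCompact (K j) ∧ K j ⊆ Y.U j) ∧
    ∀ s, |Y.ip s t| ≤ C * √(∑ j, ∫ y in K j, jet (Y.c s j) y)
  loc : ∀ j, ∀ y₀ ∈ Y.U j, ∃ r > 0, closedBall y₀ r ⊆ Y.U j ∧
    (∃ C : ℝ, 0 < C ∧ ∀ s : Y.T0, ∫ y in ball y₀ r, jet (Y.c s j) y ≤ C * Y.N s s) ∧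
    ∀ I φ, TO (ball y₀ r) φ → ∃ t, ∀ s, Y.ip s t = ∫ y, Y.c s j I y * φ y
  closed : ∀ (s : ℕ → S) (A : J → κ → En n → ℝ), (∀ j I, ContDiffOn ℝ ∞ (A j I) (Y.U j)) →
    (∀ j, ∀ y ∈ Y.U j, ∃ r > 0, closedBall y r ⊆ Y.U j ∧ ∀ I,
      Tendsto (fun m => ∫ z in ball y r, (Y.c (s m) j I z - A j I z) ^ 2) atTop (𝓝 0)) →
    ∃ u, ∀ j I, ∀ y ∈ Y.U j, Y.c u j I y = A j I y

/-- a coercive family of constraints `ψ` with dual tests `φ` -/
structure Fam {m : Type*} [Fintype m] [DecidableEq m] (ψ φ : m → Y.T0) (c : ℝ) : Prop where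
  pos : 0 < c
  dual : ∀ k l, Y.ip (φ l) (ψ k) = if k = l then 1 else 0
  coer : ∀ t : Y.T0, (∀ k, Y.ip t (ψ k) = 0) → c * Y.N t t ≤ Y.ip (Y.P t) t

variable {Y} {q : ℝ} {s s' u v w : S}

namespace Ok

variable (h : Y.Ok q)
include h

theorem jc (s : S) (j : J) : ContinuousOn (jet (Y.c s j)) (Y.U j) := jet_cont (h.op j) (h.smc s j)

theorem cmp (j : J) {K : Set (En n)} (hK : IsCompact K) (hU : K ⊆ Y.U j) :
    ∃ C : ℝ, 0 ≤ C ∧ ∀ s : Y.T0, ∫ y in K, jet (Y.c s j) y ≤ C * Y.N s s := by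
  choose! r r0 rU hC using h.loc j
  choose! C C0 hC using fun y hy => (hC y hy).1
  obtain ⟨t, h1, h2⟩ := cover hK hU fun y hy => ⟨r0 y hy, rU y hy⟩
  refine ⟨∑ x ∈ t, C x, Finset.sum_nonneg fun x hx => (C0 x (h1 x hx)).le, fun s => ?_⟩
  rw [Finset.sum_mul]
  exact (h2 _ (h.jc _ j) fun y _ => jet_nonneg _ y).trans
    (Finset.sum_le_sum fun x hx => hC x (h1 x hx) s)

theorem ip_le (t : Y.T0) : ∃ C : ℝ, ∀ s : Y.T0, |Y.ip s t| ≤ C * √(Y.N s s) := by
  obtain ⟨C, K, C0, hK, h1⟩ := h.rep t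
  choose D D0 hD using fun j => h.cmp j (hK j).1 (hK j).2
  refine ⟨C * √(∑ j, D j), fun s => (h1 s).trans ?_⟩
  rw [mul_assoc, ← Real.sqrt_mul (Finset.sum_nonneg fun j _ => D0 j), Finset.sum_mul]
  gcongr with j
  exact hD j s

theorem ip_lim {s : ℕ → Y.T0} (hs : Y.Lc s u) (t : Y.T0) :
    Tendsto (fun m => Y.ip (s m) t) atTop (𝓝 (Y.ip u t)) := by
  obtain ⟨C, K, -, hK, h1⟩ := h.rep t
  have l := (tendsto_finsetSum Finset.univ fun j _ => hs j _ (hK j).1 (hK j).2).sqrt.const_mul C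
  simp only [Finset.sum_const_zero, Real.sqrt_zero, mul_zero] at l
  refine tendsto_sub_nhds_zero_iff.1 (squeeze_zero_norm (fun m => ?_) l)
  simpa only [map_sub, LinearMap.sub_apply, Real.norm_eq_abs] using h1 (s m - u)

theorem ip_congr (e : Y.Eqv s s') (t : Y.T0) : Y.ip s t = Y.ip s' t := by
  obtain ⟨C, K, -, hK, h1⟩ := h.rep t
  have := h1 (s - s')
  rw [Finset.sum_eq_zero fun j _ => setIntegral_eq_zero_of_forall_eq_zero fun y hy =>
    jet_zero fun I => ?_, Real.sqrt_zero, mul_zero] at this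
  · simpa only [map_sub, LinearMap.sub_apply, abs_nonpos_iff, sub_eq_zero] using this
  · filter_upwards [(h.op j).mem_nhds ((hK j).2 hy)] with z hz
    simp [e j I z hz]

theorem zero_of_ip (hw : ∀ t, Y.ip w t = 0) (j : J) (I : κ) {y₀ : En n} (hy : y₀ ∈ Y.U j) :
    Y.c w j I y₀ = 0 := by
  obtain ⟨r, hr, hU, -, h2⟩ := h.loc j y₀ hy
  have hB : ball y₀ r ⊆ Y.U j := ball_subset_closedBall.trans hU
  obtain ⟨η, hη, η0, -, η1⟩ := exists_cut isOpen_ball isCompact_singleton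
    (singleton_subset_iff.2 (mem_ball_self hr : y₀ ∈ ball y₀ r))
  have hφ := hη.mul_on isOpen_ball ((h.smc w j I).mono hB)
  obtain ⟨t, e⟩ := h2 I _ hφ
  have e3 := (e w).symm.trans (hw t)
  rw [← int_test hφ] at e3
  have gc : ContinuousOn (fun y => Y.c w j I y * (Y.c w j I y * η y)) (Y.U j) :=
    (h.smc w j I).continuousOn.mul
      ((h.smc w j I).continuousOn.mul hη.1.1.continuous.continuousOn)
  have := eq_zero_of_int isOpen_ball (iob hU gc) (gc.mono hB) (fun y _ => by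
    rw [← mul_assoc]; exact mul_nonneg (mul_self_nonneg _) (η0 y)) e3.le y₀ (mem_ball_self hr)
  simpa [η1.self_of_nhdsSet y₀ rfl] using this

theorem P_lc (a b : ℝ) (s u : S) (t : Y.T0) :
    Y.ip (Y.P (a • s + b • u)) t = a * Y.ip (Y.P s) t + b * Y.ip (Y.P u) t := by
  rw [h.ip_congr (s' := a • Y.P s + b • Y.P u) (fun j I y hy => ?_) t]
  · simp
  obtain ⟨A, B, C, -, e⟩ := h.P_eq j
  simp only [map_add, map_smul, Pi.add_apply, Pi.smul_apply, smul_eq_mul, e _ I y hy]
  exact opc_lc (h.op j) A B C (h.smc s j) (h.smc u j) a b I hy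

/-- the form of `P` -/
def QS : S →ₗ[ℝ] Y.T0 →ₗ[ℝ] ℝ where
  toFun s := Y.ip (Y.P s)
  map_add' s u := LinearMap.ext fun t => by simpa using h.P_lc 1 1 s u t
  map_smul' a s := LinearMap.ext fun t => by simpa using h.P_lc a 0 s s t

theorem QS_apply (s : S) (t : Y.T0) : h.QS s t = Y.ip (Y.P s) t := rfl

omit h in
theorem jet_lc {U : Set (En n)} (hU : IsOpen U) {f g : κ → En n → ℝ}
    (hf : ∀ I, ContDiffOn ℝ ∞ (f I) U) (hg : ∀ I, ContDiffOn ℝ ∞ (g I) U) (a b : ℝ) {y : En n}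
    (hy : y ∈ U) : jet (fun I z => a * f I z + b * g I z) y ≤
      2 * a ^ 2 * jet f y + 2 * b ^ 2 * jet g y := by
  have k : ∀ x z : ℝ, (a * x + b * z) ^ 2 ≤ 2 * a ^ 2 * x ^ 2 + 2 * b ^ 2 * z ^ 2 := fun x z => by
    nlinarith [sq_nonneg (a * x - b * z)]
  simp only [jet, fun i I => pd_lc hU (hf I) (hg I) a b i hy, mul_add, Finset.mul_sum]
  rw [add_add_add_comm, ← Finset.sum_add_distrib, ← Finset.sum_add_distrib]
  refine add_le_add (Finset.sum_le_sum fun I _ => k _ _) (Finset.sum_le_sum fun i _ => ?_)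
  rw [← Finset.sum_add_distrib]
  exact Finset.sum_le_sum fun I _ => k _ _

theorem int_lc (a b : ℝ) (s u : S) (j : J) {K : Set (En n)} (hK : IsCompact K) (hU : K ⊆ Y.U j) :
    ∫ y in K, jet (Y.c (a • s + b • u) j) y ≤
      2 * a ^ 2 * (∫ y in K, jet (Y.c s j) y) + 2 * b ^ 2 * ∫ y in K, jet (Y.c u j) y := by
  have i : ∀ s, IntegrableOn (jet (Y.c s j)) K := fun s =>
    ((h.jc s j).mono hU).integrableOn_compact hK
  rw [← integral_const_mul, ← integral_const_mul,
    ← integral_add ((i s).const_mul _) ((i u).const_mul _)]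
  refine setIntegral_mono_on (i _) (((i s).const_mul _).add ((i u).const_mul _)) hK.measurableSet
    fun y hy => ?_
  rw [map_add, map_smul, map_smul]
  exact jet_lc (h.op j) (h.smc s j) (h.smc u j) a b (hU hy)

theorem cl_lc (hu : Y.Cl u) (hv : Y.Cl v) (a b : ℝ) : Y.Cl (a • u + b • v) := by
  obtain ⟨s, s1, s2, s3⟩ := hu
  obtain ⟨t, t1, t2, t3⟩ := hv
  refine ⟨fun m => a • s m + b • t m, fun ε hε => ?_, fun j K hK hU => ?_, fun w => ?_⟩
  · have hδ : 0 < ε / (2 * a ^ 2 + 2 * b ^ 2 + 1) := by positivity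
    obtain ⟨M, hM⟩ := s1 _ hδ
    obtain ⟨M', hM'⟩ := t1 _ hδ
    refine ⟨max M M', fun m hm l hl => ?_⟩
    have a1 := hM m (le_of_max_le_left hm) l (le_of_max_le_left hl)
    have a2 := hM' m (le_of_max_le_right hm) l (le_of_max_le_right hl)
    have a3 := form_add_le Y.N h.N0 (a • (s m - s l)) (b • (t m - t l))
    rw [show a • s m + b • t m - (a • s l + b • t l) = a • (s m - s l) + b • (t m - t l) by module]
    refine a3.trans ?_
    simp only [map_smul, LinearMap.smul_apply, smul_eq_mul]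
    have a4 : (2 * a ^ 2 + 2 * b ^ 2 + 1) * (ε / (2 * a ^ 2 + 2 * b ^ 2 + 1)) = ε := by field_simp
    nlinarith [mul_le_mul_of_nonneg_left a1 (sq_nonneg a),
      mul_le_mul_of_nonneg_left a2 (sq_nonneg b)]
  · have l := ((s2 j K hK hU).const_mul (2 * a ^ 2)).add ((t2 j K hK hU).const_mul (2 * b ^ 2))
    simp only [mul_zero, add_zero] at l
    refine squeeze_zero (fun m => setIntegral_nonneg hK.measurableSet fun y _ => jet_nonneg _ y)
      (fun m => le_trans (le_of_eq ?_) (h.int_lc a b _ _ j hK hU)) l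
    rw [show ((a • s m + b • t m : Y.T0) : S) - (a • u + b • v) =
      a • ((s m : S) - u) + b • ((t m : S) - v) by
        simp only [Submodule.coe_add, Submodule.coe_smul]; module]
  · simp only [Submodule.coe_add, Submodule.coe_smul, h.P_lc]
    exact ((s3 w).const_mul a).add ((t3 w).const_mul b)

variable {m : Type*} [Fintype m] [DecidableEq m] {ψ φ : m → Y.T0} {c : ℝ}

omit h in
theorem ip_lc (x : m → ℝ) (w : m → Y.T0) (t : Y.T0) :
    Y.ip (∑ k, x k • (w k : S)) t = ∑ k, x k * Y.ip (w k) t := by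
  simp only [map_sum, map_smul, LinearMap.sum_apply, LinearMap.smul_apply, smul_eq_mul]

/-- uniqueness -/
theorem uniq (hF : Y.Fam ψ φ c) (hu : Y.Cl u) {μ : m → ℝ}
    (e : Y.Eqv (Y.P u) (∑ k, μ k • (ψ k : S))) (h0 : ∀ k, Y.ip u (ψ k) = 0) :
    (∀ j I, ∀ y ∈ Y.U j, Y.c u j I y = 0) ∧ μ = 0 := by
  obtain ⟨s, s1, s2, s3⟩ := hu
  have hc := hF.pos
  let nn : Y.T0 → ℝ := fun t => √(Y.N t t)
  have n0 : ∀ t, 0 ≤ nn t := fun _ => Real.sqrt_nonneg _
  set p : ℕ → Y.T0 := fun l => ∑ k, Y.ip (s l) (ψ k) • φ k with hp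
  have l0 : ∀ k, Tendsto (fun l => Y.ip (s l) (ψ k)) atTop (𝓝 0) := fun k =>
    h0 k ▸ h.ip_lim s2 (ψ k)
  have o1 : ∀ l k, Y.ip (s l - p l : Y.T0) (ψ k) = 0 := fun l k => by
    simp only [hp, Submodule.coe_sub, map_sub, LinearMap.sub_apply, Submodule.coe_sum,
      Submodule.coe_smul, ip_lc, hF.dual]
    simp
  have lp : Tendsto (fun l => Y.N (p l) (p l)) atTop (𝓝 0) := by
    have := tendsto_finsetSum Finset.univ fun k _ => tendsto_finsetSum Finset.univ fun k' _ =>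
      ((l0 k).mul ((l0 k').mul_const (Y.N (φ k') (φ k))))
    simp only [mul_zero, zero_mul, Finset.sum_const_zero] at this
    refine this.congr fun l => ?_
    simp only [hp, map_sum, map_smul, LinearMap.sum_apply, LinearMap.smul_apply, smul_eq_mul,
      Finset.mul_sum]
  have lq : ∀ t, Tendsto (fun l => h.QS (p l) t) atTop (𝓝 0) := fun t => by
    have := tendsto_finsetSum Finset.univ fun k _ => (l0 k).mul_const (h.QS (φ k) t)
    simp only [zero_mul, Finset.sum_const_zero] at this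
    refine this.congr fun l => ?_
    simp only [hp, Submodule.coe_sum, Submodule.coe_smul, map_sum, map_smul, LinearMap.sum_apply,
      LinearMap.smul_apply, smul_eq_mul]
  have lt : Tendsto (fun l => Y.N (s l - p l) (s l - p l)) atTop (𝓝 0) := by
    refine Metric.tendsto_atTop.2 fun ε hε => ?_
    obtain ⟨δ, hδ, hδ1⟩ : ∃ δ : ℝ, 0 < δ ∧ q ^ 2 * (10 * δ) < c ^ 2 * ε :=
      ⟨c ^ 2 * ε / (10 * q ^ 2 + 1), by positivity, by
        rw [show q ^ 2 * (10 * (c ^ 2 * ε / (10 * q ^ 2 + 1))) =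
          c ^ 2 * ε * (10 * q ^ 2 / (10 * q ^ 2 + 1)) by ring]
        exact mul_lt_of_lt_one_right (by positivity)
          ((div_lt_one (by positivity)).2 (lt_add_one _))⟩
    obtain ⟨M, hM⟩ := s1 δ hδ
    obtain ⟨M', hM'⟩ := eventually_atTop.1 (lp.eventually (ge_mem_nhds hδ))
    refine ⟨max M M', fun l hl => ?_⟩
    set t := s l - p l with ht
    have a0 : Tendsto (fun k => h.QS (s k - p k : Y.T0) t) atTop (𝓝 0) := by
      have := (s3 t).sub (lq t)
      rw [h.ip_congr e, ip_lc, Finset.sum_eq_zero fun k _ => by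
        rw [h.ip_symm, o1, mul_zero], sub_zero] at this
      simpa only [Submodule.coe_sub, map_sub, LinearMap.sub_apply, QS_apply] using this
    have a1 : c * Y.N t t ≤ q * √(10 * δ) * nn t + 0 := by
      refine ge_of_tendsto (tendsto_const_nhds.add a0) ?_
      filter_upwards [eventually_ge_atTop (max M M')] with k hk
      have b1 := h.Q_le (t - (s k - p k)) t
      have b2 : Y.N (t - (s k - p k)) (t - (s k - p k)) ≤ 10 * δ := by
        rw [show t - (s k - p k) = (s l - s k) + (p k + -p l) by rw [ht]; abel]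
        have c1 := form_add_le Y.N h.N0 (s l - s k) (p k + -p l)
        have c2 := form_add_le Y.N h.N0 (p k) (-p l)
        have c3 := hM l (le_of_max_le_left hl) k (le_of_max_le_left hk)
        have c4 := hM' l (le_of_max_le_right hl)
        have c5 := hM' k (le_of_max_le_right hk)
        simp only [map_neg, LinearMap.neg_apply, neg_neg] at c2
        linarith
      have b3 := hF.coer t (o1 l)
      have b4 : h.QS (t - (s k - p k) : Y.T0) t = h.QS t t - h.QS (s k - p k : Y.T0) t := by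
        rw [Submodule.coe_sub, map_sub h.QS, LinearMap.sub_apply]
      have b5 : q * √(Y.N (t - (s k - p k)) (t - (s k - p k))) * nn t ≤ q * √(10 * δ) * nn t :=
        mul_le_mul_of_nonneg_right
          (mul_le_mul_of_nonneg_left (Real.sqrt_le_sqrt b2) h.q0) (n0 t)
      have b6 := (le_abs_self _).trans (b1.trans b5)
      rw [← h.QS_apply, b4] at b6
      rw [← h.QS_apply] at b3
      linarith
    rw [Real.dist_eq, sub_zero, abs_of_nonneg (h.N0 _)]
    have a2 : nn t ^ 2 = Y.N t t := Real.sq_sqrt (h.N0 t)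
    have a3 : √(10 * δ) ^ 2 = 10 * δ := Real.sq_sqrt (by positivity)
    by_contra hn
    have a4 : c ^ 2 * ε ≤ c ^ 2 * Y.N t t := mul_le_mul_of_nonneg_left (not_lt.1 hn) (sq_nonneg c)
    have a5 : 0 < nn t := Real.sqrt_pos.2 (hε.trans_le (not_lt.1 hn))
    have a6 : c * nn t ≤ q * √(10 * δ) := le_of_mul_le_mul_right (by nlinarith) a5
    have a7 := pow_le_pow_left₀ (by positivity) a6 2
    rw [mul_pow, mul_pow, a2, a3] at a7
    linarith
  have ls : Tendsto (fun l => √(Y.N (s l) (s l))) atTop (𝓝 0) := by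
    have := ((lt.const_mul 2).add (lp.const_mul 2)).sqrt
    simp only [mul_zero, add_zero, Real.sqrt_zero] at this
    refine squeeze_zero (fun l => Real.sqrt_nonneg _) (fun l => Real.sqrt_le_sqrt ?_) this
    simpa only [sub_add_cancel] using form_add_le Y.N h.N0 (s l - p l) (p l)
  refine ⟨fun j I y hy => h.zero_of_ip (fun t => ?_) j I hy, funext fun k => ?_⟩
  · obtain ⟨C, hC⟩ := h.ip_le t
    refine tendsto_nhds_unique (h.ip_lim s2 t) (squeeze_zero_norm (fun l => hC (s l)) ?_)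
    simpa using ls.const_mul C
  · have a1 := s3 (φ k)
    rw [h.ip_congr e, ip_lc] at a1
    simp only [fun l => h.ip_symm (ψ l) (φ k), hF.dual, mul_ite, mul_one, mul_zero,
      Finset.sum_ite_eq', Finset.mem_univ, if_true] at a1
    refine tendsto_nhds_unique a1 (squeeze_zero_norm (fun l => h.Q_le (s l) (φ k)) ?_)
    simpa using (ls.const_mul q).mul_const √(Y.N (φ k) (φ k))

/-- existence -/
theorem solve (hF : Y.Fam ψ φ c) {p A : ℝ} (hp : ∑ k, √(Y.N (φ k) (φ k)) ≤ p) (f : S)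
    (hA0 : 0 ≤ A) (hA : ∀ t, |Y.ip f t| ≤ A * √(Y.N t t)) (θ : m → ℝ) :
    ∃ (u : S) (μ : m → ℝ), Y.Cl u ∧ Y.Eqv (Y.P u) (f + ∑ k, μ k • (ψ k : S)) ∧
      (∀ k, Y.ip u (ψ k) = θ k) ∧ ‖μ‖ ≤ bC c q p * max A ‖θ‖ ∧ ∃ (s : ℕ → Y.T0) (r : ℝ),
        Y.Lc s u ∧ r ≤ (bC c q p * max A ‖θ‖) ^ 2 ∧
          Tendsto (fun l => Y.N (s l) (s l)) atTop (𝓝 r) := by
  obtain ⟨s, μ, s1, s2, s3, s4, r0, s5, s6⟩ := approx_form Y.N (h.QS.domRestrict Y.T0) h.symm h.N0
    (fun k => (Y.ip.domRestrict Y.T0).flip (ψ k)) φ hF.pos h.q0 h.Q_le (fun k => h.ip_le (ψ k))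
    hF.dual hF.coer hp (Y.ip f) hA0 hA θ
  set f' := f + ∑ k, μ k • (ψ k : S) with hf'
  have s2' : ∀ t, Tendsto (fun l => Y.ip (Y.P (s l)) t) atTop (𝓝 (Y.ip f' t)) := fun t => by
    rw [hf', map_add, LinearMap.add_apply, ip_lc]
    simp only [fun k => h.ip_symm (ψ k) t]
    exact s2 t
  choose a B C hC eP using h.P_eq
  have key : ∀ j, ∀ y₀ ∈ Y.U j, ∃ (r : ℝ) (v : κ → En n → ℝ), 0 < r ∧ closedBall y₀ r ⊆ Y.U j ∧
      (∀ I, ContDiffOn ℝ ∞ (v I) (ball y₀ r)) ∧
      (∀ I, Tendsto (fun l => ∫ x in ball y₀ r, (Y.c (s l) j I x - v I x) ^ 2) atTop (𝓝 0)) ∧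
      (∀ i I, Tendsto (fun l => ∫ x in ball y₀ r,
        (pderiv i (Y.c (s l) j I) x - pderiv i (v I) x) ^ 2) atTop (𝓝 0)) ∧
      (∀ I, ∀ y ∈ ball y₀ r, opc (a j) (B j) (C j) v I y = Y.c f' j I y) ∧
      (∀ I, MemLp (v I) 2 (volume.restrict (ball y₀ r))) ∧
      ∀ i I, MemLp (pderiv i (v I)) 2 (volume.restrict (ball y₀ r)) := fun j y₀ hy => by
    obtain ⟨r, hr, hU, ⟨D, hD, h1⟩, h2⟩ := h.loc j y₀ hy
    have hB : ball y₀ r ⊆ Y.U j := ball_subset_closedBall.trans hU
    have cau : ∀ g : ℕ → ℕ → En n → ℝ, (∀ l k, ContinuousOn (g l k) (Y.U j)) →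
        (∀ l k, ∀ y ∈ Y.U j, g l k y ≤ jet (Y.c (s l - s k : Y.T0) j) y) →
        ∀ ε > 0, ∃ M, ∀ l ≥ M, ∀ k ≥ M, ∫ x in ball y₀ r, g l k x ≤ ε := fun g gc gl ε hε => by
      obtain ⟨M, hM⟩ := s1 (ε / D) (by positivity)
      refine ⟨M, fun l hl k hk => ((setIntegral_mono_on (iob hU (gc l k)) (iob hU (h.jc _ j))
        measurableSet_ball fun y hy => gl l k y (hB hy)).trans (h1 _)).trans ?_⟩
      exact (le_div_iff₀' hD).1 (hM l hl k hk)
    obtain ⟨v, hv⟩ := reg_lim isOpen_ball ((hC j).mono hB) (fun I => (h.smc f' j I).mono hB)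
      (f := fun l => Y.c (s l) j) (fun l I => (h.smc _ j I).mono hB)
      (fun l I => mlb hU (h.smc _ j I).continuousOn)
      (fun l i I => mlb hU (smpd (h.op j) (h.smc _ j I) i).continuousOn)
      (fun I => cau _ (fun l k => ((h.smc _ j I).continuousOn.sub (h.smc _ j I).continuousOn).pow 2)
        fun l k y _ => by
          simpa only [Submodule.coe_sub, map_sub, Pi.sub_apply] using
            sq_le_jet (Y.c (s l - s k : Y.T0) j) I y)
      (fun i I => cau _ (fun l k => ((smpd (h.op j) (h.smc _ j I) i).continuousOn.sub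
        (smpd (h.op j) (h.smc _ j I) i).continuousOn).pow 2) fun l k y hy => by
          refine le_trans (le_of_eq ?_) (pd_sq_le_jet (Y.c (s l - s k : Y.T0) j) i I y)
          have := pd_lc (h.op j) (h.smc (s l) j I) (h.smc (s k) j I) 1 (-1) i hy
          simp only [one_mul, neg_mul, ← sub_eq_add_neg] at this
          rw [← this, Submodule.coe_sub, map_sub]
          rfl)
      (fun I η hη => by
        obtain ⟨t, e⟩ := h2 I η hη
        rw [← e]
        refine (s2' t).congr fun l => ?_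
        rw [e, ← int_test hη, ← int_test hη]
        exact setIntegral_congr_fun measurableSet_ball fun y hy => by
          simp only [eP j _ I y (hB hy)])
    exact ⟨r, v, hr, hU, hv⟩
  choose! r v r0' rU v1 v2 v3 v4 v5 v6 using key
  have glue : ∀ j I, ∀ y₀ ∈ Y.U j, ∀ y ∈ ball y₀ (r j y₀), v j y I y = v j y₀ I y :=
    fun j I y₀ hy₀ y hy => by
    have hy' := rU j y₀ hy₀ (ball_subset_closedBall hy)
    exact lim_uniq isOpen_ball isOpen_ball (fun l => mlb (rU j y hy') (h.smc _ j I).continuousOn)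
      (fun l => mlb (rU j y₀ hy₀) (h.smc _ j I).continuousOn) (v5 j y hy' I) (v5 j y₀ hy₀ I)
      (v1 j y hy' I).continuousOn (v1 j y₀ hy₀ I).continuousOn (v2 j y hy' I) (v2 j y₀ hy₀ I) y
      ⟨mem_ball_self (r0' j y hy'), hy⟩
  obtain ⟨u, hu⟩ := h.closed (fun l => s l) (fun j I y => v j y I y)
    (fun j I y hy => (((v1 j y hy I).congr (glue j I y hy)).contDiffAt
      (ball_mem_nhds y (r0' j y hy))).contDiffWithinAt)
    fun j y hy => ⟨r j y, r0' j y hy, rU j y hy, fun I => (v2 j y hy I).congr fun l =>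
      setIntegral_congr_fun measurableSet_ball fun z hz => by simp only [glue j I y hy z hz]⟩
  have ue : ∀ j I, ∀ y₀ ∈ Y.U j, ∀ y ∈ ball y₀ (r j y₀), Y.c u j I =ᶠ[𝓝 y] v j y₀ I :=
    fun j I y₀ hy₀ y hy => by
    filter_upwards [isOpen_ball.mem_nhds hy] with z hz
    rw [hu j I z (rU j y₀ hy₀ (ball_subset_closedBall hz)), glue j I y₀ hy₀ z hz]
  have e : Y.Eqv (Y.P u) f' := fun j I y hy => by
    rw [eP j u I y hy, opc_congr fun I => ue j I y hy y (mem_ball_self (r0' j y hy)),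
      v4 j y hy I y (mem_ball_self (r0' j y hy))]
  have lc : Y.Lc s u := fun j K hK hU => by
    obtain ⟨t, h1, h2⟩ := cover hK hU fun y hy => ⟨r0' j y hy, rU j y hy⟩
    have l : Tendsto (fun l => ∑ x ∈ t, ∫ y in ball x (r j x), jet (Y.c (s l - u) j) y) atTop
        (𝓝 (∑ x ∈ t, 0)) := tendsto_finsetSum _ fun x hx => by
      have hx' := h1 x hx
      have l1 := (tendsto_finsetSum Finset.univ fun I _ => v2 j x hx' I).add
        (tendsto_finsetSum Finset.univ fun i _ => tendsto_finsetSum Finset.univ fun I _ =>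
          v3 j x hx' i I)
      simp only [Finset.sum_const_zero, add_zero] at l1
      refine l1.congr fun l => ?_
      have i0 : ∀ I, IntegrableOn (fun y => (Y.c (s l) j I y - v j x I y) ^ 2) (ball x (r j x)) :=
        fun I => ((mlb (rU j x hx') (h.smc _ j I).continuousOn).sub (v5 j x hx' I)).integrable_sq
      have i1 : ∀ i I, IntegrableOn (fun y => (pderiv i (Y.c (s l) j I) y -
          pderiv i (v j x I) y) ^ 2) (ball x (r j x)) := fun i I =>
        ((mlb (rU j x hx') (smpd (h.op j) (h.smc _ j I) i).continuousOn).sub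
          (v6 j x hx' i I)).integrable_sq
      simp only [← integral_finsetSum _ fun I _ => i0 I, ← fun i => integral_finsetSum _
        fun I (_ : I ∈ Finset.univ) => i1 i I]
      rw [← integral_finsetSum _ fun i _ => integrable_finsetSum _ fun I _ => i1 i I,
        ← integral_add (integrable_finsetSum _ fun I _ => i0 I)
          (integrable_finsetSum _ fun i _ => integrable_finsetSum _ fun I _ => i1 i I)]
      refine setIntegral_congr_fun measurableSet_ball fun y hy => ?_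
      have hy' := rU j x hx' (ball_subset_closedBall hy)
      have e1 : ∀ i I, pderiv i (Y.c (s l - u) j I) y =
          pderiv i (Y.c (s l) j I) y - pderiv i (v j x I) y := fun i I => by
        have := pd_lc (h.op j) (h.smc (s l) j I) (h.smc u j I) 1 (-1) i hy'
        simp only [one_mul, neg_mul, ← sub_eq_add_neg] at this
        rw [← pd_congr (ue j I x hx' y hy), ← this, map_sub]
        rfl
      simp only [jet, e1]
      simp only [map_sub, Pi.sub_apply, fun I => (ue j I x hx' y hy).eq_of_nhds]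
    rw [Finset.sum_const_zero] at l
    exact squeeze_zero (fun l => setIntegral_nonneg hK.measurableSet fun y _ => jet_nonneg _ y)
      (fun l => h2 _ (h.jc _ j) fun y _ => jet_nonneg _ y) l
  refine ⟨u, μ, ⟨s, s1, lc, fun t => ?_⟩, e, fun k => tendsto_nhds_unique (h.ip_lim lc _) (s3 k),
    s4, s, r0 ^ 2, lc, pow_le_pow_left₀ (ge_of_tendsto' s6 fun _ => Real.sqrt_nonneg _) s5 2, ?_⟩
  · rw [h.ip_congr e]; exact s2' t
  · exact (s6.pow 2).congr fun l => Real.sq_sqrt (h.N0 _)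

/-- lower semicontinuity -/
theorem lsc {s : ℕ → Y.T0} (hs : Y.Lc s u) {r : ℝ}
    (hr : Tendsto (fun l => Y.N (s l) (s l)) atTop (𝓝 r)) {E : S → ℝ} {D C : ℝ}
    (K : J → Set (En n)) (hK : ∀ j, IsCompact (K j) ∧ K j ⊆ Y.U j)
    (h1 : ∀ t : Y.T0, E u ≤ C * Y.N t t + D * ∑ j, ∫ y in K j, jet (Y.c (t - u) j) y) :
    E u ≤ C * r := by
  have l := (hr.const_mul C).add
    ((tendsto_finsetSum Finset.univ fun j _ => hs j _ (hK j).1 (hK j).2).const_mul D)
  simp only [Finset.sum_const_zero, mul_zero, add_zero] at l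
  exact ge_of_tendsto' l fun l => h1 (s l)

end Ok

end Pb

end Crest.Agent.N207.K

end
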