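import Crest.Agent.N207.K.KDefs
import Crest.Agent.N207.Lg.Flat

/-!
# Row 207, block K (helper10): `Pop` in terms of jets, the leaf `POP`
-/

set_option autoImplicit false

open scoped ContDiff
open Set Filter Topology Finset
open Crest.GeometryTopology.CoordMetric Crest.GeometryTopology.ChartCurvature
open Crest.Agent.N207.CB Crest.Agent.N207.Lg

noncomputable section

namespace Crest.Agent.N207.K

section Alg

variable {ι : Type*} [Fintype ι] (g H : M2 ι ℝ) (β : M3 ι ℝ) (dβ : M4 ι ℝ)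

/-- the linearised reduced Ricci operator on jets -/
def popJ (k : M2 ι ℝ) (p : M3 ι ℝ) (q : M4 ι ℝ) : M2 ι ℝ := fun i j =>
  -lapJ H (bar3 (bar k p β) (dbar k p q β dβ) β) i j -
    2 * (cvJ k H (rie β dβ) i j - cvJ g (up H k) (rie β dβ) i j)

theorem popJ_add (k k' : M2 ι ℝ) (p p' : M3 ι ℝ) (q q' : M4 ι ℝ) :
    popJ g H β dβ (k + k') (p + p') (q + q') = popJ g H β dβ k p q + popJ g H β dβ k' p' q' := by
  funext i j
  simp only [popJ, lapJ, bar3, bar, dbar, cvJ, up, Pi.add_apply, mul_add, add_mul, mul_sub,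
    sum_add_distrib, sum_sub_distrib]
  ring

theorem popJ_smul (t : ℝ) (k : M2 ι ℝ) (p : M3 ι ℝ) (q : M4 ι ℝ) :
    popJ g H β dβ (t • k) (t • p) (t • q) = t • popJ g H β dβ k p q := by
  have e : ∀ a b : ℝ, a * (t * b) = t * (a * b) := fun a b => by ring
  have h1 : dbar (t • k) (t • p) (t • q) β dβ = t • dbar k p q β dβ := by
    funext c d a b
    simp only [dbar, Pi.smul_apply, smul_eq_mul, e, ← mul_add, ← mul_sum]; ring
  have h2 : ∀ T Q, bar3 (t • T) (t • Q) β = t • bar3 T Q β := fun T Q => by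
    funext c d a b
    simp only [bar3, Pi.smul_apply, smul_eq_mul, e, ← mul_sum]; ring
  have h3 : ∀ R i j, cvJ (t • k) H R i j = t * cvJ k H R i j := fun R i j => by
    simp only [cvJ, Pi.smul_apply, smul_eq_mul, e, ← mul_add, ← mul_sum]
  have h4 : ∀ X R i j, cvJ g (t • X) R i j = t * cvJ g X R i j := fun X R i j => by
    simp only [cvJ, Pi.smul_apply, smul_eq_mul, mul_assoc, ← mul_sum, e]
  funext i j
  simp only [popJ, bar_smul, h1, h2, h3, up_smul, h4, lapJ_smul, Pi.smul_apply, smul_eq_mul]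
  ring

theorem popJ_hom (t : ℝ) (k : M2 ι ℝ) (p : M3 ι ℝ) (q : M4 ι ℝ) :
    popJ g H (t • β) (t ^ 2 • dβ) k (t • p) (t ^ 2 • q) = t ^ 2 • popJ g H β dβ k p q := by
  have h : ∀ (k X : M2 ι ℝ) (R : M4 ι ℝ) i j, cvJ k X (t ^ 2 • R) i j = t ^ 2 * cvJ k X R i j :=
    fun k X R i j => by
      have e : ∀ a b : ℝ, a * (t ^ 2 * b) = t ^ 2 * (a * b) := fun a b => by ring
      simp only [cvJ, Pi.smul_apply, smul_eq_mul, mul_assoc, ← mul_add, e, ← mul_sum]
  funext i j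
  simp only [popJ, bar_hom, dbar_hom, bar3_hom, rie_hom, lapJ_smul, h, Pi.smul_apply, smul_eq_mul]
  ring

theorem popJ_top (q : M4 ι ℝ) (i j : ι) : popJ g H β dβ 0 0 q i j = -lapJ H q i j := by
  simp [popJ, lapJ, bar3, bar, dbar, cvJ, up]

/-- `popJ` as a linear map -/
def popL : (M2 ι ℝ × M3 ι ℝ × M4 ι ℝ) →ₗ[ℝ] M2 ι ℝ where
  toFun z := popJ g H β dβ z.1 z.2.1 z.2.2
  map_add' _ _ := popJ_add g H β dβ _ _ _ _ _ _
  map_smul' t _ := popJ_smul g H β dβ t _ _ _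

variable [DecidableEq ι]

/-- basis arrays -/
def e2 (J : Fin 2 → ι) : M2 ι ℝ := fun a b => if ![a, b] = J then 1 else 0

/-- basis arrays -/
def e3 (c : ι) (J : Fin 2 → ι) : M3 ι ℝ := fun d a b => if d = c then e2 J a b else 0

theorem popJ_split (k : M2 ι ℝ) (p : M3 ι ℝ) (q : M4 ι ℝ) (i j : ι) :
    popJ g H β dβ k p q i j = -lapJ H q i j +
      (∑ c, ∑ J : Fin 2 → ι, popJ g H β dβ 0 (e3 c J) 0 i j * p c (J 0) (J 1) +
        ∑ J : Fin 2 → ι, popJ g H β dβ (e2 J) 0 0 i j * k (J 0) (J 1)) := by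
  have e : ((k, p, q) : M2 ι ℝ × M3 ι ℝ × M4 ι ℝ) = (0, 0, q) +
      (∑ c, ∑ J : Fin 2 → ι, p c (J 0) (J 1) • ((0, e3 c J, 0) : M2 ι ℝ × M3 ι ℝ × M4 ι ℝ) +
        ∑ J : Fin 2 → ι, k (J 0) (J 1) • ((e2 J, 0, 0) : M2 ι ℝ × M3 ι ℝ × M4 ι ℝ)) := by
    refine Prod.ext ?_ (Prod.ext ?_ ?_)
    · funext a b
      simp [Prod.fst_sum, Finset.sum_apply, e2]
    · funext c a b
      simp [Prod.fst_sum, Prod.snd_sum, Finset.sum_apply, e3, e2]
    · simp [Prod.snd_sum]
  have h := congrFun (congrFun (congrArg (popL g H β dβ) e) i) j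
  simp only [map_add, map_sum, map_smul, Pi.add_apply, Finset.sum_apply, Pi.smul_apply,
    smul_eq_mul] at h
  simp only [mul_comm (popJ g H β dβ _ _ _ i j), ← popJ_top g H β dβ]
  exact h

end Alg

theorem Cl.popJ {X ι : Type*} [Fintype ι] {P : (X → ℝ) → Prop} (h : Cl P) {g H k : X → M2 ι ℝ}
    {β p : X → M3 ι ℝ} {dβ q : X → M4 ι ℝ} (hg : P2 P g) (hH : P2 P H) (hβ : P3 P β)
    (hd : P4 P dβ) (hk : P2 P k) (hp : P3 P p) (hq : P4 P q) :
    P2 P fun x => popJ (g x) (H x) (β x) (dβ x) (k x) (p x) (q x) := fun _ _ =>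
  h.sub (h.neg (h.lapJ hH (h.bar3 (h.bar hk hp hβ) (h.dbar hk hp hq hβ hd) hβ) _ _))
    (h.mul (h.const _) (h.sub (h.cvJ hk hH (h.rie hβ hd) _ _)
      (h.cvJ hg (h.up hH hk) (h.rie hβ hd) _ _)))

variable {n : ℕ} {G w : MetricField n} {y : En n}

theorem c2_ev (hb : C2 G y) (hw : ∀ a b, ContDiffAt ℝ 2 (fun z => w z a b) y)
    (hs : ∀ᶠ z in 𝓝 y, Sy2 (w z)) : ∀ᶠ s in 𝓝 (0 : ℝ), C2 (G + s • w) y := by
  have h1 : ContinuousAt (fun s : ℝ => (G y + s • w y).det) 0 :=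
    (continuous_const.add (continuous_id.smul continuous_const)).matrix_det.continuousAt
  filter_upwards [h1.eventually (lt_mem_nhds (a := 0) (by simpa using hb.pos))] with s h2
  exact ⟨fun a b => (hb.c2 a b).add (contDiffAt_const.mul (hw a b)),
    (hb.sy.and hs).mono fun z hz a b => by
      simp only [Pi.add_apply, Pi.smul_apply, Matrix.add_apply, Matrix.smul_apply, hz.1 a b,
        hz.2 a b], h2⟩

/-- the first variation of `redT` at the background -/
theorem hd_red (hb : C2 G y) (hw : ∀ a b, ContDiffAt ℝ 2 (fun z => w z a b) y)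
    (hs : ∀ᶠ z in 𝓝 y, Sy2 (w z)) (a b : Fin n) :
    HasDerivAt (fun s : ℝ => redT G (G + s • w) y ![a, b])
      ((1 / 2) * (-lapJ (iv G y) (TTG G w y) a b - 2 * (cvJ (w y) (iv G y) (riemann G y) a b -
        cvJ (G y) (up (iv G y) (w y)) (riemann G y) a b))) 0 := by
  have hA : ∀ i j, HasDerivAt (fun s : ℝ => (G y + s • w y) i j) (w y i j) 0 := fun i j => by
    simpa using ((hasDerivAt_id (0 : ℝ)).mul_const (w y i j)).const_add (G y i j)
  have hH : ∀ i j, HasDerivAt (fun s : ℝ => (G y + s • w y)⁻¹ i j) (-up (iv G y) (w y) i j) 0 :=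
    fun i j => by
      have := (hd_inv (J := univ) (t := (0 : ℝ)) (A := fun s : ℝ => G y + s • w y)
        (fun i j => (hA i j).hasDerivWithinAt) (by simpa using hb.pos.ne') i j).hasDerivAt univ_mem
      simp only [zero_smul, add_zero] at this
      exact this
  have cl : Cl fun f : ℝ → ℝ => DifferentiableAt ℝ f 0 :=
    ⟨fun c => differentiableAt_const c, fun hf hg => hf.add hg, fun hf hg => hf.mul hg⟩
  have hH' : P2 (fun f : ℝ → ℝ => DifferentiableAt ℝ f 0)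
      fun s i j => (G y + s • w y)⁻¹ i j := fun i j => (hH i j).differentiableAt
  have h1 := (cl.lapJ (Q := fun _ => TTG G w y) hH' (fun _ _ _ _ => cl.const _) a b).hasDerivAt
  have h2 := (cl.qd (T := fun _ => TG G w y) hH' (fun _ _ _ => cl.const _) a b).hasDerivAt
  have h3 := HasDerivAt.const_mul (1 / 2 : ℝ) (HasDerivAt.fun_sum (u := univ) fun k _ =>
    HasDerivAt.fun_sum (u := univ) fun l _ => HasDerivAt.fun_sum (u := univ) fun m _ =>
      (hH k l).fun_mul (((hA m b).const_mul (riemann G y m l k a)).fun_add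
        ((hA m a).const_mul (riemann G y m l k b))))
  refine ((((((hasDerivAt_id' (0 : ℝ)).fun_mul h1).const_mul (-(1 / 2))).fun_add
    ((hasDerivAt_pow 2 (0 : ℝ)).fun_mul h2)).fun_sub h3).congr_of_eventuallyEq ?_).congr_deriv ?_
  · filter_upwards [c2_ev hb hw hs] with s h
    have d : ∀ a b, ContDiffAt ℝ 2 (fun z => (s • w) z a b) y := fun a b =>
      contDiffAt_const.mul (hw a b)
    rw [hb.redT_eq h, hb.TTG_add hb.c2 d, hb.TTG_self, zero_add, TTG_smul,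
      TG_add G hb.d fun a b => (d a b).differentiableAt (by norm_num), hb.TG_self, zero_add,
      TG_smul, lapJ_smul, qd_hom]
    rfl
  · simp only [cvJ, zero_smul, add_zero, neg_mul, sum_add_distrib, sum_neg_distrib, iv]
    have : (fun i j => (G y)⁻¹ i j) = iv G y := rfl
    rw [this]
    ring

variable {G w : MetricField 4} {y : E4}

/-- `Pop = -Δ + curvature terms` -/
theorem pop_eq (hb : C2 G y) (hw : ∀ a b, ContDiffAt ℝ 2 (fun z => w z a b) y)
    (hs : ∀ᶠ z in 𝓝 y, Sy2 (w z)) (a b : Fin 4) :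
    Pop G w y a b = -lapT G (matT w) y ![a, b] - 2 * (cvJ (w y) (iv G y) (riemann G y) a b -
      cvJ (G y) (up (iv G y) (w y)) (riemann G y) a b) := by
  have h := (hd_red hb hw hs a b).deriv
  rw [← lapJ_TTG]
  exact (congrArg (2 * ·) h).trans ((mul_assoc _ _ _).symm.trans (by norm_num))

theorem pop_jet (hb : C2 G y) (hw : ∀ a b, ContDiffAt ℝ 2 (fun z => w z a b) y)
    (hs : ∀ᶠ z in 𝓝 y, Sy2 (w z)) (a b : Fin 4) :
    Pop G w y a b = popJ (G y) (iv G y) (chr (iv G y) (Lg.jet G y))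
      (dG2 (iv G y) (Lg.jet G y) (jet2 G y)) (w y) (Lg.jet w y) (jet2 w y) a b := by
  rw [pop_eq hb hw hs, ← lapJ_TTG, hb.TTG_eq hw, hb.riemann_raw, hb.dGam_eq, chr_eq G y]; rfl

/-- first order coefficients -/
def popB (G : MetricField 4) (c : Fin 4) (I J : Fin 2 → Fin 4) (y : E4) : ℝ :=
  popJ (G y) (iv G y) (chr (iv G y) (Lg.jet G y)) (dG2 (iv G y) (Lg.jet G y) (jet2 G y))
    0 (e3 c J) 0 (I 0) (I 1)

/-- zero order coefficients -/
def popC (G : MetricField 4) (I J : Fin 2 → Fin 4) (y : E4) : ℝ :=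
  popJ (G y) (iv G y) (chr (iv G y) (Lg.jet G y)) (dG2 (iv G y) (Lg.jet G y) (jet2 G y))
    (e2 J) 0 0 (I 0) (I 1)

theorem pop_opc (hb : C2 G y) (hw : ∀ a b, ContDiffAt ℝ 2 (fun z => w z a b) y)
    (hs : ∀ᶠ z in 𝓝 y, Sy2 (w z)) (I : Fin 2 → Fin 4) :
    matT (Pop G w) y I =
      opc (fun y => (G y)⁻¹) (popB G) (popC G) (fun J z => matT w z J) I y := by
  exact (pop_jet hb hw hs (I 0) (I 1)).trans (popJ_split _ _ _ _ _ _ _ _ _)

theorem Cl.popBC {X : Type*} {P : (X → ℝ) → Prop} (h : Cl P) {G : X → MetricField 4} {y : X → E4}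
    (h0 : P2 P fun x => G x (y x)) (hi : P2 P fun x => iv (G x) (y x))
    (h1 : P3 P fun x => Lg.jet (G x) (y x)) (h2 : P4 P fun x => jet2 (G x) (y x)) :
    (∀ c I J, P fun x => popB (G x) c I J (y x)) ∧ ∀ I J, P fun x => popC (G x) I J (y x) :=
  ⟨fun c I J => Cl.popJ h (k := fun _ => 0) (p := fun _ => e3 c J) (q := fun _ => 0) h0 hi
    (h.chr hi h1) (h.dG2 hi h1 h2) (fun _ _ => h.const _) (fun _ _ _ => h.const _)
    (fun _ _ _ _ => h.const _) (I 0) (I 1),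
    fun I J => Cl.popJ h (k := fun _ => e2 J) (p := fun _ => 0) (q := fun _ => 0) h0 hi
    (h.chr hi h1) (h.dG2 hi h1 h2) (fun _ _ => h.const _) (fun _ _ _ => h.const _)
    (fun _ _ _ _ => h.const _) (I 0) (I 1)⟩

variable {U : Set E4}

theorem w_c2 (hU : IsOpen U) (hw : SmT (matT w) U) (hy : y ∈ U) (a b : Fin 4) :
    ContDiffAt ℝ 2 (fun z => w z a b) y :=
  c2At (hw ![a, b]) hU hy

theorem w_sy (hU : IsOpen U) (hs : ∀ y ∈ U, (w y).IsSymm) (hy : y ∈ U) :
    ∀ᶠ z in 𝓝 y, Sy2 (w z) :=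
  mem_of_superset (hU.mem_nhds hy) fun z hz a b => (hs z hz).apply b a

theorem cf_pop (hG : IsRiemannianOn G U) : Cf U (fun y => (G y)⁻¹) (popB G) (popC G) := by
  have cl : Cl fun f : E4 → ℝ => ContDiffOn ℝ ∞ f U :=
    ⟨fun _ => contDiffOn_const, fun hf hg => hf.add hg, fun hf hg => hf.mul hg⟩
  have hi : ∀ i k, ContDiffOn ℝ ∞ (fun y => (G y)⁻¹ i k) U := fun i k y hy =>
    (cA_inv (fun a b => (hG.contDiffOn a b).contDiffAt (hG.isOpen.mem_nhds hy))
      (hG.posDef y hy).det_pos.ne' i k).contDiffWithinAt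
  have h := Cl.popBC cl (G := fun _ => G) (y := fun y => y) hG.contDiffOn hi
    (fun c a b => smpd hG.isOpen (hG.contDiffOn a b) c)
    (fun c d a b => smpd hG.isOpen (smpd hG.isOpen (hG.contDiffOn a b) d) c)
  exact ⟨hi, fun y hy => (hG.posDef y hy).inv, h.1, h.2⟩

theorem pop : POP := fun G _ hG =>
  ⟨popB G, popC G, cf_pop hG, fun _ hw hs I _ hy =>
    pop_opc (.of_riem hG hy) (w_c2 hG.isOpen hw hy) (w_sy hG.isOpen hs hy) I⟩

end Crest.Agent.N207.K

end
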