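import Crest.Agent.N207.CB.St
import Crest.Agent.N207.K.Euc
import Crest.Agent.N207.I.Cal4

/-!
# Row 207, block K (helper1): definitions and leaves of `KLin`
-/

set_option autoImplicit false

open scoped ContDiff
open Metric Set Filter Topology MeasureTheory
open Crest.GeometryTopology.CoordMetric
open Crest.Agent.NLib.Ell Crest.Agent.N207.I Crest.Agent.N207.CB

noncomputable section

namespace Crest.Agent.N207.K

/-- coordinate energy density `∑ ∂s ∂t + ∑ s t / ρ²` -/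
def eC {k : ℕ} (ρ : ℝ) (s t : Tn 4 k) (x : E4) : ℝ :=
  ∑ I, (∑ i, pderiv i (fun y => s y I) x * pderiv i (fun y => t y I) x + s x I * t x I / ρ ^ 2)

/-- `0` on `τ ≤ 0`, slope in `[0, 1]`, slope `1` on `1 ≤ τ` -/
def ph (τ : ℝ) : ℝ := ∫ s in (0 : ℝ)..τ, Real.smoothTransition s

/-- **POP**: `Pop G` is a system with principal part `-G^{ik} ∂_i ∂_k` -/
def POP : Prop :=
  ∀ (G : MetricField 4) (U : Set E4), IsRiemannianOn G U → ∃ B C, Cf U (fun y => (G y)⁻¹) B C ∧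
    ∀ w : MetricField 4, SmT (matT w) U → (∀ y ∈ U, (w y).IsSymm) → ∀ I, ∀ y ∈ U,
      matT (Pop G w) y I = opc (fun y => (G y)⁻¹) B C (fun J z => matT w z J) I y

/-- **POPS**: `Pop` maps symmetric sections to symmetric sections -/
def POPS (X : Type*) : Prop :=
  ∀ (α : Type) (A : Atl X α) (G w : α → MetricField 4), A.Ok → A.IsMet G →
    A.Sec (fun a => matT (w a)) → (∀ a, ∀ x ∈ A.U a, (w a x).IsSymm) →
    A.Sec (fun a => matT (Pop (G a) (w a))) ∧ ∀ a, ∀ x ∈ A.U a, (Pop (G a) (w a) x).IsSymm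

/-- **PSCH**: the scale invariant interior estimate for `Pop` -/
def PSCH : Prop :=
  ∀ (k : ℕ) (lam M δ : ℝ), 0 < lam → 0 < δ → δ ≤ 1 → ∃ C : ℝ, 0 < C ∧
    ∀ (G w : MetricField 4) (U : Set E4) (x y0 : E4) (ρ N S : ℝ), 0 < ρ → 0 ≤ N → 0 ≤ S →
      IsRiemannianOn G U → SmT (matT w) U → (∀ y ∈ U, (w y).IsSymm) →
      (∀ y ∈ closedBall y0 δ, x + ρ • y ∈ U) →
      (∀ y ∈ ball y0 δ, ∀ ξ : Fin 4 → ℝ,
        lam * ∑ i, ξ i ^ 2 ≤ ∑ i, ∑ j, G (x + ρ • y) i j * ξ i * ξ j) →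
      (∀ a b, CKA (1 / 2) (ball y0 δ) (k + 2) M fun y => G (x + ρ • y) a b) →
      (∀ a b, CKA (1 / 2) (ball y0 δ) k N fun y => ρ ^ 2 * Pop G w (x + ρ • y) a b) →
      (∀ a b, ∫ y in ball y0 δ, w (x + ρ • y) a b ^ 2 ≤ S ^ 2) →
      ∀ a b, CKA (1 / 2) (ball y0 (δ / 2)) (k + 2) (C * (N + S)) fun y => w (x + ρ • y) a b

variable {M : Type*} (T : TD M)

/-- the weight: `1` up to the depth `T1`, then `∼ |x|^{σ - 1}` on all ends -/
def eta (v : T.V) (σ T1 : ℝ) : T.S → E4 → ℝ :=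
  Sum.elim (fun _ _ => 1) fun u x =>
    Real.exp ((if u = v then σ - 1 else 1 - σ) * ph (tau T v u T1 x))

/-- the weighted energy (independent of `T0`) -/
def NK (g : T.V → Fam T) (v : T.V) (η : T.S → E4 → ℝ) (s t : Fam T) : ℝ :=
  (T.core v).int T.χ (g v) fun a x => η a x ^ 2 * eC (scl T a x) (matT (s a)) (matT (t a)) x

/-- the weighted pairing -/
def IK (g : T.V → Fam T) (T0 : ℝ) (v : T.V) (η : T.S → E4 → ℝ) (s t : Fam T) : ℝ :=
  (T.core v).int T.χ (gb T g T0 v) fun a x =>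
    η a x ^ 2 * ip (gb T g T0 v a) (matT (s a)) (matT (t a)) x

/-- the operator -/
def PK (g : T.V → Fam T) (T0 : ℝ) (v : T.V) (s : Fam T) : Fam T :=
  fun a => Pop (gb T g T0 v a) (s a)

/-- test sections -/
structure Tst (v : T.V) (t : Fam T) : Prop where
  sec : Sec T v t
  cs : ∃ S, (T.core v).CS S ∧ (T.core v).Van t S

/-- **TRF**: cell bounds extend beyond the cells -/
def TRF : Prop :=
  T.Ok → ∀ k j : ℕ, ∃ C δ : ℝ, 0 < C ∧ 0 < δ ∧ δ ≤ 1 / 8 ∧ ∀ (v : T.V) (F : Fam T) (N : ℝ),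
    Sec T v F → CBd T v univ k j N F → ∀ s, ∀ x ∈ T.cK v s, ∀ y0 ∈ B1, ∀ a b,
      CKA (1 / 2) (ball y0 δ) k (C * N) fun y => rad T s x ^ j * F s (x + rad T s x • y) a b

/-- **PSB**: sections vanishing on the ends are bounded on the cells -/
def PSB : Prop :=
  T.Ok → ∀ (k j : ℕ) (v : T.V) (T1 : ℝ) (F : Fam T), Sec T v F → CB.Van T v T1 0 F →
    ∃ N : ℝ, 0 ≤ N ∧ CBd T v univ k j N F

/-- **GBJ**: the reference metrics of the cores, uniformly in `T0` -/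
def GBJ (g : T.V → Fam T) : Prop :=
  ∃ T1 lam : ℝ, 0 < lam ∧ (∀ v T0, T1 ≤ T0 → (T.core v).IsMet (gb T g T0 v)) ∧
    ∀ k : ℕ, ∃ K : ℝ, ∀ v T0, T1 ≤ T0 → ∀ s, ∀ x ∈ T.cK v s,
      (∀ y ∈ ball (0 : E4) (9 / 8), ∀ ξ : Fin 4 → ℝ, lam * ∑ i, ξ i ^ 2 ≤
        ∑ i, ∑ j, gb T g T0 v s (x + rad T s x • y) i j * ξ i * ξ j) ∧
      ∀ a b, CKA (1 / 2) (ball 0 (9 / 8)) k K fun y => gb T g T0 v s (x + rad T s x • y) a b

variable (g : T.V → Fam T) (κ : T.V → Type) [∀ v, Fintype (κ v)] (ψ : ∀ v, κ v → Fam T)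

/-- **EIG**: the constraints are eigensections of the trace reversal -/
def EIG : Prop :=
  ∀ v j, ∃ e : ℝ, (e = 1 ∨ e = -1) ∧
    ∀ s, ∀ x ∈ (T.core v).U s, TRg (g v s x) (ψ v j s x) = e • ψ v j s x

open Classical in
/-- **DUAL**: the Gram matrix of the constraints is invertible -/
def DUAL : Prop :=
  ∀ v, ∃ a : κ v → κ v → ℝ, ∀ i j,
    pair T g v (ψ v i) (∑ l, a j l • ψ v l) = if i = j then 1 else 0

/-- **COER**: boundedness and coercivity of the weighted form on tests, uniformly in `T0` -/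
def COER (σ : ℝ) : Prop :=
  ∃ T1 c q : ℝ, 4 / T.r ≤ Real.exp T1 ∧ 0 < c ∧ 0 ≤ q ∧ Psi T κ ψ T1 ∧
    ∀ v T0, T1 ≤ T0 → (∀ s t, Tst T v s → Tst T v t → |IK T g T0 v (eta T v σ T1) (PK T g T0 v s) t| ≤
      q * √(NK T g v (eta T v σ T1) s s) * √(NK T g v (eta T v σ T1) t t)) ∧
    ∀ t, Tst T v t → (∀ j, pair T g v (ψ v j) t = 0) →
      c * NK T g v (eta T v σ T1) t t ≤ IK T g T0 v (eta T v σ T1) (PK T g T0 v t) t

end Crest.Agent.N207.K

end
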