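import Crest.Agent.N207.K.Trf1
import Crest.Agent.N207.K.KDefs
import Crest.Agent.N207.I.Car3

/-!
# Row 207, block K (helper10): the leaves `TRF` and `PSB`
-/

set_option autoImplicit false

open scoped ContDiff
open Metric Set Filter Topology
open Crest.GeometryTopology.CoordMetric
open Crest.Agent.NLib.Ell Crest.Agent.N207.I Crest.Agent.N207.CB Crest.Agent.N207.I.TD

noncomputable section

namespace Crest.Agent.N207.K

variable {M : Type*} {T : TD M}

theorem rad_pos' {v : T.V} {s : T.S} {x : E4} (hx : x ∈ T.cK v s) : 0 < rad T s x := by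
  cases s with
  | inl a => norm_num [rad]
  | inr w =>
    have : 0 < ‖x‖ := by
      by_cases hw : w = v
      · subst hw; linarith [mem_cK_out.1 hx]
      · exact ((mem_cK_inn hw).1 hx).2.1
    simpa [rad] using this

theorem nrm_cell (x : E4) {y : E4} (hy : y ∈ B1) {r : ℝ} (hr : 0 ≤ r) :
    ‖x‖ - r ≤ ‖x + r • y‖ ∧ ‖x + r • y‖ ≤ ‖x‖ + r := by
  have h1 : ‖r • y‖ ≤ r := by
    rw [norm_smul, Real.norm_of_nonneg hr]
    exact mul_le_of_le_one_right hr (mem_ball_zero_iff.1 hy).le
  have h2 := norm_sub_le (x + r • y) (r • y)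
  rw [add_sub_cancel_right] at h2
  exact ⟨by linarith, (norm_add_le _ _).trans (by linarith)⟩

theorem cpt_ann (p q : ℝ) : IsCompact {z : E4 | p ≤ ‖z‖ ∧ ‖z‖ ≤ q} :=
  (isCompact_closedBall (0 : E4) q).of_isClosed_subset
    ((isClosed_le continuous_const continuous_norm).inter
      (isClosed_le continuous_norm continuous_const)) fun _ h => mem_closedBall_zero_iff.2 h.2

/-- the points of a cell are in a fixed compact set, or deep in the end -/
theorem cell_cases (h : T.Ok) (v : T.V) (s : T.S) {R ε : ℝ} (hR : 2 ≤ R) (hε : 0 < ε) :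
    ∃ K : Set E4, IsCompact K ∧ K ⊆ (T.core v).U s ∧ ∀ x ∈ T.cK v s,
      (8 * rad T s x ≤ R ∧ ∀ y ∈ B1, x + rad T s x • y ∈ K) ∨
      (s = Sum.inr v ∧ R ≤ ‖x‖) ∨ ∃ w, w ≠ v ∧ s = Sum.inr w ∧ ‖x‖ ≤ ε := by
  have hr := h.r_pos
  have hr1 := h.r_lt
  cases s with
  | inl a =>
    by_cases hv : T.vx a = v
    · refine ⟨_, cpt_ann 0 (13 / 8), fun z hz => mem_core_inl.2 ⟨hv, by linarith [hz.2]⟩,
        fun x hx => Or.inl ⟨by simp only [rad, Sum.elim_inl]; linarith, fun y hy =>
          ⟨norm_nonneg _, ?_⟩⟩⟩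
      have := (nrm_cell x hy (rad_pos' hx).le).2
      simp only [rad, Sum.elim_inl] at this ⊢
      linarith [(mem_cK_inl.1 hx).2]
    · exact ⟨∅, isCompact_empty, empty_subset _, fun x hx => absurd (mem_cK_inl.1 hx).1 hv⟩
  | inr w =>
    by_cases hw : w = v
    · subst hw
      refine ⟨_, cpt_ann (21 / 16) (9 / 8 * R), fun z hz => mem_core_out.2 (by linarith [hz.1]),
        fun x hx => ?_⟩
      rcases le_total ‖x‖ R with h1 | h1
      · refine Or.inl ⟨by simp only [rad, Sum.elim_inr]; linarith, fun y hy => ?_⟩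
        have := nrm_cell x hy (rad_pos' hx).le
        simp only [rad, Sum.elim_inr] at this ⊢
        exact ⟨by linarith [mem_cK_out.1 hx, this.1], by linarith [this.2]⟩
      · exact Or.inr (Or.inl ⟨rfl, h1⟩)
    · by_cases hk : T.kid v w
      · refine ⟨_, cpt_ann (7 / 8 * ε) (27 / 32 * T.r), fun z hz =>
          (mem_core_inn hw).2 ⟨hk, by linarith [hz.1], by linarith [hz.2]⟩, fun x hx => ?_⟩
        have h2 := ((mem_cK_inn hw).1 hx).2.2
        rcases le_total ε ‖x‖ with h1 | h1
        · refine Or.inl ⟨by simp only [rad, Sum.elim_inr]; linarith, fun y hy => ?_⟩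
          have := nrm_cell x hy (rad_pos' hx).le
          simp only [rad, Sum.elim_inr] at this ⊢
          exact ⟨by linarith [this.1], by linarith [this.2]⟩
        · exact Or.inr (Or.inr ⟨w, hw, rfl, h1⟩)
      · exact ⟨∅, isCompact_empty, empty_subset _,
          fun x hx => absurd ((mem_cK_inn hw).1 hx).1 hk⟩

variable (T)

theorem trf : TRF T := by
  intro h k j
  have hr := h.r_pos
  choose K hK hU hc using fun v s =>
    cell_cases h v s (R := 2) (ε := 2 / 3 * T.r) le_rfl (by positivity)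
  have h1 := eventually_all.2 fun v => eventually_all.2 fun s =>
    trf_cpt (h.core_ok v) (h.core_pou v) (ρ := rad T) (fun _ _ hx => rad_pos' hx) k j
      (hK v s) (hU v s)
  obtain ⟨t, ⟨ht, ht8⟩, ht0⟩ := (((h1.and (Iio_mem_nhds (by norm_num : (0 : ℝ) < 1 / 8))).filter_mono
    (nhdsWithin_le_nhds (s := Ioi 0))).and self_mem_nhdsWithin).exists
  have ht0 : 0 < t := ht0
  have ht8 : t < 1 / 8 := ht8
  refine ⟨t⁻¹ + 2 ^ j * 2 ^ (k + 1), t, by positivity, ht0, ht8.le,
    fun v F N hF hN s x hx y0 hy0 a b => ?_⟩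
  have hρ := rad_pos' hx
  have hN0 : 0 ≤ N := (hN s x hx trivial a b).nonneg (mem_ball_self one_pos)
  have nb : x + rad T s x • y0 ∈ T.cK v s → rad T s x ≤ 2 * rad T s (x + rad T s x • y0) →
      CKA (1 / 2) (ball y0 t) k ((t⁻¹ + 2 ^ j * 2 ^ (k + 1)) * N)
        fun y => rad T s x ^ j * F s (x + rad T s x • y) a b := fun hz h2 => by
    have hρ' := rad_pos' hz
    have h3 := resc (w := fun p => rad T s (x + rad T s x • y0) ^ j * F s p a b) (L := 2)
      (by norm_num) (by norm_num) ((hN s _ hz trivial a b).subset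
        (ball_subset_ball (by norm_num : (1 / 4 : ℝ) ≤ 1))) hρ hρ' (by norm_num) h2 rfl
    refine (((h3.subset (ball_subset_ball (by linarith))).const_mul isOpen_ball
      ((rad T s x / rad T s (x + rad T s x • y0)) ^ j)).congr isOpen_ball fun y _ => ?_).mono ?_
    · rw [div_pow]; field_simp
    · have : (rad T s x / rad T s (x + rad T s x • y0)) ^ j ≤ 2 ^ j :=
        pow_le_pow_left₀ (by positivity) ((div_le_iff₀ hρ').2 h2) j
      rw [abs_of_pos (by positivity), add_mul, mul_assoc]
      exact le_add_of_nonneg_of_le (by positivity)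
        (mul_le_mul_of_nonneg_right this (by positivity))
  have hn := nrm_cell x hy0 hρ.le
  rcases hc v s x hx with ⟨h2, h3⟩ | ⟨rfl, h2⟩ | ⟨w, hw, rfl, h2⟩
  · have h4 := (ht v s _ (h3 y0 hy0) ht0 F N hF.sec.compat (fun s x hx => hN s x hx trivial)
      a b).dilate isOpen_ball (by norm_num) (by norm_num) x (r := rad T s x)
      (by rw [abs_of_pos hρ]; linarith)
    refine ((h4.subset fun y hy => ?_).const_mul isOpen_ball (rad T s x ^ j)).mono ?_
    · rw [mem_preimage, mem_ball_iff_norm, add_sub_add_left_eq_sub, ← smul_sub, norm_smul,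
        Real.norm_of_nonneg hρ.le]
      exact (mul_le_of_le_one_left (norm_nonneg _) (by linarith)).trans_lt (mem_ball_iff_norm.1 hy)
    · have : rad T s x ^ j ≤ 1 := pow_le_one₀ hρ.le (by linarith)
      rw [abs_of_pos (by positivity), add_mul]
      exact le_add_of_le_of_nonneg (mul_le_of_le_one_left (by positivity) this) (by positivity)
  · simp only [rad, Sum.elim_inr] at hn nb ⊢
    exact nb (mem_cK_out.2 (by linarith [hn.1])) (by linarith [hn.1])
  · simp only [rad, Sum.elim_inr] at hn nb hρ ⊢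
    exact nb ((mem_cK_inn hw).2 ⟨((mem_cK_inn hw).1 hx).1, by linarith [hn.1], by linarith [hn.2]⟩)
      (by linarith [hn.1])

theorem psb : PSB T := by
  intro h k j v T1 F hF hV
  have key : ∀ s, ∃ N : ℝ, 0 ≤ N ∧ ∀ x ∈ T.cK v s, ∀ a b,
      CKA (1 / 2) B1 k N fun y => rad T s x ^ j * F s (x + rad T s x • y) a b := fun s => by
    have e1 := Real.exp_pos T1
    have e2 := Real.exp_pos (-T1)
    obtain ⟨K, hK, hU, hc⟩ := cell_cases h v s (R := 2 + 2 * Real.exp T1)
      (ε := Real.exp (-T1) / 2) (by linarith) (by positivity)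
    obtain ⟨V, hV0, hb⟩ := cka_cpt (g := fun z (I : Fin 2 → Fin 4) => matT (F s) z I) (a := 1 / 2)
      ((h.core_ok v).isOpen s) (contDiffOn_pi.2 (hF.sec.sm s)) hK hU (by norm_num) (by norm_num) k
      (2 + 2 * Real.exp T1)
    refine ⟨(2 + 2 * Real.exp T1) ^ j * V, by positivity, fun x hx a b => ?_⟩
    have hρ := rad_pos' hx
    have z0 : (∀ y ∈ B1, F s (x + rad T s x • y) = 0) → CKA (1 / 2) B1 k
        ((2 + 2 * Real.exp T1) ^ j * V) fun y => rad T s x ^ j * F s (x + rad T s x • y) a b :=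
      fun h0 => (CKA.zero.congr isOpen_ball fun y hy => by simp [h0 y hy]).mono (by positivity)
    rcases hc x hx with ⟨h2, h3⟩ | ⟨rfl, h2⟩ | ⟨w, hw, rfl, h2⟩
    · refine (((hb x _ hρ (by linarith) h3).apply isOpen_ball ![a, b]).const_mul isOpen_ball
        (rad T s x ^ j)).mono (mul_le_mul_of_nonneg_right ?_ hV0)
      rw [abs_of_pos (by positivity)]
      exact pow_le_pow_left₀ hρ.le (by linarith) j
    · refine z0 fun y hy => ?_
      have hn := nrm_cell x hy hρ.le
      simp only [rad, Sum.elim_inr] at hn ⊢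
      refine hV v _ (mem_core_out.2 (by linarith [hn.1])) ?_
      rw [tau, if_pos rfl, sub_nonneg, Real.le_log_iff_exp_le (by linarith [hn.1])]
      linarith [hn.1]
    · refine z0 fun y hy => ?_
      have hn := nrm_cell x hy hρ.le
      have hx' := (mem_cK_inn hw).1 hx
      simp only [rad, Sum.elim_inr] at hn ⊢
      refine hV w _ ((mem_core_inn hw).2 ⟨hx'.1, by linarith [hn.1, hx'.2.1],
        by linarith [hn.2, hx'.2.2, h.r_pos]⟩) ?_
      rw [tau, if_neg hw, sub_nonneg, le_neg,
        Real.log_le_iff_le_exp (by linarith [hn.1, hx'.2.1])]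
      linarith [hn.2]
  choose N hN0 hN using key
  exact ⟨∑ s, N s, Finset.sum_nonneg fun s _ => hN0 s, fun s x hx _ a b => (hN s x hx a b).mono
    (Finset.single_le_sum (fun s _ => hN0 s) (Finset.mem_univ s))⟩

end Crest.Agent.N207.K

end
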