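import Crest.Agent.NLib.Ell.SchAll
import Mathlib.MeasureTheory.Measure.Lebesgue.EqHaar
import Mathlib.MeasureTheory.Measure.Haar.InnerProductSpace

/-!
# Row 207, block K (helper3): interior Schauder estimates for SYSTEMS with scalar principal part,
with the `L²` norm on the right.
-/

set_option autoImplicit false
open MeasureTheory Metric Set Filter Topology
open scoped ContDiff

namespace Crest.Agent.N207.K

open Crest.Agent.NLib.Ell Crest.Agent.R238.Sch Crest.Agent.R273.SchA_152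
open Crest.Agent.R273.SchB_152 (P2)
open Crest.Agent.R238 (Ell)
open Crest.Agent.R335 (pd)

noncomputable section

variable {n : ℕ} {ι : Type} [Fintype ι]

/-- hypotheses of the interior estimate for systems -/
structure SyH (k : ℕ) (a lo hi M : ℝ) (U : Set (EE n)) (τ : EE n → Matrix (Fin n) (Fin n) ℝ)
    (β : Fin n → ι → ι → EE n → ℝ) (c : ι → ι → EE n → ℝ) (u f : ι → EE n → ℝ) (N S : ℝ) :
    Prop where
  ell : ∀ x ∈ U, Ell lo hi (τ x)
  hτ : ∀ i j, CKA a U k M fun x => τ x i j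
  hβ : ∀ i p q, CKA a U k M (β i p q)
  hc : ∀ p q, CKA a U k M (c p q)
  hf : ∀ p, CKA a U k N (f p)
  hu : ∃ V, ∀ p, CKA a U 2 V (u p)
  S0 : 0 ≤ S
  hS : ∀ p, ∫ x in U, u p x ^ 2 ≤ S ^ 2
  eq : ∀ p, ∀ x ∈ U,
    P2 τ (u p) x + ∑ i, ∑ q, β i p q x * pd i (u q) x + ∑ q, c p q x * u q x = f p x

variable {a lo hi M N S : ℝ} {U : Set (EE n)} {k : ℕ} {τ : EE n → Matrix (Fin n) (Fin n) ℝ}
  {β : Fin n → ι → ι → EE n → ℝ} {c : ι → ι → EE n → ℝ} {u f : ι → EE n → ℝ}

theorem SyH.pred (h : SyH (k + 1) a lo hi M U τ β c u f N S) : SyH k a lo hi M U τ β c u f N S :=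
  ⟨h.ell, fun i j => (h.hτ i j).pred, fun i p q => (h.hβ i p q).pred, fun p q => (h.hc p q).pred,
    fun p => (h.hf p).pred, h.hu, h.S0, h.hS, h.eq⟩

/-- closedness of the class in the constant -/
theorem cka_of_forall {F : Type} [NormedAddCommGroup F] [NormedSpace ℝ F] {g : EE n → F} {K : ℝ}
    (h : ∀ ε > 0, CKA a U k (K + ε) g) : CKA a U k K g := by
  have h0 : ∀ {g : EE n → F}, (∀ ε > 0, HO a (K + ε) U g) → HO a K U g := fun {g} h =>
    ⟨fun x hx => le_of_forall_pos_le_add fun ε hε => (h ε hε).bdd x hx, fun x hx y hy => by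
      have t : Tendsto (fun ε : ℝ => (K + ε) * ‖x - y‖ ^ a) (𝓝[>] 0) (𝓝 ((K + 0) * ‖x - y‖ ^ a)) :=
        (((continuous_const.add continuous_id).mul continuous_const).tendsto 0).mono_left
          nhdsWithin_le_nhds
      rw [add_zero] at t
      exact ge_of_tendsto t (eventually_mem_nhdsWithin.mono fun ε hε => (h ε hε).hol x hx y hy)⟩
  induction k generalizing g with
  | zero => exact h0 h
  | succ k ih =>
    exact ⟨h0 fun ε hε => (h ε hε).1, (h 1 one_pos).2.1, fun i => ih fun ε hε => (h ε hε).2.2 i⟩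

/-- smooth functions near a closed ball are in every class -/
theorem exists_cka {F : Type} [NormedAddCommGroup F] [NormedSpace ℝ F] {g : EE n → F}
    (hU : IsOpen U) (hg : ContDiffOn ℝ ∞ g U) {x0 : EE n} {R : ℝ} (hR : closedBall x0 R ⊆ U)
    (ha : 0 ≤ a) (ha1 : a ≤ 1) (k : ℕ) : ∃ V, CKA a (ball x0 R) k V g := by
  have hb : ∀ j : ℕ, ∃ B, ∀ x ∈ closedBall x0 R, ‖iteratedFDeriv ℝ j g x‖ ≤ B := fun j =>
    (isCompact_closedBall x0 R).exists_bound_of_continuousOn fun x hx =>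
      ((hg.contDiffAt (hU.mem_nhds (hR hx))).iteratedFDeriv_right (m := 0) (i := j)
        (by exact_mod_cast le_top)).continuousAt.continuousWithinAt
  choose B hB using hb
  refine ⟨_, CKA.of_bounds (M := ∑ j ∈ Finset.range (k + 2), |B j|) isOpen_ball (convex_ball _ _) ha ha1
    ((hg.mono (ball_subset_closedBall.trans hR)).of_le (by exact_mod_cast le_top)) fun j hj x hx => ?_⟩
  exact ((hB j x (ball_subset_closedBall hx)).trans (le_abs_self _)).trans
    (Finset.single_le_sum (f := fun j => |B j|) (fun _ _ => abs_nonneg _)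
      (Finset.mem_range.2 (by omega)))

/-- volume of the unit ball -/
def om (n : ℕ) : ℝ := (volume : Measure (EE n)).real (ball 0 1)

theorem om_pos (n : ℕ) : 0 < om n :=
  ENNReal.toReal_pos (measure_ball_pos _ _ one_pos).ne' measure_ball_lt_top.ne

theorem vol_ball (y : EE n) {ρ : ℝ} (hρ : 0 < ρ) :
    (volume : Measure (EE n)).real (ball y ρ) = ρ ^ n * om n := by
  rw [om, measureReal_def, measureReal_def, Measure.addHaar_ball_of_pos _ _ hρ, ENNReal.toReal_mul,
    ENNReal.toReal_ofReal (by positivity), finrank_euclideanSpace_fin]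

/-- value at the centre from the oscillation and the `L²` norm -/
theorem abs_le_osc {w : EE n → ℝ} {y : EE n} {ρ E T : ℝ} (hρ : 0 < ρ) (hρ1 : ρ ≤ 1) (hT : 0 ≤ T)
    (hi : IntegrableOn (fun z => w z ^ 2) (ball y ρ)) (hE : ∀ z ∈ ball y ρ, |w z - w y| ≤ E)
    (h : ∫ z in ball y ρ, w z ^ 2 ≤ T ^ 2) : |w y| ≤ E + T / (ρ ^ n * √(om n)) := by
  have ho := om_pos n
  have hp : 0 < ρ ^ n * √(om n) := by positivity
  rcases le_or_gt (|w y| - E) 0 with h0 | h0
  · have : 0 ≤ T / (ρ ^ n * √(om n)) := by positivity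
    linarith
  have h1 : ∫ _ in ball y ρ, (|w y| - E) ^ 2 ≤ ∫ z in ball y ρ, w z ^ 2 := by
    refine setIntegral_mono_on (integrableOn_const measure_ball_lt_top.ne) hi measurableSet_ball
      fun z hz => ?_
    rw [← sq_abs (w z)]
    refine pow_le_pow_left₀ h0.le ?_ 2
    have := abs_sub_abs_le_abs_sub (w y) (w z)
    rw [abs_sub_comm] at this
    linarith [hE z hz]
  rw [setIntegral_const, vol_ball y hρ, smul_eq_mul] at h1
  have h2 : ρ ^ n * ρ ^ n ≤ ρ ^ n := mul_le_of_le_one_left (by positivity) (pow_le_one₀ hρ.le hρ1)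
  have h3 : ((|w y| - E) * (ρ ^ n * √(om n))) ^ 2 ≤ T ^ 2 := by
    rw [mul_pow, mul_pow, Real.sq_sqrt ho.le]
    have := mul_le_mul_of_nonneg_right h2 (mul_nonneg ho.le (sq_nonneg (|w y| - E)))
    nlinarith
  have h4 := (pow_le_pow_iff_left₀ (by positivity) hT two_ne_zero).1 h3
  rw [← le_div_iff₀ hp] at h4
  linarith

/-- change of the centre and of the scale -/
theorem resc {w : EE n → ℝ} {x x' : EE n} {r r' L K : ℝ} (ha : 0 ≤ a) (ha1 : a ≤ 1)
    (h : CKA a (ball 0 (1 / 4)) k K fun y => w (x' + r' • y)) (hr : 0 < r) (hr' : 0 < r')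
    (hL : 1 ≤ L) (hrr : r ≤ L * r') {y0 : EE n} (hy : x + r • y0 = x') :
    CKA a (ball y0 (1 / (4 * L))) k (L ^ (k + 1) * K) fun y => w (x + r • y) := by
  have h1 : |r / r'| ≤ L := by rw [abs_of_pos (by positivity), div_le_iff₀ hr']; exact hrr
  refine ((h.affine isOpen_ball ha ha1 (-(r / r') • y0) h1 hL).subset fun z hz => ?_).congr
    isOpen_ball fun z _ => ?_
  · rw [mem_preimage, mem_ball_zero_iff, neg_smul, neg_add_eq_sub, ← smul_sub, norm_smul,
      Real.norm_eq_abs]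
    rw [mem_ball, dist_eq_norm, lt_div_iff₀ (by positivity)] at hz
    have := mul_le_mul_of_nonneg_right h1 (norm_nonneg (z - y0))
    nlinarith
  · congr 1
    rw [← hy, smul_add, smul_smul, smul_smul, mul_neg, mul_div_cancel₀ _ hr'.ne', neg_smul]
    abel

theorem pd_aff (i : Fin n) (w : EE n → ℝ) (x : EE n) (r : ℝ) (y : EE n) :
    pd i (fun y => w (x + r • y)) y = r * pd i w (x + r • y) := by
  simp only [pd, fderiv_aff, _root_.smul_apply, smul_eq_mul]

theorem P2_aff (w : EE n → ℝ) (x : EE n) (r : ℝ) (y : EE n) :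
    P2 (fun y => τ (x + r • y)) (fun y => w (x + r • y)) y = r ^ 2 * P2 τ w (x + r • y) := by
  simp only [P2, D2_aff, _root_.smul_apply, smul_eq_mul, Finset.mul_sum]
  exact Finset.sum_congr rfl fun i _ => Finset.sum_congr rfl fun j _ => by ring

/-- moving the coupling to the right hand side -/
theorem SyH.scalar (h : SyH k a lo hi M U τ β c u f N S) {V : Set (EE n)}
    (hV : IsOpen V) (hVU : V ⊆ U) {K T : ℝ} (hK : ∀ q, CKA a V (k + 1) K (u q)) (p : ι)
    (hM : 0 ≤ M) (hT : ∀ x ∈ V, |u p x| ≤ T) :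
    ∃ g, SchH k a lo hi M V τ (fun _ _ => 0) (fun _ => 0) (u p) g
      (N + (n + 1) * Fintype.card ι * (2 ^ (k + 1) * (M * K))) T := by
  have h1 := CKA.sum_le hV fun i => CKA.sum_le hV fun q =>
    ((h.hβ i p q).subset hVU).mul hV ((hK q).pd i)
  have h2 := CKA.sum_le hV fun q => ((h.hc p q).subset hVU).mul hV (hK q).pred
  obtain ⟨W, hW⟩ := h.hu
  refine ⟨_, fun x hx => h.ell x (hVU hx), fun i j => (h.hτ i j).subset hVU,
    fun _ => CKA.zero.mono hM, CKA.zero.mono hM,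
    ((((h.hf p).subset hVU).sub hV h1).sub hV h2).mono (le_of_eq ?_), ⟨W, (hW p).subset hVU⟩, hT,
    fun x hx => ?_⟩
  · rw [Fintype.card_fin]; ring
  · have := h.eq p x (hVU hx)
    simp only [zero_mul, Finset.sum_const_zero, add_zero]
    simp only [pd] at this
    linarith

/-- rescaling of the system -/
theorem SyH.aff (hU : IsOpen U) (ha : 0 ≤ a) (ha1 : a ≤ 1) (h : SyH k a lo hi M U τ β c u f N S)
    (x : EE n) {r : ℝ} (hr : 0 < r) (hr1 : r ≤ 1) (hx : ball x r ⊆ U) {σ : ℝ} (hσ : r ≤ σ)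
    (hM : 0 ≤ M) (hN : 0 ≤ N) {K T : ℝ}
    (hK : ∀ q, CKA a (ball 0 1) (k + 1) K fun y => u q (x + r • y)) (p : ι)
    (hT : ∀ y ∈ ball (0 : EE n) 1, |u p (x + r • y)| ≤ T) :
    ∃ g, SchH k a lo hi M (ball 0 1) (fun y => τ (x + r • y)) (fun _ _ => 0) (fun _ => 0)
      (fun y => u p (x + r • y)) g
      (N + (n + 1) * Fintype.card ι * (2 ^ (k + 1) * (σ * M * K))) T := by
  have hs : ball (0 : EE n) 1 ⊆ (fun y => x + r • y) ⁻¹' U := fun y hy => hx (by
    rw [mem_ball_zero_iff] at hy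
    rw [mem_ball, dist_eq_norm, add_sub_cancel_left, norm_smul, Real.norm_of_nonneg hr.le]
    exact mul_lt_of_lt_one_right hr hy)
  have hr' : |r| ≤ 1 := by rwa [abs_of_pos hr]
  have dl : ∀ {g : EE n → ℝ} {L : ℝ} {j : ℕ}, CKA a U j L g →
      CKA a (ball 0 1) j L fun y => g (x + r • y) := fun hg => (hg.dilate hU ha ha1 x hr').subset hs
  have hr2 : r ^ 2 ≤ r := by nlinarith
  have dm : ∀ {g : EE n → ℝ} (t : ℝ), 0 ≤ t → t ≤ r → CKA a U k M g →
      CKA a (ball 0 1) k (σ * M) fun y => t * g (x + r • y) := fun t h0 ht hg =>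
    ((dl hg).const_mul isOpen_ball t).mono
      (mul_le_mul_of_nonneg_right (by rw [abs_of_nonneg h0]; linarith) hM)
  have h0 : CKA a (ball 0 1) k N fun y => r ^ 2 * f p (x + r • y) :=
    ((dl (h.hf p)).const_mul isOpen_ball _).mono
      (mul_le_of_le_one_left hN (by rw [abs_of_nonneg (sq_nonneg r)]; linarith))
  have h1 := CKA.sum_le isOpen_ball fun i => CKA.sum_le isOpen_ball fun q =>
    (dm r hr.le le_rfl (h.hβ i p q)).mul isOpen_ball ((hK q).pd i)
  have h2 := CKA.sum_le isOpen_ball fun q =>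
    (dm _ (sq_nonneg r) hr2 (h.hc p q)).mul isOpen_ball (hK q).pred
  obtain ⟨W, hW⟩ := h.hu
  refine ⟨_, fun y hy => h.ell _ (hs hy), fun i j => dl (h.hτ i j),
    fun _ => CKA.zero.mono hM, CKA.zero.mono hM,
    ((h0.sub isOpen_ball h1).sub isOpen_ball h2).mono (le_of_eq ?_), ⟨W, dl (hW p)⟩, hT,
    fun y hy => ?_⟩
  · rw [Fintype.card_fin]; ring
  · have e := h.eq p _ (hs hy)
    have e2 : ∀ i q, fderiv ℝ (fun y => u q (x + r • y)) y (ei i) = r * pd i (u q) (x + r • y) :=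
      fun i q => pd_aff i (u q) x r y
    simp only [zero_mul, Finset.sum_const_zero, add_zero, P2_aff, e2, ← e, mul_add, Finset.mul_sum]
    have e3 : ∀ i q, r ^ 2 * (β i p q (x + r • y) * pd i (u q) (x + r • y)) =
        r * β i p q (x + r • y) * (r * pd i (u q) (x + r • y)) := fun i q => by ring
    simp only [e3, mul_assoc]
    ring

end

end Crest.Agent.N207.K
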