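import Crest.Agent.N207.K.Hd3
import Crest.Agent.N207.I.Defs

/-!
# Row 207, block K (helper5): `Atl.Conn`; Hardy inequalities for equivariant fields
-/

set_option autoImplicit false
open MeasureTheory Set Filter Topology Metric
open scoped ContDiff InnerProductSpace
open Crest.GeometryTopology.CoordMetric
open Crest.Agent.R246.Zon797 (isoS isoS_coe integral_isoS)

noncomputable section

namespace Crest.Agent.N207

/-- the part of the carrier covered by the charts is connected -/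
def I.Atl.Conn {X : Type*} {α : Type} (A : I.Atl X α) : Prop :=
  ∀ S : Set X, A.Cl S → A.Cl Sᶜ →
    (∀ a, ∀ x ∈ A.U a, A.c a x ∈ S) ∨ (∀ a, ∀ x ∈ A.U a, A.c a x ∉ S)

namespace Hd

variable {U : Set E4} {u : E4 → ℝ} {a c r : ℝ}

theorem mem_An_sph (ha : 0 < a) (hr : r ∈ Icc a c) (s : J.S3) : r • (s : E4) ∈ An a c := by
  simp only [An, mem_ofPred_eq, norm_smul_sph (ha.trans_le hr.1)]; exact hr

theorem contOn_rpow (p : ℝ) : ContinuousOn (fun s : ℝ => s ^ p) (Ioi 0) := fun s hs =>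
  (Real.continuousAt_rpow_const s p (Or.inl (ne_of_gt hs))).continuousWithinAt

theorem int_wt_g2 (ha : 0 < a) (σ : ℝ) (u : E4 → ℝ) :
    ∫ x in An a c, (‖x‖ ^ 2) ^ (σ - 1) * (‖x‖ ^ 2 * g2 u x) =
      ∫ x in An a c, (‖x‖ ^ 2) ^ σ * g2 u x := by
  refine setIntegral_congr_fun (measurableSet_An a c) fun x hx => ?_
  have := (pos_of_An ha hx).ne'
  rw [Real.rpow_sub_one (pow_pos (pos_of_An ha hx) 2).ne']; field_simp

/-- `3 ∫ |x|^(2σ-2) u² + ∫ |x|^(2σ-2) (x·Du)² ≤ ∫ |x|^(2σ) |Du|²`, no boundary terms -/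
theorem poinc3 (hU : IsOpen U) (hu : ContDiffOn ℝ 1 u U) (ha : 0 < a) (hsub : An a c ⊆ U)
    (h : ∀ r ∈ Icc a c, M0 u r) (σ : ℝ) :
    3 * (∫ x in An a c, (‖x‖ ^ 2) ^ (σ - 1) * u x ^ 2) +
      ∫ x in An a c, (‖x‖ ^ 2) ^ (σ - 1) * dr u x ^ 2 ≤ ∫ x in An a c, (‖x‖ ^ 2) ^ σ * g2 u x := by
  rw [← int_wt_g2 ha σ u]
  exact int_An_poinc hU hu ha hsub (contOn_rpow (σ - 1)) (fun s hs => Real.rpow_nonneg hs.le _)
    fun r hr => sph_poinc3 hU hu (fun s => hsub (mem_An_sph ha hr s)) (h r hr)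

theorem poinc8 (hU : IsOpen U) (hu : ContDiffOn ℝ 1 u U) (ha : 0 < a) (hsub : An a c ⊆ U)
    (h : ∀ r ∈ Icc a c, M1 u r) (σ : ℝ) :
    8 * (∫ x in An a c, (‖x‖ ^ 2) ^ (σ - 1) * u x ^ 2) +
      ∫ x in An a c, (‖x‖ ^ 2) ^ (σ - 1) * dr u x ^ 2 ≤ ∫ x in An a c, (‖x‖ ^ 2) ^ σ * g2 u x := by
  rw [← int_wt_g2 ha σ u]
  exact int_An_poinc hU hu ha hsub (contOn_rpow (σ - 1)) (fun s hs => Real.rpow_nonneg hs.le _)
    fun r hr => sph_poinc8 hU hu (fun s => hsub (mem_An_sph ha hr s)) (h r hr)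

/-- Hardy with constant `(1+σ)² + 3` -/
theorem hardy_M0 {κ : ℝ} (hκ : 1 < κ) : ∃ C : ℝ, 0 ≤ C ∧ ∀ (U : Set E4) (u : E4 → ℝ) (a c σ : ℝ),
    IsOpen U → ContDiffOn ℝ 1 u U → 0 < a → κ * a ≤ c → An a c ⊆ U → (∀ r ∈ Icc a c, M0 u r) →
    (1 + σ) ^ 2 * (∫ x in An (κ * a) (c / κ), (‖x‖ ^ 2) ^ (σ - 1) * u x ^ 2) +
      3 * ∫ x in An a c, (‖x‖ ^ 2) ^ (σ - 1) * u x ^ 2 ≤
      (∫ x in An a c, (‖x‖ ^ 2) ^ σ * g2 u x) + C * |1 + σ| *
        ∫ x in (if -1 ≤ σ then An (c / κ) c else An a (κ * a)), (‖x‖ ^ 2) ^ (σ - 1) * u x ^ 2 := by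
  obtain ⟨C, hC, h⟩ := hardy_neck hκ
  refine ⟨C, hC, fun U u a c σ hU hu ha hac hsub h0 => ?_⟩
  linarith [h U u a c σ hU hu ha hac hsub, poinc3 hU hu ha hsub h0 σ]

/-- Hardy with constant `(1+σ)² + 8` -/
theorem hardy_M1 {κ : ℝ} (hκ : 1 < κ) : ∃ C : ℝ, 0 ≤ C ∧ ∀ (U : Set E4) (u : E4 → ℝ) (a c σ : ℝ),
    IsOpen U → ContDiffOn ℝ 1 u U → 0 < a → κ * a ≤ c → An a c ⊆ U → (∀ r ∈ Icc a c, M1 u r) →
    (1 + σ) ^ 2 * (∫ x in An (κ * a) (c / κ), (‖x‖ ^ 2) ^ (σ - 1) * u x ^ 2) +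
      8 * ∫ x in An a c, (‖x‖ ^ 2) ^ (σ - 1) * u x ^ 2 ≤
      (∫ x in An a c, (‖x‖ ^ 2) ^ σ * g2 u x) + C * |1 + σ| *
        ∫ x in (if -1 ≤ σ then An (c / κ) c else An a (κ * a)), (‖x‖ ^ 2) ^ (σ - 1) * u x ^ 2 := by
  obtain ⟨C, hC, h⟩ := hardy_neck hκ
  refine ⟨C, hC, fun U u a c σ hU hu ha hac hsub h0 => ?_⟩
  linarith [h U u a c σ hU hu ha hac hsub, poinc8 hU hu ha hsub h0 σ]

/-- the components of an equivariant `1`-form have mean zero on spheres -/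
theorem M0_of_eqv {γ : I.Iso4} (hγ : ∀ x : E4, γ x = x → x = 0) (hr : 0 < r) {w : Fin 4 → E4 → ℝ}
    (hw : ∀ i, Continuous fun s : J.S3 => w i (r • (s : E4)))
    (h : ∀ x : E4, ‖x‖ = r → ∀ i, w i x = ∑ j, γ (EuclideanSpace.single i 1) j * w j (γ x))
    (i : Fin 4) : M0 (w i) r := by
  set m : E4 := WithLp.toLp 2 fun i => ∫ s : J.S3, w i (r • (s : E4)) ∂J.sg with hm
  have h1 : ∀ i, m i = ∑ j, γ (EuclideanSpace.single i 1) j * m j := fun i => by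
    have e : ∀ j, m j = ∫ s : J.S3, w j (γ (r • (s : E4))) ∂J.sg := fun j => by
      have := integral_isoS γ fun s : J.S3 => w j (r • (s : E4))
      simp only [isoS_coe] at this
      simp only [map_smul, this, hm]
    have ci : ∀ j, Integrable (fun s : J.S3 => w j (γ (r • (s : E4)))) J.sg := fun j => by
      have := (hw j).comp (Crest.Agent.R246.Zon797.continuous_isoS γ)
      refine J.integrable_CSR _ (this.congr fun s => ?_)
      simp only [Function.comp_apply, isoS_coe, map_smul]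
    simp only [e, ← integral_const_mul]
    rw [← integral_finsetSum _ fun j _ => (ci j).const_mul _, ← e]
    exact integral_congr_ae (Eventually.of_forall fun s => h _ (norm_smul_sph hr s) i)
  have h2 : γ.symm m = m := by
    ext i
    have : γ.symm m i = ⟪γ (EuclideanSpace.single i 1), m⟫_ℝ := by
      rw [← γ.symm.inner_map_map, γ.symm_apply_apply, EuclideanSpace.inner_single_left]; simp
    rw [this, h1 i, PiLp.inner_apply]
    exact Finset.sum_congr rfl fun j _ => by simp [mul_comm]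
  have h3 : m = 0 := hγ m (by rw [← h2, γ.apply_symm_apply, h2])
  have := congrArg (fun v : E4 => v i) h3
  simpa [hm, M0] using this

theorem sum_fin1 (f : (Fin 1 → Fin 4) → ℝ) : ∑ J, f J = ∑ j, f fun _ => j :=
  ((Equiv.funUnique (Fin 1) (Fin 4)).symm.sum_comp f).symm

/-- the same for `T = γ^* T` -/
theorem M0_of_pull {γ : I.Iso4} (hγ : ∀ x : E4, γ x = x → x = 0) (hr : 0 < r) {T : Tn 4 1}
    (hT : ∀ I, Continuous fun s : J.S3 => T (r • (s : E4)) I)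
    (h : ∀ x : E4, ‖x‖ = r → T x = pullT γ T x) (I : Fin 1 → Fin 4) : M0 (fun y => T y I) r := by
  have hI : I = fun _ => I 0 := funext fun s => by rw [Subsingleton.elim s 0]
  rw [hI]
  refine M0_of_eqv (w := fun i y => T y fun _ => i) hγ hr (fun i => hT _) (fun x hx i => ?_) (I 0)
  have hf : fderiv ℝ γ x = (γ.toContinuousLinearEquiv : E4 →L[ℝ] E4) :=
    γ.toContinuousLinearEquiv.hasFDerivAt.fderiv
  have := congrFun (h x hx) fun _ => i
  rw [this, pullT, evT, sum_fin1, hf]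
  simp

/-- the same for equivariant vector fields -/
theorem M0_of_vec {γ : I.Iso4} (hγ : ∀ x : E4, γ x = x → x = 0) (hr : 0 < r) {V : E4 → E4}
    (hV : Continuous fun s : J.S3 => V (r • (s : E4)))
    (h : ∀ x : E4, ‖x‖ = r → V (γ x) = γ (V x)) (i : Fin 4) : M0 (fun y => V y i) r := by
  refine M0_of_eqv (w := fun i y => V y i) hγ hr
    (fun i => (contDiff_coord (n := 0) i).continuous.comp hV) (fun x hx i => ?_) i
  have : V x i = ⟪γ (EuclideanSpace.single i 1), γ (V x)⟫_ℝ := by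
    rw [γ.inner_map_map, EuclideanSpace.inner_single_left]; simp
  simp only [this, h x hx, PiLp.inner_apply]
  exact Finset.sum_congr rfl fun j _ => by simp [mul_comm]

theorem exists_free {Γ : Subgroup I.Iso4} (h1 : Γ ≠ ⊥)
    (h2 : ∀ γ ∈ Γ, ∀ x : E4, x ≠ 0 → γ x = x → γ = 1) :
    ∃ γ ∈ Γ, ∀ x : E4, γ x = x → x = 0 := by
  obtain ⟨⟨γ, hγ⟩, h⟩ := Subgroup.ne_bot_iff_exists_ne_one.1 h1
  refine ⟨γ, hγ, fun x hx => by_contra fun h0 => h (Subtype.ext (h2 γ hγ x h0 hx))⟩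

/-- compatible `1`-forms have components of mean zero on the spheres of a chart -/
theorem M0_of_sec {X : Type*} {α : Type} {A : I.Atl X α} (hA : A.Ok) {T : α → Tn 4 1}
    (hT : A.Sec T) {s : α} {γ : I.Iso4} (hs : γ ∈ A.Γ s) (hγ : ∀ x : E4, γ x = x → x = 0)
    (hr : 0 < r) (hU : ∀ x : E4, ‖x‖ = r → x ∈ A.U s) (I : Fin 1 → Fin 4) :
    M0 (fun y => T s y I) r := by
  refine M0_of_pull hγ hr (fun I => cont_sp (f := fun y => T s y I) (hT.sm s I).continuousOn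
    fun z => hU _ (norm_smul_sph hr z)) (fun x hx => hT.compat s s x γ ?_) I
  refine ⟨hU x hx, hA.inv s γ hs x (hU x hx),
    Eventually.of_forall fun z => γ.toContinuousLinearEquiv.contDiff.contDiffAt, ?_⟩
  filter_upwards [(hA.isOpen s).mem_nhds (hU x hx)] with z hz
  exact ((hA.fib s z hz _ (hA.inv s γ hs z hz)).2 ⟨γ, hs, rfl⟩).symm

end Hd

end Crest.Agent.N207

end
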