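import Mathlib.Analysis.InnerProductSpace.LaxMilgram
import Mathlib.Analysis.Normed.Operator.Banach
import Mathlib.Analysis.Normed.Operator.Compact.Basic
import Mathlib.Analysis.InnerProductSpace.PiL2

/-!
# Row 207, block K (helper1): bordered Lax-Milgram and Garding families (abstract Hilbert part)
-/

set_option autoImplicit false
set_option linter.unusedSectionVars false
open Set Filter Topology
open scoped RealInnerProductSpace

noncomputable section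

namespace Crest.Agent.N207.K

variable {H : Type*} [NormedAddCommGroup H] {κ : Type*} [Fintype κ] [DecidableEq κ]

section normed

variable [NormedSpace ℝ H]

/-- constraints `ψ` with dual vectors `φ`, on whose annihilator `Q` is `c`-coercive -/
structure Bord (Q : H →L[ℝ] H →L[ℝ] ℝ) (ψ : κ → H →L[ℝ] ℝ) (φ : κ → H) (c : ℝ) : Prop where
  pos : 0 < c
  dual : ∀ j k, ψ j (φ k) = if j = k then 1 else 0
  coer : ∀ u, (∀ k, ψ k u = 0) → c * ‖u‖ ^ 2 ≤ Q u u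

/-- projection onto the annihilator -/
def prj (ψ : κ → H →L[ℝ] ℝ) (φ : κ → H) : H →L[ℝ] H :=
  ContinuousLinearMap.id ℝ H - ∑ k, (ψ k).smulRight (φ k)

omit [DecidableEq κ] in
theorem prj_apply (ψ : κ → H →L[ℝ] ℝ) (φ : κ → H) (u : H) :
    prj ψ φ u = u - ∑ k, ψ k u • φ k := by
  simp [prj]

/-- the bordered operator -/
def bop (Q : H →L[ℝ] H →L[ℝ] ℝ) (ψ : κ → H →L[ℝ] ℝ) :
    (H × (κ → ℝ)) →L[ℝ] ((H →L[ℝ] ℝ) × (κ → ℝ)) :=
  (Q ∘L ContinuousLinearMap.fst ℝ _ _ -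
    ∑ k, ((ContinuousLinearMap.proj k) ∘L ContinuousLinearMap.snd ℝ H (κ → ℝ)).smulRight (ψ k)).prod
    (ContinuousLinearMap.pi fun k => ψ k ∘L ContinuousLinearMap.fst ℝ _ _)

omit [DecidableEq κ] in
theorem bop_fst (Q : H →L[ℝ] H →L[ℝ] ℝ) (ψ : κ → H →L[ℝ] ℝ) (z : H × (κ → ℝ)) (v : H) :
    (bop Q ψ z).1 v = Q z.1 v - ∑ k, z.2 k * ψ k v := by
  simp [bop]

omit [DecidableEq κ] in
theorem bop_snd (Q : H →L[ℝ] H →L[ℝ] ℝ) (ψ : κ → H →L[ℝ] ℝ) (z : H × (κ → ℝ)) (k : κ) :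
    (bop Q ψ z).2 k = ψ k z.1 := by
  simp [bop]

variable {Q : H →L[ℝ] H →L[ℝ] ℝ} {ψ : κ → H →L[ℝ] ℝ} {φ : κ → H} {c : ℝ}

theorem Bord.psi_lc (h : Bord Q ψ φ c) (θ : κ → ℝ) (j : κ) : ψ j (∑ k, θ k • φ k) = θ j := by
  simp [map_sum, h.dual]

theorem Bord.psi_prj (h : Bord Q ψ φ c) (u : H) (j : κ) : ψ j (prj ψ φ u) = 0 := by
  rw [prj_apply, map_sub, h.psi_lc, sub_self]

theorem Bord.prj_phi (h : Bord Q ψ φ c) (j : κ) : prj ψ φ (φ j) = 0 := by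
  rw [prj_apply]
  simp [h.dual]

omit [DecidableEq κ] in
theorem prj_of {u : H} (hu : ∀ k, ψ k u = 0) : prj ψ φ u = u := by
  rw [prj_apply]; simp [hu]

omit [DecidableEq κ] in
theorem norm_lc_le (φ : κ → H) (θ : κ → ℝ) : ‖∑ k, θ k • φ k‖ ≤ ‖θ‖ * ∑ k, ‖φ k‖ := by
  refine (norm_sum_le _ _).trans ?_
  rw [Finset.mul_sum]
  refine Finset.sum_le_sum fun k _ => ?_
  rw [norm_smul]
  exact mul_le_mul_of_nonneg_right (norm_le_pi_norm θ k) (norm_nonneg _)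

/-- small perturbations keep the coercivity -/
theorem Bord.perturb (h : Bord Q ψ φ c) {Q' : H →L[ℝ] H →L[ℝ] ℝ} {ε : ℝ} (hε : ε < c)
    (hQ : ∀ u, Q u u - ε * ‖u‖ ^ 2 ≤ Q' u u) : Bord Q' ψ φ (c - ε) :=
  ⟨sub_pos.2 hε, h.dual, fun u hu => by have := h.coer u hu; have := hQ u; nlinarith⟩

/-- a priori estimate, main part -/
theorem Bord.est (h : Bord Q ψ φ c) {u : H} {μ : κ → ℝ} {F : H →L[ℝ] ℝ} {θ : κ → ℝ}
    (h1 : ∀ v, Q u v = F v + ∑ k, μ k * ψ k v) (h2 : ∀ k, ψ k u = θ k) :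
    ‖u‖ ≤ c⁻¹ * ‖F‖ + (c⁻¹ * ‖Q‖ + 1) * (∑ k, ‖φ k‖) * ‖θ‖ := by
  set w := prj ψ φ u with hw
  set t := ∑ k, θ k • φ k with ht
  have e1 : u = w + t := by rw [hw, prj_apply, ht]; simp [h2]
  have e2 : Q w w = F w - Q t w := by
    have := h1 w
    simp only [hw, h.psi_prj, mul_zero, Finset.sum_const_zero, add_zero] at this
    rw [← hw] at this
    rw [← this]
    conv_rhs => rw [e1]
    simp
  have e3 := h.coer w (h.psi_prj u)
  have e4 : F w ≤ ‖F‖ * ‖w‖ := (le_abs_self _).trans (F.le_opNorm w)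
  have e5 : -Q t w ≤ ‖Q‖ * ‖t‖ * ‖w‖ := (neg_le_abs _).trans (Q.le_opNorm₂ t w)
  have e6 : ‖t‖ ≤ ‖θ‖ * ∑ k, ‖φ k‖ := norm_lc_le φ θ
  have hc := h.pos
  have e7 : c * ‖w‖ ≤ ‖F‖ + ‖Q‖ * ‖t‖ := by
    rcases (norm_nonneg w).eq_or_lt with h0 | h0
    · rw [← h0, mul_zero]; positivity
    · refine le_of_mul_le_mul_right ?_ h0
      nlinarith
  have e8 : ‖w‖ ≤ c⁻¹ * (‖F‖ + ‖Q‖ * ‖t‖) := by
    rw [← div_eq_inv_mul, le_div_iff₀ hc]; linarith
  have e9 : c⁻¹ * ‖Q‖ * ‖t‖ ≤ c⁻¹ * ‖Q‖ * (‖θ‖ * ∑ k, ‖φ k‖) :=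
    mul_le_mul_of_nonneg_left e6 (by positivity)
  have e10 : ‖u‖ ≤ ‖w‖ + ‖t‖ := by rw [e1]; exact norm_add_le _ _
  nlinarith

/-- the multipliers -/
theorem Bord.mu_eq (h : Bord Q ψ φ c) {u : H} {μ : κ → ℝ} {F : H →L[ℝ] ℝ}
    (h1 : ∀ v, Q u v = F v + ∑ k, μ k * ψ k v) (j : κ) : μ j = Q u (φ j) - F (φ j) := by
  rw [h1]; simp [h.dual]

theorem Bord.est_mu (h : Bord Q ψ φ c) {u : H} {μ : κ → ℝ} {F : H →L[ℝ] ℝ}
    (h1 : ∀ v, Q u v = F v + ∑ k, μ k * ψ k v) :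
    ‖μ‖ ≤ (‖Q‖ * ‖u‖ + ‖F‖) * ∑ k, ‖φ k‖ := by
  have hp0 : 0 ≤ ∑ k, ‖φ k‖ := Finset.sum_nonneg fun _ _ => norm_nonneg _
  refine (pi_norm_le_iff_of_nonneg (by positivity)).2 fun j => ?_
  rw [h.mu_eq h1 j]
  have e1 := Q.le_opNorm₂ u (φ j)
  have e2 := F.le_opNorm (φ j)
  have e3 : ‖φ j‖ ≤ ∑ k, ‖φ k‖ :=
    Finset.single_le_sum (f := fun k => ‖φ k‖) (fun _ _ => norm_nonneg _) (Finset.mem_univ j)
  refine (norm_sub_le _ _).trans ?_
  have : (‖Q‖ * ‖u‖ + ‖F‖) * ‖φ j‖ ≤ (‖Q‖ * ‖u‖ + ‖F‖) * ∑ k, ‖φ k‖ :=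
    mul_le_mul_of_nonneg_left e3 (by positivity)
  nlinarith

/-- the constant of the bordered problem: monotone in `c⁻¹`, `q ≥ ‖Q‖`, `p ≥ ∑ ‖φ k‖` -/
def bC (c q p : ℝ) : ℝ := (1 + q * p) * (c⁻¹ + (c⁻¹ * q + 1) * p) + p

theorem Bord.est' (h : Bord Q ψ φ c) {q p : ℝ} (hq : ‖Q‖ ≤ q) (hp : ∑ k, ‖φ k‖ ≤ p)
    (z : H × (κ → ℝ)) : ‖z‖ ≤ bC c q p * ‖bop Q ψ z‖ := by
  set y := bop Q ψ z with hy
  have h1 : ∀ v, Q z.1 v = y.1 v + ∑ k, z.2 k * ψ k v := fun v => by rw [hy, bop_fst]; ring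
  have h2 : ∀ k, ψ k z.1 = y.2 k := fun k => by rw [hy, bop_snd]
  have e1 := h.est h1 h2
  have e2 := h.est_mu h1
  have a1 : ‖y.1‖ ≤ ‖y‖ := norm_fst_le y
  have a2 : ‖y.2‖ ≤ ‖y‖ := norm_snd_le y
  have hc := h.pos
  have hp0 : 0 ≤ ∑ k, ‖φ k‖ := Finset.sum_nonneg fun _ _ => norm_nonneg _
  have hq0 : 0 ≤ q := Q.opNorm_nonneg.trans hq
  have hp1 : 0 ≤ p := hp0.trans hp
  set A := c⁻¹ + (c⁻¹ * q + 1) * p with hA
  have hA0 : 0 ≤ A := by positivity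
  have b1 : ‖z.1‖ ≤ A * ‖y‖ := by
    refine e1.trans ?_
    have hQ0 : 0 ≤ ‖Q‖ := Q.opNorm_nonneg
    calc _ ≤ c⁻¹ * ‖y‖ + (c⁻¹ * q + 1) * p * ‖y‖ := by gcongr
      _ = _ := by rw [hA]; ring
  have b2 : ‖z.2‖ ≤ (q * p * A + p) * ‖y‖ := by
    refine e2.trans ?_
    calc (‖Q‖ * ‖z.1‖ + ‖y.1‖) * ∑ k, ‖φ k‖ ≤ (q * (A * ‖y‖) + ‖y‖) * p := by gcongr
      _ = _ := by ring
  have b3 : 0 ≤ q * p * A * ‖y‖ := by positivity
  have b4 : 0 ≤ p * ‖y‖ := by positivity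
  have b5 : 0 ≤ A * ‖y‖ := by positivity
  rw [Prod.norm_def, bC, ← hA]
  exact max_le (by nlinarith) (by nlinarith)

theorem Bord.inj (h : Bord Q ψ φ c) : Function.Injective (bop Q ψ) := by
  refine (injective_iff_map_eq_zero _).2 fun z hz => ?_
  have := h.est' le_rfl le_rfl z
  rw [hz, norm_zero, mul_zero] at this
  exact norm_le_zero_iff.1 this

/-- uniqueness -/
theorem Bord.uniq (h : Bord Q ψ φ c) {u : H} {μ : κ → ℝ}
    (h1 : ∀ v, Q u v = ∑ k, μ k * ψ k v) (h2 : ∀ k, ψ k u = 0) : u = 0 ∧ μ = 0 := by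
  have : bop Q ψ (u, μ) = bop Q ψ 0 := by
    rw [map_zero]
    refine Prod.ext (ContinuousLinearMap.ext fun v => ?_) (funext fun k => ?_)
    · rw [bop_fst, h1]; simp
    · rw [bop_snd]; exact h2 k
  exact Prod.ext_iff.1 (h.inj this)

end normed

section hilbert

variable [InnerProductSpace ℝ H] [CompleteSpace H]
variable {Q : H →L[ℝ] H →L[ℝ] ℝ} {ψ : κ → H →L[ℝ] ℝ} {φ : κ → H} {c : ℝ}

/-- existence -/
theorem Bord.solve (h : Bord Q ψ φ c) (F : H →L[ℝ] ℝ) (θ : κ → ℝ) :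
    ∃ (u : H) (μ : κ → ℝ), (∀ v, Q u v = F v + ∑ k, μ k * ψ k v) ∧ ∀ k, ψ k u = θ k := by
  set P := prj ψ φ with hP
  set B : H →L[ℝ] H →L[ℝ] ℝ := Q.bilinearComp P P + ∑ k, (ψ k).smulRight (ψ k) with hB
  have hBa : ∀ u v, B u v = Q (P u) (P v) + ∑ k, ψ k u * ψ k v := fun u v => by
    simp [hB]
  have hc := h.pos
  have hco : IsCoercive B := by
    set p := ∑ k, ‖φ k‖ with hp
    have hp0 : 0 ≤ p := Finset.sum_nonneg fun _ _ => norm_nonneg _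
    refine ⟨min c 1 / (2 * (1 + p ^ 2)), by positivity, fun u => ?_⟩
    have e1 := h.coer (P u) (h.psi_prj u)
    set s := ∑ k, ψ k u * ψ k u with hs
    have e2 : ‖fun k => ψ k u‖ ^ 2 ≤ s := by
      have : ‖fun k => ψ k u‖ ≤ √s := by
        refine (pi_norm_le_iff_of_nonneg (Real.sqrt_nonneg _)).2 fun j => ?_
        refine Real.abs_le_sqrt ?_
        rw [sq]
        exact Finset.single_le_sum (f := fun k => ψ k u * ψ k u)
          (fun _ _ => mul_self_nonneg _) (Finset.mem_univ j)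
      have h0 : 0 ≤ s := Finset.sum_nonneg fun _ _ => mul_self_nonneg _
      calc _ ≤ √s ^ 2 := by gcongr
        _ = s := Real.sq_sqrt h0
    have e3 : ‖u‖ ≤ ‖P u‖ + ‖fun k => ψ k u‖ * p := by
      have : u = P u + ∑ k, ψ k u • φ k := by rw [hP, prj_apply]; simp
      calc ‖u‖ = ‖P u + ∑ k, ψ k u • φ k‖ := by rw [← this]
        _ ≤ _ := (norm_add_le _ _).trans (by gcongr; exact norm_lc_le φ _)
    set a := ‖P u‖
    set b := ‖fun k => ψ k u‖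
    have ha : 0 ≤ a := norm_nonneg _
    have hb : 0 ≤ b := norm_nonneg _
    have e4 : ‖u‖ * ‖u‖ ≤ 2 * (1 + p ^ 2) * (a ^ 2 + b ^ 2) := by
      have : ‖u‖ * ‖u‖ ≤ (a + b * p) * (a + b * p) := by gcongr
      nlinarith [sq_nonneg (a - b * p), mul_nonneg (sq_nonneg p) (sq_nonneg a), sq_nonneg b]
    have e5 : min c 1 * (a ^ 2 + b ^ 2) ≤ c * a ^ 2 + b ^ 2 := by
      have := min_le_left c 1
      have := min_le_right c 1
      nlinarith [sq_nonneg a, sq_nonneg b]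
    rw [hBa, ← hs, mul_assoc]
    calc _ ≤ min c 1 / (2 * (1 + p ^ 2)) * (2 * (1 + p ^ 2) * (a ^ 2 + b ^ 2)) := by gcongr
      _ = min c 1 * (a ^ 2 + b ^ 2) := by field_simp
      _ ≤ _ := by linarith
  set t := ∑ k, θ k • φ k with ht
  set L : H →L[ℝ] ℝ := (F - Q t) ∘L P with hL
  set u := hco.continuousLinearEquivOfBilin.symm ((InnerProductSpace.toDual ℝ H).symm L) with hu
  have hu1 : ∀ v, B u v = F (P v) - Q t (P v) := fun v => by
    rw [← hco.continuousLinearEquivOfBilin_apply, hu, ContinuousLinearEquiv.apply_symm_apply,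
      InnerProductSpace.toDual_symm_apply]
    simp [hL]
  have hu2 : ∀ k, ψ k u = 0 := fun j => by
    have := hu1 (φ j)
    rw [hBa, hP, h.prj_phi] at this
    simpa [h.dual] using this
  refine ⟨u + t, fun k => Q (u + t) (φ k) - F (φ k), fun v => ?_, fun k => ?_⟩
  · have e1 := hu1 v
    rw [hBa, hP, prj_of hu2] at e1
    simp only [hu2, zero_mul, Finset.sum_const_zero, add_zero] at e1
    have e2 : Q (u + t) (prj ψ φ v) = F (prj ψ φ v) := by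
      rw [map_add, add_apply, e1]; ring
    rw [prj_apply, map_sub, map_sub, map_sum, map_sum] at e2
    simp only [map_smul, smul_eq_mul] at e2
    simp only [mul_comm _ (ψ _ v), mul_sub, Finset.sum_sub_distrib]
    linarith
  · rw [map_add, hu2, ht, h.psi_lc, zero_add]

theorem Bord.surj (h : Bord Q ψ φ c) : Function.Surjective (bop Q ψ) := by
  intro y
  obtain ⟨u, μ, h1, h2⟩ := h.solve y.1 y.2
  refine ⟨(u, μ), Prod.ext (ContinuousLinearMap.ext fun v => ?_) (funext fun k => ?_)⟩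
  · rw [bop_fst, h1]; simp
  · rw [bop_snd]; exact h2 k

/-- **bordered Lax-Milgram**: the Green operator -/
theorem Bord.green (h : Bord Q ψ φ c) :
    ∃ G : ((H →L[ℝ] ℝ) × (κ → ℝ)) →L[ℝ] (H × (κ → ℝ)),
      (∀ y v, Q (G y).1 v = y.1 v + ∑ k, (G y).2 k * ψ k v) ∧ (∀ y k, ψ k (G y).1 = y.2 k) ∧
      (∀ z, G (bop Q ψ z) = z) ∧
      ∀ q p : ℝ, ‖Q‖ ≤ q → ∑ k, ‖φ k‖ ≤ p → ∀ y, ‖G y‖ ≤ bC c q p * ‖y‖ := by
  set e := ContinuousLinearEquiv.ofBijective (bop Q ψ) (LinearMap.ker_eq_bot.2 h.inj)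
    (LinearMap.range_eq_top.2 h.surj) with he
  have h0 : ∀ y, bop Q ψ (e.symm y) = y := fun y => e.apply_symm_apply y
  refine ⟨e.symm, fun y v => ?_, fun y k => ?_, fun z => e.symm_apply_apply z, fun q p hq hp y => ?_⟩
  · have := bop_fst Q ψ (e.symm y) v
    rw [h0] at this
    simp only [ContinuousLinearEquiv.coe_coe]
    linarith
  · have := bop_snd Q ψ (e.symm y) k
    rw [h0] at this
    exact this.symm
  · have := h.est' hq hp (e.symm y)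
    rwa [h0] at this

end hilbert

/-! ### Garding families -/

section garding

variable [NormedSpace ℝ H] {L : Type*} [NormedAddCommGroup L] [InnerProductSpace ℝ L]

/-- a compact operator is small on the annihilator of finitely many members of a dense set -/
theorem exists_small {j : H →L[ℝ] L} (hj : IsCompactOperator j) {D : Set L} (hD : Dense D)
    {ε : ℝ} (hε : 0 < ε) :
    ∃ s : Finset L, (↑s : Set L) ⊆ D ∧ ∀ u, (∀ w ∈ s, ⟪w, j u⟫ = 0) → ‖j u‖ ≤ ε * ‖u‖ := by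
  classical
  obtain ⟨K, hK, hK1⟩ := hj.image_closedBall_subset_compact (f := (j : H →ₗ[ℝ] L)) 1
  have hcov : K ⊆ ⋃ w : D, Metric.ball (w : L) ε := fun x _ => by
    obtain ⟨w, hw, hx⟩ := hD.exists_dist_lt x hε
    exact mem_iUnion.2 ⟨⟨w, hw⟩, hx⟩
  obtain ⟨t, ht⟩ := hK.elim_finite_subcover _ (fun _ => Metric.isOpen_ball) hcov
  refine ⟨t.image Subtype.val, fun w hw => ?_, fun u hu => ?_⟩
  · obtain ⟨w', -, rfl⟩ := Finset.mem_image.1 hw
    exact w'.2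
  · rcases eq_or_ne u 0 with rfl | h0
    · simp
    have hn : 0 < ‖u‖ := norm_pos_iff.2 h0
    set v := ‖u‖⁻¹ • u with hv
    have hv1 : v ∈ Metric.closedBall (0 : H) 1 := by
      simp [hv, norm_smul, inv_mul_cancel₀ hn.ne']
    obtain ⟨w, hw, hx⟩ := mem_iUnion₂.1 (ht (hK1 ⟨v, hv1, rfl⟩))
    have e1 : ⟪(w : L), j v⟫ = 0 := by
      rw [hv, map_smul, inner_smul_right, hu w (Finset.mem_image_of_mem _ hw), mul_zero]
    have e2 : ‖j v - w‖ < ε := by simpa [dist_eq_norm] using hx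
    have e3 : ‖j v‖ * ‖j v‖ ≤ ‖j v - w‖ * ‖j v‖ := by
      refine le_trans ?_ (real_inner_le_norm _ _)
      rw [inner_sub_left, e1, sub_zero, real_inner_self_eq_norm_mul_norm]
    have e4 : ‖j v‖ ≤ ε := by
      by_contra hc
      push Not at hc
      nlinarith
    rw [hv, map_smul, norm_smul, norm_inv, norm_norm, ← div_eq_inv_mul, div_le_iff₀ hn] at e4
    exact e4

end garding

/-- linearly independent functionals have dual vectors inside any subspace on which they stay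
independent -/
theorem exists_dual {V : Type*} [AddCommGroup V] [Module ℝ V] (ψ : κ → V →ₗ[ℝ] ℝ)
    (h : ∀ x : κ → ℝ, (∀ v, ∑ k, x k * ψ k v = 0) → x = 0) :
    ∃ φ : κ → V, ∀ j k, ψ j (φ k) = if j = k then 1 else 0 := by
  have hs : Function.Surjective (LinearMap.pi ψ) := by
    by_contra hn
    rw [← LinearMap.range_eq_top] at hn
    obtain ⟨f, hf0, hf⟩ := Submodule.exists_le_ker_of_lt_top _ (lt_top_iff_ne_top.2 hn)
    refine hf0 ?_
    have hx := h (fun k => f (Pi.single k 1)) fun v => by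
      have e1 : f (LinearMap.pi ψ v) = 0 := hf ⟨v, rfl⟩
      rw [← e1, LinearMap.pi_apply_eq_sum_univ f]
      refine Finset.sum_congr rfl fun k _ => ?_
      rw [smul_eq_mul, mul_comm, LinearMap.pi_apply]
      congr 2
      funext i
      simp [Pi.single_apply, eq_comm]
    refine LinearMap.pi_ext' fun k => LinearMap.ext_ring ?_
    simpa using congrFun hx k
  choose φ hφ using fun k => hs (Pi.single k 1)
  refine ⟨φ, fun j k => ?_⟩
  have := congrFun (hφ k) j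
  rw [LinearMap.pi_apply] at this
  rw [this, Pi.single_apply]

end Crest.Agent.N207.K

end
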