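import Crest.Agent.N207.K.KSt
import Crest.Agent.N207.CB.Lf3

/-!
# Row 207, block K (helper62): the leaf `CEL`
-/

set_option autoImplicit false

open scoped ContDiff
open Metric Set Filter Topology MeasureTheory
open Crest.GeometryTopology.CoordMetric
open Crest.Agent.NLib.Ell Crest.Agent.N207.I Crest.Agent.N207.I.TD Crest.Agent.N207.CB

noncomputable section

namespace Crest.Agent.N207.K

namespace Ce

theorem cell_le {U : Set E4} {F u : E4 → ℝ} {x : E4} {ρ c : ℝ} (hρ : 0 < ρ) (hc : 0 ≤ c)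
    (hU : MeasurableSet U) (hF : IntegrableOn F U) (h0 : ∀ z ∈ U, 0 ≤ F z)
    (hs : ∀ y ∈ ball (0 : E4) (9 / 8), x + ρ • y ∈ U ∧ u (x + ρ • y) ^ 2 ≤ c * F (x + ρ • y)) :
    ∫ y in ball (0 : E4) (9 / 8), u (x + ρ • y) ^ 2 ≤ c / ρ ^ 4 * ∫ z in U, F z := by
  have hd : ∀ z ∈ ball (0 : E4) (9 / 8), HasFDerivWithinAt (fun z : E4 => x + ρ • z)
      (ρ • ContinuousLinearMap.id ℝ E4) (ball 0 (9 / 8)) z := fun z _ =>
    (((hasFDerivAt_id z).const_smul ρ).const_add x).hasFDerivWithinAt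
  have inj : InjOn (fun z : E4 => x + ρ • z) (ball 0 (9 / 8)) :=
    fun z _ z' _ h => smul_right_injective _ hρ.ne' (add_left_cancel h)
  have dt : |(ρ • ContinuousLinearMap.id ℝ E4).det| = ρ ^ 4 := by
    rw [ContinuousLinearMap.det, ContinuousLinearMap.toLinearMap_smul, LinearMap.det_smul]
    simp [abs_of_pos hρ]
  have sU : (fun z : E4 => x + ρ • z) '' ball 0 (9 / 8) ⊆ U := by
    rintro _ ⟨y, hy, rfl⟩; exact (hs y hy).1
  have i1 := (integrableOn_image_iff_integrableOn_abs_det_fderiv_smul volume measurableSet_ball hd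
    inj F).1 (hF.mono_set sU)
  have e1 := integral_image_eq_integral_abs_det_fderiv_smul volume measurableSet_ball hd inj F
  simp only [dt, smul_eq_mul] at i1 e1
  refine (integral_mono_of_nonneg (Eventually.of_forall fun _ => sq_nonneg _)
    (i1.const_mul (c / ρ ^ 4)) ?_).trans ?_
  · filter_upwards [ae_restrict_mem measurableSet_ball] with y hy
    rw [← mul_assoc, div_mul_cancel₀ _ (by positivity)]
    exact (hs y hy).2
  rw [integral_const_mul, ← e1]
  refine mul_le_mul_of_nonneg_left (setIntegral_mono_set hF ?_ sU.eventuallyLE) (by positivity)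
  filter_upwards [ae_restrict_mem hU] with x hx using h0 x hx

theorem nrm {x y : E4} (hy : y ∈ ball (0 : E4) (9 / 8)) :
    55 / 64 * ‖x‖ ≤ ‖x + (‖x‖ / 8) • y‖ ∧ ‖x + (‖x‖ / 8) • y‖ ≤ 73 / 64 * ‖x‖ := by
  have h1 : ‖(‖x‖ / 8) • y‖ ≤ ‖x‖ / 8 * (9 / 8) := by
    rw [norm_smul, Real.norm_of_nonneg (by positivity)]
    exact mul_le_mul_of_nonneg_left (mem_ball_zero_iff.1 hy).le (by positivity)
  have h2 := norm_add_le x ((‖x‖ / 8) • y)
  have h3 := norm_sub_le (x + (‖x‖ / 8) • y) ((‖x‖ / 8) • y)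
  rw [add_sub_cancel_right] at h3
  constructor <;> linarith

theorem eC_nn {k : ℕ} (ρ : ℝ) (t : Tn 4 k) (x : E4) : 0 ≤ eC ρ t t x :=
  Finset.sum_nonneg fun _ _ => add_nonneg (Finset.sum_nonneg fun _ _ => mul_self_nonneg _)
    (div_nonneg (mul_self_nonneg _) (sq_nonneg _))

theorem sq_le {k : ℕ} {ρ : ℝ} (hρ : 0 < ρ) (t : Tn 4 k) (x : E4) (I : Fin k → Fin 4) :
    t x I ^ 2 ≤ ρ ^ 2 * eC ρ t t x := by
  rw [← div_le_iff₀' (by positivity), pow_two]
  refine le_trans (le_add_of_nonneg_left (Finset.sum_nonneg fun _ _ => mul_self_nonneg _))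
    (Finset.single_le_sum (f := fun I => ∑ i, pderiv i (fun y => t y I) x *
      pderiv i (fun y => t y I) x + t x I * t x I / ρ ^ 2) (fun _ _ => ?_) (Finset.mem_univ I))
  exact add_nonneg (Finset.sum_nonneg fun _ _ => mul_self_nonneg _)
    (div_nonneg (mul_self_nonneg _) (sq_nonneg _))

variable {M : Type*} {T : TD M} {g : T.V → Fam T} {v : T.V} {σ T1 γ : ℝ} {t : Fam T}

theorem ig (h : T.Ok) (hg : (T.core v).IsMet (g v)) (ht : Tst T v t) :
    (T.core v).Intg T.χ (g v) fun a x =>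
      eta T v σ T1 a x ^ 2 * eC (scl T a x) (matT (t a)) (matT (t a)) x := by
  obtain ⟨S, h1, h2⟩ := ht.cs
  have ho := h.core_ok v
  obtain ⟨S', h3, h4, h5⟩ := h1.exists_cl ho
  refine Atl.intg_of_cs ho hg (h.core_pou v) h4 (fun a => ((eta_sm a).continuousOn.pow 2).mul ?_)
    ((h2.mono h3).op ho h5 fun b y _ e => ?_)
  · have c := fun I i => (sm_pd (ho.isOpen a) (ht.sec.sec.sm a I) i).continuousOn
    have c' := fun I => (ht.sec.sec.sm a I).continuousOn
    exact continuousOn_finsetSum _ fun I _ => (continuousOn_finsetSum _ fun i _ =>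
      (c I i).mul (c I i)).add (((c' I).mul (c' I)).div ((cont_scl a).continuousOn.pow 2)
        fun x hx => (pow_pos (scl_pos hx) 2).ne')
  · have : ∀ I i, pderiv i (fun z => matT (t b) z I) y = 0 := fun I i => by
      have e' : (fun z => matT (t b) z I) =ᶠ[𝓝 y] fun _ => 0 :=
        e.mono fun z hz => by simp [matT, hz]
      simp [pderiv, e'.fderiv_eq]
    simp only [eC, this]
    simp [matT, e.self_of_nhds]

theorem NK_le (h : T.Ok) (t : Fam T) (s : T.S) :
    ∫ x in (T.core v).U s, (T.core v).den T.χ (g v) s x *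
      (eta T v σ T1 s x ^ 2 * eC (scl T s x) (matT (t s)) (matT (t s)) x) ≤
        NK T g v (eta T v σ T1) t t :=
  Finset.single_le_sum (f := fun s => ∫ x in (T.core v).U s, (T.core v).den T.χ (g v) s x *
      (eta T v σ T1 s x ^ 2 * eC (scl T s x) (matT (t s)) (matT (t s)) x))
    (fun a _ => integral_nonneg fun x => mul_nonneg (Atl.den_nonneg (h.core_pou v) a x)
      (mul_nonneg (sq_nonneg _) (eC_nn _ _ _))) (Finset.mem_univ s)

theorem NK_nn (h : T.Ok) (t : Fam T) : 0 ≤ NK T g v (eta T v σ T1) t t :=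
  Atl.int_nonneg (h.core_ok v) (h.core_pou v) fun _ _ _ => mul_nonneg (sq_nonneg _) (eC_nn _ _ _)

/-- the cells which are not deep lie in a compact set -/
theorem exists_D (h : T.Ok) (v : T.V) (s : T.S) : ∃ D, IsCompact D ∧ D ⊆ (T.core v).U s ∧
    ∀ x ∈ T.cK v s, T.r / 4 ≤ scl T s x → scl T s x ≤ 4 →
      ∀ y ∈ ball (0 : E4) (9 / 8), x + rad T s x • y ∈ D := by
  have hr := h.r_pos
  have an : ∀ p q : ℝ, IsCompact {z : E4 | p ≤ ‖z‖ ∧ ‖z‖ ≤ q} := fun p q =>
    (isCompact_closedBall (0 : E4) q).of_isClosed_subset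
      ((isClosed_le continuous_const continuous_norm).inter
        (isClosed_le continuous_norm continuous_const)) fun _ hz => mem_closedBall_zero_iff.2 hz.2
  rcases s with a | w
  · by_cases e : T.vx a = v
    · refine ⟨closedBall 0 (7 / 4), isCompact_closedBall _ _, fun z hz => mem_core_inl.2
        ⟨e, (mem_closedBall_zero_iff.1 hz).trans_lt (by norm_num)⟩, fun x hx _ _ y hy => ?_⟩
      refine mem_closedBall_zero_iff.2 ((norm_add_le _ _).trans ?_)
      have := mem_ball_zero_iff.1 hy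
      rw [norm_smul, rad, Sum.elim_inl, Real.norm_of_nonneg (by norm_num)]
      linarith [(mem_cK_inl.1 hx).2]
    · exact ⟨∅, isCompact_empty, empty_subset _, fun x hx => absurd (mem_cK_inl.1 hx).1 e⟩
  by_cases e : w = v
  · subst e
    refine ⟨_, an (5 / 4) 5, fun z hz => mem_core_out.2 (by linarith [hz.1]),
      fun x hx _ h2 y hy => ?_⟩
    have := nrm (x := x) hy
    have := mem_cK_out.1 hx
    simp only [scl, rad, Sum.elim_inr, mem_ofPred_eq] at h2 ⊢
    constructor <;> linarith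
  by_cases k : T.kid v w
  · refine ⟨_, an (T.r / 5) (7 / 8 * T.r), fun z hz => (mem_core_inn e).2
      ⟨k, by linarith [hz.1], by linarith [hz.2]⟩, fun x hx h1 _ y hy => ?_⟩
    have := nrm (x := x) hy
    have := ((mem_cK_inn e).1 hx).2.2
    simp only [scl, rad, Sum.elim_inr, mem_ofPred_eq] at h1 ⊢
    constructor <;> linarith
  · exact ⟨∅, isCompact_empty, empty_subset _, fun x hx => absurd ((mem_cK_inn e).1 hx).1 k⟩

/-- the deep cells -/
theorem deep (h : T.Ok) {w : T.V} {x y : E4} (hx : x ∈ T.cK v (Sum.inr w))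
    (hd : ‖x‖ < T.r / 4 ∨ 4 < ‖x‖) (hy : y ∈ ball (0 : E4) (9 / 8)) :
    x + (‖x‖ / 8) • y ∈ T.cK v (Sum.inr w) ∧
      T.χ (Sum.inr w) ((T.core v).c (Sum.inr w) (x + (‖x‖ / 8) • y)) = 1 := by
  have hr := h.r_pos
  have hr1 := h.r_lt
  obtain ⟨h1, h2⟩ := nrm (x := x) hy
  by_cases e : w = v
  · subst e
    have := mem_cK_out.1 hx
    have h3 : 4 < ‖x‖ := hd.resolve_left (by linarith)
    exact ⟨mem_cK_out.2 (by linarith), by rw [h.core_χ_out w (by linarith), if_pos rfl]⟩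
  · obtain ⟨k, h3, h4⟩ := (mem_cK_inn e).1 hx
    have h5 : ‖x‖ < T.r / 4 := hd.resolve_right (by linarith)
    exact ⟨(mem_cK_inn e).2 ⟨k, by linarith, by linarith⟩,
      by rw [h.core_χ_inn k (by linarith) (by linarith), if_pos rfl]⟩

theorem num {a n e E η c d σ u : ℝ} (hσ : 0 < σ) (hσ1 : σ < 1) (ha : 0 < a) (hn : 0 < n)
    (han : n ≤ 2 * a) (he : 0 < e) (hη : e * n ^ (σ - 1) ≤ η) (hc : 0 < c) (hd : c ≤ d)
    (hE : 0 ≤ E) (hu : u ≤ n ^ 2 * E) :
    u ≤ 16 * a ^ 4 * a ^ (-(2 * σ)) / (c * e ^ 2) * (d * (η ^ 2 * E)) := by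
  have h1 : n ^ 2 = n ^ (4 - 2 * σ) * (n ^ (σ - 1)) ^ 2 := by
    rw [← Real.rpow_natCast, ← Real.rpow_natCast, ← Real.rpow_mul hn.le, ← Real.rpow_add hn]
    congr 1; push_cast; ring
  have h2 : n ^ (4 - 2 * σ) ≤ 16 * a ^ 4 * a ^ (-(2 * σ)) := by
    refine (Real.rpow_le_rpow hn.le han (by linarith)).trans ?_
    rw [Real.mul_rpow (by norm_num) ha.le, sub_eq_add_neg, Real.rpow_add ha, mul_assoc]
    gcongr
    · exact (Real.rpow_le_rpow_of_exponent_le (by norm_num) (by linarith : _ ≤ (4 : ℝ))).trans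
        (by norm_num)
    · exact (Real.rpow_natCast a 4).le
  have h3 : (n ^ (σ - 1)) ^ 2 ≤ η ^ 2 / e ^ 2 := by
    rw [← div_pow]
    exact pow_le_pow_left₀ (by positivity) ((le_div_iff₀' he).2 hη) 2
  have h4 : 0 ≤ d := hc.le.trans hd
  calc u ≤ 16 * a ^ 4 * a ^ (-(2 * σ)) * (η ^ 2 / e ^ 2) * E := by
        refine hu.trans ?_
        rw [h1]; gcongr
    _ = 16 * a ^ 4 * a ^ (-(2 * σ)) / (c * e ^ 2) * (c * (η ^ 2 * E)) := by field_simp
    _ ≤ _ := by gcongr

theorem cel1 (h : T.Ok) (hL : T.Lim g γ) (h0 : 0 < σ) (h1 : σ < 1) (hC : CMP T g σ T1) (v : T.V)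
    (s : T.S) : ∃ C : ℝ, ∀ t, Tst T v t → ∀ x ∈ T.cK v s, ∀ a b,
      ∫ y in ball (0 : E4) (9 / 8), t s (x + rad T s x • y) a b ^ 2 ≤
        C * scl T s x ^ (-(2 * σ)) * NK T g v (eta T v σ T1) t t := by
  have hr := h.r_pos
  have ho := h.core_ok v
  obtain ⟨D, d1, d2, d3⟩ := exists_D h v s
  obtain ⟨C, c0, hc⟩ := hC v s D d1 d2
  obtain ⟨c, cp, hp⟩ := lim_pos hL v
  have := ho.fin s
  have n0 : (0 : ℝ) < Nat.card ((T.core v).Γ s) := by exact_mod_cast Nat.card_pos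
  refine ⟨max (16 * C / (T.r / 32) ^ 4) (16 * 8 ^ 4 / ((Nat.card ((T.core v).Γ s) : ℝ)⁻¹ * c ^ 2 *
    Real.exp (-(|T1| + 1)) ^ 2)), fun t ht x hx a b => ?_⟩
  have hN := NK_nn (g := g) (v := v) (σ := σ) (T1 := T1) h t
  have hs := scl_pos ((h.core_pou v).sub s hx)
  by_cases hd : T.r / 4 ≤ scl T s x ∧ scl T s x ≤ 4
  · have e := cell_le (u := fun z => t s z a b) (F := fun z => t s z a b ^ 2) (rad_pos1 hx)
      zero_le_one d1.measurableSet
      ((((ht.sec.sec.sm s ![a, b]).continuousOn.mono d2).pow 2).integrableOn_compact d1)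
      (fun _ _ => sq_nonneg _) fun y hy => ⟨d3 x hx hd.1 hd.2 y hy, (one_mul _).ge⟩
    have e2 : 1 / 16 ≤ scl T s x ^ (-(2 * σ)) := by
      refine le_trans ?_ (Real.rpow_le_rpow_of_nonpos hs hd.2 (by linarith))
      exact le_trans (by norm_num) (Real.rpow_le_rpow_of_exponent_le (by norm_num)
        (by linarith : (-2 : ℝ) ≤ _))
    refine e.trans ((mul_le_mul_of_nonneg_left (hc t ht a b) (by positivity)).trans ?_)
    rw [← mul_assoc]
    refine mul_le_mul_of_nonneg_right ?_ hN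
    calc 1 / rad T s x ^ 4 * C ≤ 1 / (T.r / 32) ^ 4 * C := by
          gcongr; rw [rad_eq]; linarith [hd.1]
      _ = 16 * C / (T.r / 32) ^ 4 * (1 / 16) := by ring
      _ ≤ _ := by gcongr; exact le_max_left _ _
  rcases s with s | w
  · exact absurd ⟨by simp only [scl, Sum.elim_inl]; linarith [h.r_lt], by simp [scl]⟩ hd
  simp only [scl, rad, Sum.elim_inr, not_and_or, not_le] at hd hs ⊢
  have e := cell_le (u := fun z => t (Sum.inr w) z a b) (x := x) (ρ := ‖x‖ / 8)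
    (c := 16 * ‖x‖ ^ 4 * ‖x‖ ^ (-(2 * σ)) / ((Nat.card ((T.core v).Γ (Sum.inr w)) : ℝ)⁻¹ * c ^ 2 *
      Real.exp (-(|T1| + 1)) ^ 2)) (by positivity) (by positivity)
    (ho.isOpen _).measurableSet (ig (σ := σ) (T1 := T1) h (hL.met v) ht (Sum.inr w))
    (fun z _ => mul_nonneg (Atl.den_nonneg (h.core_pou v) _ z)
      (mul_nonneg (sq_nonneg _) (eC_nn _ _ _))) fun y hy => by
      obtain ⟨k1, k2⟩ := deep h hx hd hy
      have k3 := (h.core_pou v).sub _ k1
      have k4 := pos_det (hp ⟨(_, _), k1⟩ 0 (mem_ball_self one_pos)) cp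
      simp only [cpt, smul_zero, add_zero] at k4
      refine ⟨k3, num h0 h1 hs (core_pos k3) (by linarith [(nrm (x := x) hy).2]) (Real.exp_pos _)
        (eta_cmp h h0 h1 k3).1 (by positivity) ?_ (eC_nn _ _ _)
        (sq_le (core_pos k3) (matT (t (Sum.inr w))) _ ![a, b])⟩
      rw [Atl.den, k2, one_mul]
      gcongr
      exact Real.le_sqrt_of_sq_le (by rwa [← pow_mul])
  refine e.trans ((mul_le_mul_of_nonneg_left (NK_le h t _) (by positivity)).trans ?_)
  refine mul_le_mul_of_nonneg_right (le_trans (le_of_eq ?_) (mul_le_mul_of_nonneg_right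
    (le_max_right _ _) (by positivity))) hN
  field_simp

end Ce

/-- **leaf CEL** -/
theorem cel {M : Type*} {T : TD M} {g : T.V → Fam T} {γ σ : ℝ} (h : T.Ok) (hL : T.Lim g γ)
    (h0 : 0 < σ) (h1 : σ < 1) : CEL T g σ := by
  intro T1 _ hC
  choose C hc using Ce.cel1 h hL h0 h1 hC
  obtain ⟨B, hB⟩ := Finite.exists_le fun p : T.V × T.S => C p.1 p.2
  refine ⟨max B 0, le_max_right _ _, fun v t ht s x hx a b => (hc v s t ht x hx a b).trans ?_⟩
  have := scl_pos ((h.core_pou v).sub s hx)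
  exact mul_le_mul_of_nonneg_right (mul_le_mul_of_nonneg_right
    ((hB (v, s)).trans (le_max_left _ _)) (by positivity)) (Ce.NK_nn h t)

end Crest.Agent.N207.K

end
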