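import Crest.Agent.N207.K.Kl1

/-!
# Row 207, block K (helper62): `CMP`
-/

set_option autoImplicit false

open Metric Set Filter Topology MeasureTheory
open Crest.Agent.N207.I Crest.Agent.N207.CB

noncomputable section

namespace Crest.Agent.N207.K

theorem cmp0 {M : Type*} {T : TD M} {g : T.V → Fam T} {σ T1 : ℝ} (h : T.Ok)
    (hT : 4 / T.r ≤ Real.exp T1) (hg : ∀ v, (T.core v).IsMet (g v)) : CMP T g σ T1 := by
  intro v s D hD hU
  have d := dat (σ := σ) h hT (hg v) (hg v)
  have ho := h.core_ok v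
  choose! r r0 rU ri using fun y (hy : y ∈ (T.core v).U s) => ho.exists_ball hy
  choose! C C0 hC using fun y (hy : y ∈ (T.core v).U s) => d.loc1 (rU y hy) (ri y hy)
  obtain ⟨S, h1, h2⟩ := cover hD hU fun y hy => ⟨r0 y hy, rU y hy⟩
  refine ⟨∑ x ∈ S, C x, Finset.sum_nonneg fun x hx => (C0 x (h1 x hx)).le, fun t ht a b => ?_⟩
  have c1 := ((ht.sec.sec.sm s ![a, b]).continuousOn).pow 2
  refine (h2 _ c1 fun _ _ => sq_nonneg _).trans ?_
  rw [Finset.sum_mul]
  refine Finset.sum_le_sum fun x hx => le_trans ?_ (hC x (h1 x hx) (toT ht))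
  refine setIntegral_mono_on (iob (rU x (h1 x hx)) c1) (iob (rU x (h1 x hx))
    (Sys.jet_cont (ho.isOpen s) (ht.sec.sec.sm s))) measurableSet_ball fun y _ => ?_
  exact le_add_of_le_of_nonneg (Finset.single_le_sum (f := fun I => matT (t s) y I ^ 2)
    (fun _ _ => sq_nonneg _) (Finset.mem_univ ![a, b])) (by positivity)

end Crest.Agent.N207.K

end
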