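import Crest.Agent.N207.K.KDefs
import Crest.Agent.N207.I.Car3

/-!
# Row 207, block K (helper1): the weight `eta`
-/

set_option autoImplicit false

open scoped ContDiff
open Metric Set Filter Topology MeasureTheory
open Crest.Agent.N207.I Crest.Agent.N207.I.TD Crest.Agent.N207.CB

noncomputable section

namespace Crest.Agent.N207.K

theorem hasDerivAt_ph (τ : ℝ) : HasDerivAt ph (Real.smoothTransition τ) τ :=
  (Real.smoothTransition.continuous.integral_hasStrictDerivAt 0 τ).hasDerivAt

theorem deriv_ph : deriv ph = Real.smoothTransition := funext fun τ => (hasDerivAt_ph τ).deriv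

theorem ph_sm : ContDiff ℝ ∞ ph :=
  contDiff_infty_iff_deriv.2 ⟨fun τ => (hasDerivAt_ph τ).differentiableAt,
    deriv_ph ▸ Real.smoothTransition.contDiff⟩

theorem ph_zero {τ : ℝ} (h : τ ≤ 0) : ph τ = 0 := by
  rw [ph, intervalIntegral.integral_congr (g := fun _ => 0) fun s hs => ?_]
  · simp
  · rw [uIcc_of_ge h] at hs
    exact Real.smoothTransition.zero_of_nonpos hs.2

theorem ph_mono : Monotone ph :=
  monotone_of_deriv_nonneg (ph_sm.differentiable (by simp)) fun τ =>
    deriv_ph ▸ Real.smoothTransition.nonneg τ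

theorem ph_nonneg (τ : ℝ) : 0 ≤ ph τ := by
  rcases le_total τ 0 with h | h
  · exact (ph_zero h).ge
  · exact (ph_zero le_rfl).ge.trans (ph_mono h)

theorem ph_le {τ : ℝ} (h : 0 ≤ τ) : ph τ ≤ τ := by
  simpa [ph] using intervalIntegral.integral_mono_on (μ := volume) h
    (Real.smoothTransition.continuous.intervalIntegrable 0 τ) (intervalIntegrable_const (c := 1))
    fun s _ => Real.smoothTransition.le_one s

theorem le_ph (τ : ℝ) : τ - 1 ≤ ph τ := by
  rcases le_total τ 1 with h | h
  · exact (sub_nonpos.2 h).trans (ph_nonneg τ)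
  have i := fun a b => Real.smoothTransition.continuous.intervalIntegrable (μ := volume) a b
  have e := intervalIntegral.integral_add_adjacent_intervals (i 0 1) (i 1 τ)
  rw [intervalIntegral.integral_congr (a := 1) (g := fun _ => 1) fun s hs => by
    rw [uIcc_of_le h] at hs
    exact Real.smoothTransition.one_of_one_le hs.1] at e
  have := ph_nonneg 1
  simp only [intervalIntegral.integral_const, smul_eq_mul, mul_one] at e
  simp only [ph] at this ⊢
  linarith

theorem abs_ph_sub {l T1 : ℝ} (hl : 0 ≤ l) : |ph (l - T1) - l| ≤ |T1| + 1 := by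
  have h1 := le_ph (l - T1)
  have h2 := (ph_mono (by linarith [neg_abs_le T1] : l - T1 ≤ l + |T1|)).trans
    (ph_le (by positivity))
  exact abs_le.2 ⟨by linarith [le_abs_self T1], by linarith⟩

variable {M : Type*} {T : TD M} {v u : T.V} {σ T1 : ℝ} {x : E4} {s : T.S}

theorem eta_pos (s : T.S) (x : E4) : 0 < eta T v σ T1 s x := by
  rcases s with a | w
  · exact one_pos
  · exact Real.exp_pos _

theorem eta_one (h : tau T v u T1 x ≤ 0) : eta T v σ T1 (Sum.inr u) x = 1 := by
  simp [eta, ph_zero h]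

theorem core_pos (hx : x ∈ (T.core v).U (Sum.inr u)) : 0 < ‖x‖ := by
  by_cases h : u = v
  · subst h; exact one_pos.trans (mem_core_out.1 hx)
  · exact ((mem_core_inn h).1 hx).2.1

theorem scl_pos (hx : x ∈ (T.core v).U s) : 0 < scl T s x := by
  rcases s with a | w
  · exact one_pos
  · exact core_pos hx

theorem cont_scl (s : T.S) : Continuous (scl T s) := by
  rcases s with a | w
  · exact continuous_const
  · exact continuous_norm

theorem rad_eq (s : T.S) (x : E4) : rad T s x = scl T s x / 8 := by cases s <;> rfl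

theorem tau_sm (hx : x ≠ 0) : ContDiffAt ℝ ∞ (tau T v u T1) x := by
  have := (contDiffAt_norm ℝ (n := ∞) hx).log (norm_ne_zero_iff.2 hx)
  unfold tau
  split_ifs
  · exact this.sub contDiffAt_const
  · exact this.neg.sub contDiffAt_const

theorem eta_sm (s : T.S) : ContDiffOn ℝ ∞ (eta T v σ T1 s) ((T.core v).U s) := by
  rcases s with a | w
  · exact contDiffOn_const
  · exact fun x hx => (contDiffAt_const.mul (ph_sm.contDiffAt.comp x
      (tau_sm (norm_pos_iff.1 (core_pos hx))))).exp.contDiffWithinAt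

theorem tau_out (h : T.Ok) (hT : 4 / T.r ≤ Real.exp T1) (hx : ‖x‖ < 4) : tau T v v T1 x ≤ 0 := by
  have h1 : (4 : ℝ) ≤ Real.exp T1 :=
    le_trans ((le_div_iff₀ h.r_pos).2 (by linarith [h.r_lt])) hT
  simp only [tau, if_true, sub_nonpos]
  rcases (norm_nonneg x).eq_or_lt with e | e
  · rw [← e, Real.log_zero]
    exact Real.one_le_exp_iff.1 (by linarith)
  · exact (Real.log_le_iff_le_exp e).2 (by linarith)

theorem tau_inn (h : T.Ok) (hT : 4 / T.r ≤ Real.exp T1) (hu : u ≠ v) (hx : T.r / 4 < ‖x‖) :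
    tau T v u T1 x ≤ 0 := by
  have hr := h.r_pos
  have h0 : 0 < ‖x‖ := lt_trans (by positivity) hx
  simp only [tau, hu, if_false, sub_nonpos]
  rw [← Real.log_inv, Real.log_le_iff_le_exp (by positivity)]
  refine le_trans ?_ hT
  rw [← inv_div]
  exact inv_anti₀ (by positivity) hx.le

theorem eta_comp (h : T.Ok) (hT : 4 / T.r ≤ Real.exp T1) : (T.core v).CompF (eta T v σ T1) := by
  have o : ∀ w (x : E4), sSup (norm '' T.orb w x) = ‖x‖ := fun w x => by
    have : norm '' T.orb w x = {‖x‖} := by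
      refine Subset.antisymm ?_ (singleton_subset_iff.2 ⟨x, mem_orb w x, rfl⟩)
      rintro _ ⟨_, ⟨γ, -, rfl⟩, rfl⟩
      exact LinearIsometryEquiv.norm_map γ x
    rw [this, csSup_singleton]
  have key : ∀ s, ∀ x : E4, eta T v σ T1 s x = Sum.elim (fun _ : T.V × M => 1)
      (fun p : T.V × Set E4 => Real.exp ((if p.1 = v then σ - 1 else 1 - σ) *
        ph ((if p.1 = v then Real.log (sSup (norm '' p.2)) else -Real.log (sSup (norm '' p.2))) -
          T1))) ((T.core v).c s x) := by
    rintro (a | w) x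
    · rfl
    by_cases hw : w = v
    · subst hw
      rw [core_c_out]
      split_ifs with a1
      · exact eta_one (tau_out h hT a1)
      · simp [eta, tau, o]
    · rw [core_c_inn hw]
      split_ifs with a1
      · exact eta_one (tau_inn h hT hw a1)
      · simp only [Sum.elim_inr, o]; rfl
  intro a b x _ y _ e
  rw [key, key, e]

theorem eta_cmp (h : T.Ok) (h0 : 0 < σ) (h1 : σ < 1) (hx : x ∈ (T.core v).U s) :
    Real.exp (-(|T1| + 1)) * scl T s x ^ (σ - 1) ≤ eta T v σ T1 s x ∧
      eta T v σ T1 s x ≤ Real.exp (|T1| + 1) * scl T s x ^ (σ - 1) := by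
  have p : 0 ≤ |T1| + 1 := by positivity
  rcases s with a | w
  · simp only [scl, eta, Sum.elim_inl, Real.one_rpow, mul_one]
    exact ⟨Real.exp_le_one_iff.2 (by linarith), Real.one_le_exp p⟩
  simp only [scl, eta, Sum.elim_inr, Real.rpow_def_of_pos (core_pos hx), ← Real.exp_add,
    Real.exp_le_exp, tau]
  split_ifs with hw
  · subst hw
    obtain ⟨a1, a2⟩ := abs_le.1 (abs_ph_sub (T1 := T1) (Real.log_nonneg (mem_core_out.1 hx).le))
    constructor <;> nlinarith
  · obtain ⟨-, b1, b2⟩ := (mem_core_inn hw).1 hx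
    obtain ⟨a1, a2⟩ := abs_le.1 (abs_ph_sub (T1 := T1)
      (neg_nonneg.2 (Real.log_nonpos b1.le (b2.trans h.r_lt).le)))
    constructor <;> nlinarith

theorem cK_of_χ (h : T.Ok) (hx : x ∈ (T.core v).U s) (h0 : T.χ s ((T.core v).c s x) ≠ 0) :
    x ∈ T.cK v s := by
  have hp := h.core_pou v
  obtain ⟨y, hy, e⟩ := hp.supp s s x hx h0
  obtain ⟨γ, -, rfl⟩ := ((h.core_ok v).fib s y (hp.sub s hy) x hx).1 e
  rcases s with a | w
  · rw [mem_cK_inl] at hy ⊢; simpa using hy
  by_cases hw : w = v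
  · subst hw; rw [mem_cK_out] at hy ⊢; simpa using hy
  · rw [mem_cK_inn hw] at hy ⊢; simpa using hy

/-- families that vanish deep in the ends have compact support -/
theorem core_cs (h : T.Ok) {F : Fam T} (hF : Sec T v F) {T0 c : ℝ} (h0 : CB.Van T v T0 c F) :
    ∃ S, (T.core v).CS S ∧ (T.core v).Van F S := by
  have hp := h.core_pou v
  let D : T.S → Set E4 := Sum.elim (fun a => T.cK v (Sum.inl a)) fun w =>
    if w = v then {x | 3 / 2 ≤ ‖x‖ ∧ ‖x‖ ≤ Real.exp (T0 + c)}
    else if T.kid v w then {x | Real.exp (-(T0 + c)) ≤ ‖x‖ ∧ ‖x‖ ≤ 3 / 4 * T.r} else ∅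
  have an : ∀ p q : ℝ, IsCompact {z : E4 | p ≤ ‖z‖ ∧ ‖z‖ ≤ q} := fun p q =>
    (isCompact_closedBall (0 : E4) q).of_isClosed_subset
      ((isClosed_le continuous_const continuous_norm).inter
        (isClosed_le continuous_norm continuous_const)) fun _ hz => mem_closedBall_zero_iff.2 hz.2
  refine ⟨_, ⟨D, ?_, Subset.rfl⟩, fun b y hy hne => ?_⟩
  · rintro (a | w)
    · refine ⟨?_, hp.sub (Sum.inl a)⟩
      simp only [D, cK, Sum.elim_inl]
      split_ifs
      exacts [isCompact_closedBall _ _, isCompact_empty]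
    simp only [D, Sum.elim_inr]
    split_ifs with h1 h2
    · subst h1
      exact ⟨an _ _, fun z hz => hp.sub _ (mem_cK_out.2 hz.1)⟩
    · exact ⟨an _ _, fun z hz => hp.sub _ ((mem_cK_inn h1).2
        ⟨h2, (Real.exp_pos _).trans_le hz.1, hz.2⟩)⟩
    · exact ⟨isCompact_empty, empty_subset _⟩
  obtain ⟨s, -, hs⟩ := Finset.exists_ne_zero_of_sum_ne_zero ((hp.sum b y hy).trans_ne one_ne_zero)
  obtain ⟨x, hx, e⟩ := hp.supp s b y hy hs
  have hx' := hp.sub s hx
  refine mem_iUnion.2 ⟨s, x, ?_, e⟩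
  rcases s with a | w
  · exact hx
  have ht : tau T v w T0 x < c := not_le.1 fun hc => hne (by
    have := hF.sec.compat.eq_zero (h.core_ok v) hy hx' e.symm (by
      funext I; simp [matT, h0 w x hx' hc])
    ext i j
    exact congrFun this ![i, j])
  have x0 := core_pos hx'
  simp only [D, Sum.elim_inr, tau] at ht ⊢
  split_ifs at ht ⊢ with h1 h2
  · subst h1
    exact ⟨mem_cK_out.1 hx, (Real.log_le_iff_le_exp x0).1 (by linarith)⟩
  · exact ⟨(Real.le_log_iff_exp_le x0).1 (by linarith), ((mem_cK_inn h1).1 hx).2.2⟩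
  · exact h2 ((mem_cK_inn h1).1 hx).1

end Crest.Agent.N207.K

end
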