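import Crest.Agent.N207.K.KDefs
import Crest.Agent.N207.Ga.Met3

/-!
# Row 207 (helper18): **GBJ**
-/

set_option autoImplicit false

open Metric Set
open Crest.GeometryTopology.CoordMetric Crest.Agent.R202.Tens Crest.Agent.NLib.Ell
open Crest.Agent.N207.I Crest.Agent.N207.CB Crest.Agent.N207.Jt Crest.Agent.N207.Ga

noncomputable section

namespace Crest.Agent.N207.K

variable {M : Type*} {T : TD M} {g : T.V → Fam T} {γ : ℝ}

theorem pos_low {c : ℝ} {A : Matrix (Fin 4) (Fin 4) ℝ} (h : Pos c A) (ξ : Fin 4 → ℝ) :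
    c * ∑ i, ξ i ^ 2 ≤ ∑ i, ∑ j, A i j * ξ i * ξ j := by
  have h1 := h.2 (WithLp.toLp 2 ξ)
  rwa [EuclideanSpace.real_norm_sq_eq, bil_apply] at h1

theorem end_cell (h : T.Ok) {v w : T.V} {x y : E4} (hx : x ∈ T.cK v (Sum.inr w))
    (hy : ‖y‖ ≤ 9 / 8) : x + (‖x‖ / 8) • y ∈ (T.core v).U (Sum.inr w) := by
  obtain ⟨h1, h2⟩ := cell_norm x hy
  by_cases hw : w = v
  · subst hw
    have := TD.mem_cK_out.1 hx
    exact TD.mem_core_out.2 (by linarith)
  · obtain ⟨h3, h4, h5⟩ := (TD.mem_cK_inn hw).1 hx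
    exact (TD.mem_core_inn hw).2 ⟨h3, by linarith, by linarith [h.r_pos]⟩

theorem ew_le (h : T.Ok) (hγ : 0 < γ) {v w : T.V} {x : E4} (hx : x ∈ (T.core v).U (Sum.inr w)) :
    ew γ v w x ≤ 1 := by
  unfold ew
  split_ifs with hw
  · subst hw
    exact Real.rpow_le_one_of_one_le_of_nonpos (TD.mem_core_out.1 hx).le (by linarith)
  · exact Real.rpow_le_one (norm_nonneg _)
      (((TD.mem_core_inn hw).1 hx).2.2.trans h.r_lt).le hγ.le

/-- **GBJ** -/
theorem gbj (h : T.Ok) (hL : T.Lim g γ) (hγ : 0 < γ) : GBJ T g := by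
  obtain ⟨C, h0, hC⟩ := gb_sj hL
  obtain ⟨D, c, h1, hc, hD⟩ := ball_bd hL
  have hb : ∀ y ∈ ball (0 : E4) (9 / 8), ‖y‖ ≤ 9 / 8 := fun y hy => (mem_ball_zero_iff.1 hy).le
  have hb2 : ∀ y ∈ ball (0 : E4) (9 / 8), ‖y‖ ≤ 2 := fun y hy => (hb y hy).trans (by norm_num)
  refine ⟨4 / T.r, min c (1 / 2), by positivity, fun v T0 hT => gb_met h hL hT v, fun k =>
    ⟨2 * (sm C (k + 1) + 1 + sm D (k + 1)), fun v T0 _ s x hx => ?_⟩⟩
  have p1 := sm_nonneg (m := k + 1) h0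
  have p2 := sm_nonneg (m := k + 1) h1
  cases s with
  | inl a =>
    obtain ⟨rfl, h2⟩ := TD.mem_cK_inl.1 hx
    refine ⟨fun y hy => pos_low ((hD a _ ((ball_norm h2 (hb y hy)).trans (by norm_num))).1.mono
      (min_le_left _ _)), fun p q => db_cka ((ball_db hL h1 (fun z hz k => (hD a z hz).2 k p q) h2
        hb2).mono (by linarith)) isOpen_ball (convex_ball _ _) subset_rfl⟩
  | inr w =>
    have h2 := fun y hy => end_cell h hx (hb y hy)
    have h3 : x ≠ 0 := core_ne ((h.core_pou v).sub _ hx)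
    refine ⟨fun y hy => pos_low ((pos_of_small (gb_symm hL (h2 y hy))
      (gb_small hL (h2 y hy))).mono (min_le_right _ _)), fun p q => db_cka
        ((db_of_dv (G := fun y => gb T g T0 v (Sum.inr w) (x + (‖x‖ / 8) • y)) isOpen_ball
          (db_sj h0 zero_le_one h3 hb2 fun y hy => (hC T0 v w _ (h2 y hy) p q).mono fun k =>
            mul_le_mul_of_nonneg_left (ew_le h hγ (h2 y hy)) (h0 k))).mono (by linarith))
        isOpen_ball (convex_ball _ _) subset_rfl⟩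

end Crest.Agent.N207.K

end
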