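import Crest.Agent.N207.K.Ins2

/-!
# Row 207, block K (helper1): Cauchy-Schwarz, finite energy, the rough Laplacian on an atlas
-/

set_option autoImplicit false
set_option linter.unusedSectionVars false
open MeasureTheory Set Filter Topology Metric
open scoped ContDiff ENNReal
open Crest.GeometryTopology.CoordMetric
open Crest.Agent.R249.SReg352 Crest.Agent.R249.EV Crest.Agent.N207.I

noncomputable section

namespace Crest.Agent.N207.K

open Sys

theorem le_sqrt_mul {x a b : ℝ} (ha : 0 ≤ a) (hb : 0 ≤ b)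
    (h : ∀ τ : ℝ, 0 < τ → x ≤ τ / 2 * a + τ⁻¹ / 2 * b) : x ≤ √a * √b := by
  refine le_of_forall_pos_le_add fun ε hε => ?_
  rw [← Real.sq_sqrt ha, ← Real.sq_sqrt hb] at h
  have a0 := Real.sqrt_nonneg a
  have b0 := Real.sqrt_nonneg b
  generalize √a = a at *
  generalize √b = b at *
  obtain ⟨δ, hδ, hδ1⟩ : ∃ δ : ℝ, 0 < δ ∧ δ * (a + b) ≤ ε :=
    ⟨ε / (a + b + 1), by positivity, by
      rw [div_mul_eq_mul_div, div_le_iff₀ (by positivity)]; nlinarith⟩
  have k3 := h ((b + δ) / (a + δ)) (by positivity)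
  have k4 : (b + δ) / (a + δ) * a ^ 2 ≤ (b + δ) * a := by
    rw [div_mul_eq_mul_div, div_le_iff₀ (by positivity)]
    have : 0 ≤ (b + δ) * a * δ := by positivity
    nlinarith
  have k5 : ((b + δ) / (a + δ))⁻¹ * b ^ 2 ≤ (a + δ) * b := by
    rw [inv_div, div_mul_eq_mul_div, div_le_iff₀ (by positivity)]
    have : 0 ≤ (a + δ) * b * δ := by positivity
    nlinarith
  have k8 : 0 ≤ δ * (a + b) := by positivity
  nlinarith

theorem lint_le_of_cpt {n : ℕ} {U : Set (En n)} (hU : IsOpen U) {g : En n → ℝ}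
    (hg : ContinuousOn g U) (g0 : ∀ y ∈ U, 0 ≤ g y) {C : ℝ}
    (h : ∀ K, IsCompact K → K ⊆ U → ∫ y in K, g y ≤ C) :
    ∫⁻ y in U, ENNReal.ofReal (g y) ≤ ENNReal.ofReal C := by
  obtain ⟨F, h1, h2, h3, h4⟩ := hU.exists_iUnion_isClosed
  have e : U = ⋃ m : ℕ, closedBall 0 m ∩ F m := by
    refine Subset.antisymm (fun y hy => ?_) (iUnion_subset fun m => inter_subset_right.trans (h2 m))
    obtain ⟨m, hm⟩ := mem_iUnion.1 (h3 ▸ hy)
    obtain ⟨l, hl⟩ := exists_nat_ge ‖y‖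
    exact mem_iUnion.2 ⟨max m l, mem_closedBall_zero_iff.2 (hl.trans (by simp)),
      h4 (le_max_left _ _) hm⟩
  rw [e, setLIntegral_iUnion_of_directed _ (Monotone.directed_le fun m l hml =>
    inter_subset_inter (closedBall_subset_closedBall (by simpa)) (h4 hml))]
  refine iSup_le fun m => ?_
  have hK := (isCompact_closedBall (0 : En n) m).inter_right (h1 m)
  have hKU : closedBall 0 m ∩ F m ⊆ U := inter_subset_right.trans (h2 m)
  rw [← ofReal_integral_eq_lintegral_ofReal ((hg.mono hKU).integrableOn_compact hK)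
    ((ae_restrict_mem hK.measurableSet).mono fun y hy => g0 y (hKU hy))]
  exact ENNReal.ofReal_le_ofReal (h _ hK hKU)

section FO

variable {n k : ℕ} {U : Set (En n)} {L L' : Tn n k → En n → ℝ} {G : MetricField n}

/-- first order operators with smooth coefficients -/
def FO (U : Set (En n)) (L : Tn n k → En n → ℝ) : Prop :=
  ∃ (B : Fin n → (Fin k → Fin n) → En n → ℝ) (C : (Fin k → Fin n) → En n → ℝ),
    (∀ i J, ContDiffOn ℝ ∞ (B i J) U) ∧ (∀ J, ContDiffOn ℝ ∞ (C J) U) ∧ ∀ T, SmT T U → ∀ y ∈ U,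
      L T y = ∑ i, ∑ J, B i J y * pderiv i (fun z => T z J) y + ∑ J, C J y * T y J

theorem FO.congr (h : FO U L) (e : ∀ T, SmT T U → ∀ y ∈ U, L' T y = L T y) : FO U L' :=
  let ⟨B, C, h1, h2, h3⟩ := h
  ⟨B, C, h1, h2, fun T hT y hy => (e T hT y hy).trans (h3 T hT y hy)⟩

theorem FO.add (h : FO U L) (h' : FO U L') : FO U fun T y => L T y + L' T y := by
  obtain ⟨B, C, h1, h2, h3⟩ := h
  obtain ⟨B', C', h1', h2', h3'⟩ := h'
  refine ⟨B + B', C + C', fun i J => (h1 i J).add (h1' i J), fun J => (h2 J).add (h2' J),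
    fun T hT y hy => ?_⟩
  simp only [h3 T hT y hy, h3' T hT y hy, Pi.add_apply, add_mul, Finset.sum_add_distrib]
  ring

theorem FO.mul (h : FO U L) {f : En n → ℝ} (hf : ContDiffOn ℝ ∞ f U) :
    FO U fun T y => f y * L T y := by
  obtain ⟨B, C, h1, h2, h3⟩ := h
  refine ⟨fun i J y => f y * B i J y, fun J y => f y * C J y, fun i J => hf.mul (h1 i J),
    fun J => hf.mul (h2 J), fun T hT y hy => ?_⟩
  simp only [h3 T hT y hy, mul_add, Finset.mul_sum, mul_assoc]

theorem FO.sub (h : FO U L) (h' : FO U L') : FO U fun T y => L T y - L' T y :=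
  (h.add (h'.mul (contDiffOn_const (c := -1)))).congr fun _ _ _ _ => by ring

theorem FO.sum {ι : Type*} [Fintype ι] {L : ι → Tn n k → En n → ℝ} (h : ∀ i, FO U (L i)) :
    FO U fun T y => ∑ i, L i T y := by
  choose B C h1 h2 h3 using h
  refine ⟨fun i J y => ∑ l, B l i J y, fun J y => ∑ l, C l J y,
    fun i J => ContDiffOn.sum fun l _ => h1 l i J, fun J => ContDiffOn.sum fun l _ => h2 l J,
    fun T hT y hy => ?_⟩
  simp only [fun l => h3 l T hT y hy, Finset.sum_add_distrib, Finset.sum_mul]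
  rw [Finset.sum_comm, Finset.sum_comm (f := fun l J => C l J y * T y J)]
  exact congrArg (· + _) (Finset.sum_congr rfl fun _ _ => Finset.sum_comm)

theorem fo_val (I : Fin k → Fin n) : FO U fun T y => T y I :=
  ⟨0, fun J _ => if J = I then 1 else 0, fun _ _ => contDiffOn_const, fun _ => contDiffOn_const,
    fun T _ y _ => by simp⟩

theorem fo_pd (l : Fin n) (I : Fin k → Fin n) : FO U fun T y => pderiv l (fun z => T z I) y :=
  ⟨fun i J _ => if J = I then if i = l then 1 else 0 else 0, 0, fun _ _ => contDiffOn_const,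
    fun _ => contDiffOn_const, fun T _ y _ => by simp⟩

theorem fo_cov (hG : IsRiemannianOn G U) (J : Fin (k + 1) → Fin n) :
    FO U fun T y => cov G T y J :=
  (fo_pd _ _).sub (FO.sum fun _ => FO.sum fun _ => (fo_val _).mul (sm_chr hG _ _ _))

theorem lap_op (hG : IsRiemannianOn G U) (k : ℕ) : ∃ B C, Cf U (fun y => (G y)⁻¹) B C ∧
    ∀ T : Tn n k, SmT T U → ∀ I, ∀ y ∈ U,
      -lapT G T y I = opc (fun y => (G y)⁻¹) B C (fun J z => T z J) I y := by
  have h1 : ∀ a b (I : Fin k → Fin n), FO U fun T y => pderiv a (pderiv b fun z => T z I) y -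
      cov G (cov G T) y (Fin.cons a (Fin.cons b I)) := fun a b I => by
    refine ((FO.sum fun s => FO.sum fun m => ((fo_val (Function.update I s m)).mul
      (sm_pd hG.isOpen (sm_chr hG m b (I s)) a)).add ((fo_pd a (Function.update I s m)).mul
      (sm_chr hG m b (I s)))).add (FO.sum fun s => FO.sum fun m => (fo_cov hG (Function.update
      (Fin.cons b I) s m)).mul (sm_chr hG m a (Fin.cons (α := fun _ => Fin n) b I s)))).congr
      fun T hT y hy => ?_
    have d1 := fun J => hT.dAt hG.isOpen hy J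
    have d2 := fun a b c => dAt (sm_chr hG a b c) hG.isOpen hy
    rw [cov_cons]
    simp only [cov_cons, actA]
    rw [pd_sub a (dAt (sm_pd hG.isOpen (hT I) b) hG.isOpen hy)
      (.fun_sum fun s _ => .fun_sum fun m _ => (d2 _ _ _).fun_mul (d1 _)),
      pd_sum a _ fun s _ => .fun_sum fun m _ => (d2 _ _ _).fun_mul (d1 _)]
    simp only [fun s : Fin k => pd_sum a Finset.univ fun m _ =>
      (d2 m b (I s)).fun_mul (d1 (Function.update I s m)), pd_mul a (d2 _ _ _) (d1 _)]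
    ring
  choose B C h2 h3 h4 using fun I : Fin k → Fin n =>
    FO.sum fun a => FO.sum fun b => (h1 a b I).mul (sm_inv hG a b)
  refine ⟨fun i I => B I i, C, ⟨sm_inv hG, fun y hy => (hG.posDef y hy).inv, fun i I => h2 I i,
    h3⟩, fun T hT I y hy => ?_⟩
  simp only [opc, ← h4 I T hT y hy, lapT, trT, mul_sub, Finset.sum_sub_distrib]
  ring

end FO

variable {X : Type*} {α : Type} [Fintype α] {k : ℕ} {A : Atl X α} {σ : Equiv.Perm (Fin k)}
  {χ : α → X → ℝ} {K : α → Set E4} {G G0 : α → MetricField 4} {η : α → E4 → ℝ}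
  {e : (α → Tn 4 k) → (α → Tn 4 k) → α → E4 → ℝ} {P : (α → Tn 4 k) → α → Tn 4 k}

/-- Cauchy-Schwarz -/
theorem int_cs (h : A.Ok) (hχ : A.PoU χ K) {f a b : α → E4 → ℝ} (hf : A.Intg χ G f)
    (ha : A.Intg χ G0 a) (hb : A.Intg χ G0 b) (a0 : ∀ s, ∀ x ∈ A.U s, 0 ≤ a s x)
    (b0 : ∀ s, ∀ x ∈ A.U s, 0 ≤ b s x) (hle : ∀ s, ∀ x ∈ A.U s,
      A.den χ G s x * |f s x| ≤ A.den χ G0 s x * (√(a s x) * √(b s x))) :
    |A.int χ G f| ≤ √(A.int χ G0 a) * √(A.int χ G0 b) := by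
  refine le_sqrt_mul (Atl.int_nonneg h hχ a0) (Atl.int_nonneg h hχ b0) fun τ hτ => ?_
  refine (Atl.abs_int_le hχ f).trans ?_
  rw [← Atl.int_const_mul, ← Atl.int_const_mul, ← Atl.int_add (ha.const_mul _) (hb.const_mul _)]
  refine Finset.sum_le_sum fun s _ => setIntegral_mono_on ((hf s).abs.congr (.of_forall fun x => ?_))
    ((ha.const_mul _).add (hb.const_mul _) s) (h.isOpen s).measurableSet fun x hx =>
      (hle s x hx).trans (mul_le_mul_of_nonneg_left (Ok.sqrt_mul_le (a0 s x hx) (b0 s x hx) hτ)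
        (Atl.den_nonneg hχ s x))
  simp only [abs_mul, abs_of_nonneg (Atl.den_nonneg hχ s x)]

namespace Dat

variable (d : Dat A σ χ K G G0 η e P)
include d

theorem e_sub_le {s t : α → Tn 4 k} (hs : A.Sec s) (ht : A.Sec t) {a : α} {y : E4}
    (hy : y ∈ A.U a) : e (s - t) (s - t) a y ≤ 2 * e s s a y + 2 * e t t a y := by
  have k : ∀ c : ℝ, e ((1 : ℝ) • s + c • t) ((1 : ℝ) • s + c • t) a y =
      e s s a y + 2 * c * e s t a y + c ^ 2 * e t t a y := fun c => by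
    rw [d.lin _ _ _ hs ht ((hs.smul 1).add (ht.smul c)) _ _ a y hy, d.symm s _ a y hy,
      d.symm t _ a y hy, d.lin _ _ _ hs ht hs _ _ a y hy, d.lin _ _ _ hs ht ht _ _ a y hy,
      d.symm t s a y hy]
    ring
  have k1 := k (-1)
  have k2 := d.e0 ((1 : ℝ) • s + (1 : ℝ) • t) a hy
  rw [k] at k2
  rw [one_smul, neg_one_smul, ← sub_eq_add_neg] at k1
  linarith

theorem int_K_le (t : WT A σ) (a : α) {D : Set E4} (hU : D ⊆ A.U a) :
    ∫ y in D, A.den χ G0 a y * e t.1.1 t.1.1 a y ≤ d.pb.N t t :=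
  have p : ∀ b, ∀ y ∈ A.U b, 0 ≤ A.den χ G0 b y * e t.1.1 t.1.1 b y := fun b y hy =>
    mul_nonneg (Atl.den_nonneg d.pou b y) (d.e0 _ b hy)
  (setIntegral_mono_set (d.ig_e t.1 t a) ((ae_restrict_mem
    (d.ok.isOpen a).measurableSet).mono (p a)) hU.eventuallyLE).trans
    (Finset.single_le_sum (f := fun b => ∫ y in A.U b, A.den χ G0 b y * e t.1.1 t.1.1 b y)
      (fun b _ => setIntegral_nonneg (d.ok.isOpen b).measurableSet (p b)) (Finset.mem_univ a))

/-- the energy of a limit -/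
theorem en_K_le (up : ∀ a D, IsCompact D → D ⊆ A.U a → ∃ C : ℝ, 0 < C ∧
      ∀ s, ∀ y ∈ D, e s s a y ≤ C * jT (s a) y) {s : ℕ → WT A σ} {u : WS A σ} {r : ℝ}
    (hs : d.pb.Lc s u) (hr : Tendsto (fun l => d.pb.N (s l) (s l)) atTop (𝓝 r)) (a : α)
    {D : Set E4} (hD : IsCompact D) (hU : D ⊆ A.U a) :
    ∫ y in D, A.den χ G0 a y * e u.1 u.1 a y ≤ 2 * r := by
  obtain ⟨C, C0, hC⟩ := up a D hD hU
  have cd := (Atl.sm_den d.met0 d.pou a).continuousOn.mono hU
  obtain ⟨E, E0, hE⟩ := exists_ub hD cd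
  have l := (hr.const_mul 2).add ((hs a D hD hU).const_mul (2 * (E * C)))
  rw [mul_zero, add_zero] at l
  refine ge_of_tendsto' l fun l => ?_
  have i : ∀ w : WS A σ, IntegrableOn (fun y => A.den χ G0 a y * e w.1 w.1 a y) D := fun w =>
    (cd.mul ((d.ct _ _ w.2.1 w.2.1 a).mono hU)).integrableOn_compact hD
  have i2 : IntegrableOn (jet (d.pb.c (s l - u) a)) D :=
    ((jet_cont (d.ok.isOpen a) (((s l).1 - u).2.1.sm a)).mono hU).integrableOn_compact hD
  refine le_trans ?_ (add_le_add_left (mul_le_mul_of_nonneg_left (d.int_K_le (s l) a hU)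
    zero_le_two) _)
  rw [← integral_const_mul, ← integral_const_mul,
    ← integral_add ((i _).const_mul _) (i2.const_mul _)]
  refine setIntegral_mono_on (i u) (((i _).const_mul _).add (i2.const_mul _)) hD.measurableSet
    fun y hy => ?_
  have a1 := d.e_sub_le (s l).1.2.1 ((s l).1 - u).2.1 (hU hy)
  rw [Submodule.coe_sub, sub_sub_cancel] at a1
  have a2 := hC ((s l).1.1 - u.1) y hy
  have a3 := (le_abs_self _).trans (hE y hy)
  have a4 := Atl.den_nonneg (G := G0) d.pou a y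
  have a5 := mul_le_mul a3 a2 (d.e0 _ a (hU hy)) E0.le
  have a6 := mul_le_mul_of_nonneg_left a1 a4
  change _ ≤ _ + _ * jT (((s l).1.1 - u.1) a) y
  nlinarith

end Dat

theorem lap_dat (h : A.Ok) (hχ : A.PoU χ K) (hG : A.IsMet G) {ρ : α → E4 → ℝ} (hρ : A.Ct ρ)
    (ρ0 : ∀ a, ∀ x ∈ A.U a, 0 < ρ a x) : Dat A (1 : Equiv.Perm (Fin k)) χ K G G (fun _ _ => 1)
      (fun s t a x => ip (G a) (cov (G a) (s a)) (cov (G a) (t a)) x +
        ip (G a) (s a) (t a) x / ρ a x ^ 2) fun s => -fun a => lapT (G a) (s a) where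
  ok := h
  pou := hχ
  met := hG
  met0 := hG
  inv _ := rfl
  ηc _ _ _ _ _ _ _ := rfl
  ηs _ := contDiffOn_const
  ηp _ _ _ := one_pos
  lin s s' t hs hs' _ b c a y hy := by
    have := cov_add (G := G a) ((hs.smul b).dfT h hy) ((hs'.smul c).dfT h hy)
    simp only [Pi.smul_apply] at this
    simp only [ip, Pi.add_apply, Pi.smul_apply, this, cov_smul, ipA_add_left, ipA_smul_left]
    ring
  symm s t a y hy := by rw [ip_comm (hG.riem a) hy, ip_comm (hG.riem a) hy (s a)]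
  ct s t hs ht a := ((hs.cov h hG).ct_ip hG (ht.cov h hG) a).add
    ((hs.ct_ip hG ht a).div ((hρ a).pow 2) fun x hx => pow_ne_zero _ (ρ0 a x hx).ne')
  van s t a y _ h0 := by
    simp only [ip, (cov_congr (G := G a) EventuallyEq.rfl h0).eq_of_nhds, h0.eq_of_nhds, cov_zero,
      Pi.zero_apply, ipA_zero_right, zero_div, add_zero]
  lo a D hD hU := by
    obtain ⟨C, C0, hC⟩ := jet_cmp (hG.riem a) hD hU k
    obtain ⟨R, R0, hR⟩ := exists_ub hD (((hρ a).pow 2).mono hU)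
    refine ⟨C * (1 + R), by positivity, fun s y hy => (hC y hy _).1.trans ?_⟩
    rw [mul_assoc]
    refine mul_le_mul_of_nonneg_left ?_ C0.le
    have p0 := Ar.ipA_nonneg ((hG.riem a).posDef y (hU hy)) (s a y)
    have p1 := Ar.ipA_nonneg ((hG.riem a).posDef y (hU hy)) (cov (G a) (s a) y)
    have p2 := pow_pos (ρ0 a y (hU hy)) 2
    have p3 := mul_le_mul_of_nonneg_right ((le_abs_self _).trans (hR y hy)) (div_nonneg p0 p2.le)
    rw [Pi.pow_apply, mul_div_cancel₀ _ p2.ne'] at p3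
    simp only [nsq, ip]
    nlinarith [mul_nonneg R0.le p1, div_nonneg p0 p2.le]
  P_mem s hs := ⟨(hs.1.lapT h hG).neg, fun _ _ _ _ => rfl⟩
  P_eq a := by
    obtain ⟨B, C, h1, h2⟩ := lap_op (hG.riem a) k
    exact ⟨_, B, C, h1, fun s hs => h2 _ (hs.1.sm a)⟩

/-- **existence of finite energy solutions** for the rough Laplacian -/
theorem lin_ex (h : A.Ok) (hχ : A.PoU χ K) (hG : A.IsMet G) {ρ : α → E4 → ℝ} (hρ : A.Ct ρ)
    (ρ0 : ∀ a, ∀ x ∈ A.U a, 0 < ρ a x) {c : ℝ} (hc : 0 < c)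
    (hardy : ∀ (t : α → Tn 4 k) (S : Set X), A.Sec t → A.CS S → A.Van t S →
      c * A.int χ G (fun a x => nsq (G a) (t a) x / ρ a x ^ 2) ≤
        A.int χ G fun a x => nsq (G a) (cov (G a) (t a)) x)
    {F : α → Tn 4 k} (hF : A.Sec F) (iF : A.Intg χ G fun a x => ρ a x ^ 2 * nsq (G a) (F a) x) :
    ∃ u : α → Tn 4 k, A.Sec u ∧ (∀ a, ∀ x ∈ A.U a, lapT (G a) (u a) x = F a x) ∧
      A.lint χ G (fun a x => ENNReal.ofReal
        (nsq (G a) (cov (G a) (u a)) x + nsq (G a) (u a) x / ρ a x ^ 2)) < ⊤ := by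
  have d := lap_dat (k := k) h hχ hG hρ ρ0
  have p0 : ∀ {l : ℕ} (t : Tn 4 l) a, ∀ x ∈ A.U a, 0 ≤ ip (G a) t t x := fun t a x hx =>
    Ar.ipA_nonneg ((hG.riem a).posDef x hx) _
  have i1 : ∀ s t : WT A (1 : Equiv.Perm (Fin k)), A.Intg χ G fun a =>
      ip (G a) (cov (G a) (t.1.1 a)) (cov (G a) (s.1.1 a)) := fun s t => by
    obtain ⟨S, h1, h2⟩ := t.2
    obtain ⟨S', h3, h4, h5⟩ := h1.exists_cl h
    exact Atl.intg_of_cs h hG hχ h4 ((t.1.2.1.cov h hG).ct_ip hG (s.1.2.1.cov h hG))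
      (((h2.mono h3).cov h h5).ip_left _)
  have e1 : ∀ s t : WT A (1 : Equiv.Perm (Fin k)), d.pb.ip (d.pb.P s) t =
      A.int χ G fun a => ip (G a) (cov (G a) (t.1.1 a)) (cov (G a) (s.1.1 a)) := fun s t => by
    obtain ⟨S, h1, h2⟩ := t.2
    rw [Atl.green_lap h hG hχ t.1.2.1 s.1.2.1 h1 h2, ← Atl.int_neg]
    refine Atl.int_congr h fun a x hx => ?_
    rw [one_mul, ip_comm (hG.riem a) hx]
    exact Ar.ipA_neg_right _ _ _
  have ok : d.pb.Ok 1 := d.pb_ok zero_le_one fun s t => by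
    rw [e1, one_mul, mul_comm]
    refine int_cs h hχ (i1 s t) (d.ig_e _ t) (d.ig_e _ s) (fun a x hx => d.e0 _ a hx)
      (fun a x hx => d.e0 _ a hx) fun a x hx => mul_le_mul_of_nonneg_left
        ((Ar.abs_ipA_le ((hG.riem a).posDef x hx) _ _).trans ?_) (Atl.den_nonneg hχ a x)
    gcongr <;> exact le_add_of_nonneg_right (div_nonneg (p0 _ a x hx) (sq_nonneg _))
  have fam : d.pb.Fam (m := Fin 0) Fin.elim0 Fin.elim0 (c / (1 + c)) :=
    ⟨by positivity, fun k => k.elim0, fun t _ => by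
      obtain ⟨S, h1, h2⟩ := t.2
      have a1 := hardy _ S t.1.2.1 h1 h2
      have i2 := ((d.ig_e t.1 t).sub (i1 t t)).congr h
        (g := fun a x => nsq (G a) (t.1.1 a) x / ρ a x ^ 2) fun a x _ => by simp [nsq]
      rw [e1, Dat.pb_N, div_mul_eq_mul_div, div_le_iff₀ (by positivity)]
      erw [Atl.int_add (i1 t t) i2]
      change _ ≤ A.int χ G (fun a x => nsq (G a) (cov (G a) (t.1.1 a)) x) * _
      change _ * (A.int χ G (fun a x => nsq (G a) (cov (G a) (t.1.1 a)) x) + _) ≤ _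
      linarith⟩
  obtain ⟨u, μ, -, h1, -, -, s, r, h2, -, h3⟩ := ok.solve fam (p := 0) (by simp)
    ⟨-F, hF.neg, fun _ _ _ _ => rfl⟩ (Real.sqrt_nonneg _) (fun t => int_cs h hχ (d.ig_ip _ t) iF
      (d.ig_e _ t) (fun a x hx => mul_nonneg (sq_nonneg _) (p0 _ a x hx))
      (fun a x hx => d.e0 _ a hx) fun a x hx => mul_le_mul_of_nonneg_left (by
        have r0 := ρ0 a x hx
        rw [one_mul, Real.sqrt_mul (sq_nonneg _), Real.sqrt_sq r0.le]
        refine (le_of_eq ((congrArg abs (Ar.ipA_neg_left _ _ _)).trans (abs_neg _))).trans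
          ((Ar.abs_ipA_le ((hG.riem a).posDef x hx) _ _).trans ?_)
        rw [mul_comm (ρ a x), mul_assoc]
        refine mul_le_mul_of_nonneg_left ((div_le_iff₀' r0).1 ?_) (Real.sqrt_nonneg _)
        rw [← Real.sqrt_sq r0.le, ← Real.sqrt_div' _ (sq_nonneg _)]
        exact Real.sqrt_le_sqrt (le_add_of_nonneg_left (p0 _ a x hx)))
        (Atl.den_nonneg hχ a x)) 0
  refine ⟨u.1, u.2.1, fun a x hx => funext fun I => neg_injective ?_,
    ENNReal.sum_lt_top.2 fun a _ => ?_⟩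
  · exact (h1 a I x hx).trans (by simp [Dat.pb_c])
  simp only [← ENNReal.ofReal_mul (Atl.den_nonneg hχ a _)]
  refine (lint_le_of_cpt (h.isOpen a) ((Atl.sm_den hG hχ a).continuousOn.mul
    (d.ct _ _ u.2.1 u.2.1 a)) (fun y hy => mul_nonneg (Atl.den_nonneg hχ a _) (d.e0 _ a hy))
    fun D hD hU => d.en_K_le (fun a D hD hU => ?_) h2 h3 a hD hU).trans_lt ENNReal.ofReal_lt_top
  obtain ⟨C, C0, hC⟩ := jet_cmp (hG.riem a) hD hU k
  obtain ⟨R, R0, hR⟩ := exists_lb hD (((hρ a).pow 2).mono hU) fun y hy =>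
    pow_pos (ρ0 a y (hU hy)) 2
  refine ⟨(1 + R⁻¹) * C, by positivity, fun s y hy => ?_⟩
  rw [mul_assoc]
  refine le_trans ?_ (mul_le_mul_of_nonneg_left (hC y hy _).2 (by positivity))
  have a0 := p0 (s a) a y (hU hy)
  have a1 := p0 (cov (G a) (s a)) a y (hU hy)
  have a2 := div_le_div_of_nonneg_left a0 R0 (hR y hy)
  rw [div_eq_inv_mul _ R, Pi.pow_apply] at a2
  simp only [nsq]
  nlinarith [mul_nonneg (inv_nonneg.2 R0.le) a1]

end Crest.Agent.N207.K

end
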