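import Crest.Agent.N207.K.Coer1
import Crest.Agent.N207.K.Eta
import Crest.Agent.N207.K.Gbj
import Crest.Agent.N207.K.Ins3
import Crest.Agent.N207.M.Scl

/-!
# Row 207, block K (helper47): boundedness of the weighted form of `Pop`
-/

set_option autoImplicit false
open Set Filter Topology
open scoped ContDiff
open Crest.GeometryTopology.CoordMetric Crest.GeometryTopology.ChartCurvature
open Crest.Agent.R238 (Ell)
open Crest.Agent.N207.Hd Crest.Agent.N207.Lg Crest.Agent.N207.CB Crest.Agent.N207.I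

noncomputable section

namespace Crest.Agent.N207.K

namespace Cb

/-- bounded geometry from the jets -/
theorem pt_of_jg (Λ K : ℝ) (hΛ : 0 < Λ) : ∃ e : ℝ, 0 ≤ e ∧ ∀ (G : MetricField 4) (U : Set E4)
    (x : E4) (ρ : ℝ), IsRiemannianOn G U → x ∈ U → 0 < ρ → Ell Λ⁻¹ Λ (G x) → Sk.JG 2 G x ρ K →
      Pt G x ρ Λ e := by
  let D := M2 (Fin 4) ℝ × M3 (Fin 4) ℝ × M4 (Fin 4) ℝ
  have cl : Cl fun f : D → ℝ => Continuous f :=
    ⟨fun _ => continuous_const, fun hf hg => hf.add hg, fun hf hg => hf.mul hg⟩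
  have h0 : P2 (fun f : D → ℝ => Continuous f) fun d => d.1 := fun a b =>
    (continuous_apply b).comp ((continuous_apply a).comp continuous_fst)
  have h1 : P3 (fun f : D → ℝ => Continuous f) fun d => d.2.1 := fun _ _ _ => by
    dsimp only; fun_prop
  have h2 : P4 (fun f : D → ℝ => Continuous f) fun d => d.2.2 := fun _ _ _ _ => by
    dsimp only; fun_prop
  have hc : Continuous fun d : D => (chr d.1 d.2.1, rie (chr d.1 d.2.1) (dG2 d.1 d.2.1 d.2.2)) :=
    (continuous_pi fun a => continuous_pi fun b => continuous_pi fun c =>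
      cl.chr h0 h1 a b c).prodMk (continuous_pi fun a => continuous_pi fun b => continuous_pi
        fun c => continuous_pi fun d => cl.rie (cl.chr h0 h1) (cl.dG2 h0 h1 h2) a b c d)
  obtain ⟨e, he⟩ := (isCompact_closedBall (0 : D) (Λ + |K|)).exists_bound_of_continuousOn
    hc.continuousOn
  refine ⟨|e|, abs_nonneg _, fun G U x ρ hG hx hρ hE hJ => ?_⟩
  have p : 0 ≤ Λ + |K| := by positivity
  have hb := (he (iv G x, ρ • Lg.jet G x, ρ ^ 2 • jet2 G x) (mem_closedBall_zero_iff.2 (by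
    simp only [D, Prod.norm_def, max_le_iff, pi_norm_le_iff_of_nonneg p, Pi.smul_apply,
      smul_eq_mul, Real.norm_eq_abs, abs_mul, abs_of_pos hρ, abs_of_pos (pow_pos hρ 2)]
    refine ⟨fun a b => ?_, fun c a b => ?_, fun c d a b => ?_⟩
    · have : |iv G x a b| ≤ Λ := by simpa [iv] using hE.abs_inv_le (inv_pos.2 hΛ) a b
      linarith [abs_nonneg K]
    · have := Rad.jg_pd hJ one_le_two hρ c a b
      rw [le_div_iff₀' hρ] at this
      exact this.trans (by linarith [le_abs_self K])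
    · have := Rad.jg_pd2 hG hx hJ le_rfl hρ c d a b
      rw [le_div_iff₀' (pow_pos hρ 2)] at this
      exact this.trans (by linarith [le_abs_self K])))).trans (le_abs_self e)
  simp only [chr_smul, dG2_hom, rie_hom] at hb
  rw [← (C2.of_riem hG hx).riemann_raw, ← chr_eq] at hb
  simp only [Prod.norm_def, max_le_iff, pi_norm_le_iff_of_nonneg (abs_nonneg e), Pi.smul_apply,
    smul_eq_mul, Real.norm_eq_abs, abs_mul, abs_of_pos hρ, abs_of_pos (pow_pos hρ 2)] at hb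
  exact ⟨hE, fun m i j => (le_div_iff₀' hρ).2 (hb.1 m i j),
    fun l a i j => (le_div_iff₀' (pow_pos hρ 2)).2 (hb.2 l a i j)⟩

theorem ell_of {c K Λ : ℝ} {A : Matrix (Fin 4) (Fin 4) ℝ} (h : Jt.Pos c A)
    (hK : ∀ a b, |A a b - (1 : Matrix (Fin 4) (Fin 4) ℝ) a b| ≤ K) (h1 : Λ⁻¹ ≤ c)
    (h2 : (K + 1) * 4 ≤ Λ) : Ell Λ⁻¹ Λ A := by
  refine ⟨h.1, fun z => ⟨pos_low (h.mono h1) z, (le_abs_self _).trans
    ((R238.quad_abs_le (c := K + 1) (fun a b => ?_) z).trans (mul_le_mul_of_nonneg_right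
      (by simpa using h2) (Finset.sum_nonneg fun _ _ => sq_nonneg _)))⟩⟩
  have := abs_le.1 (hK a b)
  rw [Matrix.one_apply] at this
  split_ifs at this <;> exact abs_le.2 ⟨by linarith [this.1], by linarith [this.2]⟩

variable {k : ℕ} {G s t : MetricField 4} {x : E4} {ρ Λ e : ℝ} {η : E4 → ℝ}

theorem abs_ipA (hΛ : 0 < Λ) (h : Ell Λ⁻¹ Λ (G x)) {A B : Arr 4 k} {a b : ℝ} (ha : 0 ≤ a)
    (hb : 0 ≤ b) (hA : ss A ≤ a ^ 2) (hB : ss B ≤ b ^ 2) : |ipA (G x)⁻¹ A B| ≤ Λ ^ k * (a * b) := by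
  have hP := h.posDef (inv_pos.2 hΛ)
  refine abs_le.2 (abs_le_of_sq_le_sq' ((Ar.ipA_sq_le hP _ _).trans ((mul_le_mul
    ((ipA_le_ss hΛ h A).trans (mul_le_mul_of_nonneg_left hA (by positivity)))
    ((ipA_le_ss hΛ h B).trans (mul_le_mul_of_nonneg_left hB (by positivity)))
    (Ar.ipA_nonneg hP _) (by positivity)).trans_eq ?_)) (by positivity))
  ring

theorem eC_nonneg (T : Tn 4 k) : 0 ≤ eC ρ T T x := by
  rw [eC_eq]; exact add_nonneg (ss_nonneg _) (div_nonneg (ss_nonneg _) (sq_nonneg _))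

theorem ss_cov (h : Pt G x ρ Λ e) (he : 0 ≤ e) (T : Tn 4 2) :
    ss (cov G T x) ≤ (2 + 128 * e) ^ 2 * eC ρ T T x := by
  have a1 := ss_add_le (pa T x) ((-1 : ℝ) • (pa T x - cov G T x)) one_pos
  rw [ss_smul, neg_one_smul, ← sub_eq_add_neg, sub_sub_cancel] at a1
  have a2 : ss (pa T x - cov G T x) ≤ 4096 * e ^ 2 * (ss (T x) / ρ ^ 2) :=
    (ss_gam h.chr T).trans_eq (by push_cast; ring)
  have p1 := ss_nonneg (pa T x)
  have p2 : 0 ≤ ss (T x) / ρ ^ 2 := div_nonneg (ss_nonneg _) (sq_nonneg _)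
  rw [eC_eq]
  nlinarith [mul_nonneg he p1, mul_nonneg he p2, mul_nonneg (sq_nonneg e) p1,
    mul_nonneg (sq_nonneg e) p2]

/-- the integrand of the bilinear form -/
def q2 (G s t : MetricField 4) (η : E4 → ℝ) (x : E4) : ℝ :=
  ip G (cov G (smT (fun y => η y ^ 2) (matT t))) (cov G (matT s)) x +
    η x ^ 2 * ip G (RR G s) (matT t) x

theorem q2_self : q2 G t t η = qq G t η := rfl

theorem abs_q2 (hΛ : 1 ≤ Λ) (h : Pt G x ρ Λ e) (he : 0 ≤ e) (hρ : 0 < ρ)
    (hη : DifferentiableAt ℝ η x) (ht : DfT (matT t) x) (hβ : ρ ^ 2 * g2 η x ≤ η x ^ 2) :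
    |q2 G s t η x| ≤ (3 * Λ ^ 3 * (2 + 128 * e) ^ 2 + 8704 * Λ ^ 5 * e) * (η x ^ 2 *
      (√(eC ρ (matT s) (matT s) x) * √(eC ρ (matT t) (matT t) x))) := by
  have l0 : 0 < Λ := by linarith
  have c : ∀ T : Tn 4 2, ss (T x) ≤ (ρ * √(eC ρ T T x)) ^ 2 := fun T => by
    rw [mul_pow, Real.sq_sqrt (eC_nonneg T), eC_eq, mul_add, mul_div_cancel₀ _ (by positivity)]
    exact le_add_of_nonneg_left (mul_nonneg (sq_nonneg _) (ss_nonneg _))
  have c1 := ss_cov h he (matT s)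
  have c2 := ss_cov h he (matT t)
  have c3 := c (matT s)
  have c4 := c (matT t)
  rw [← Real.sq_sqrt (eC_nonneg (matT s)), ← mul_pow] at c1
  rw [← Real.sq_sqrt (eC_nonneg (matT t))] at c2
  have u0 := Real.sqrt_nonneg (eC ρ (matT s) (matT s) x)
  have w0 := Real.sqrt_nonneg (eC ρ (matT t) (matT t) x)
  generalize √(eC ρ (matT s) (matT s) x) = u at *
  generalize √(eC ρ (matT t) (matT t) x) = w at *
  have a1 : ss (te η x (matT t x)) ≤ η x ^ 2 * w ^ 2 := by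
    rw [ss_te]
    have g0 : 0 ≤ g2 η x := Finset.sum_nonneg fun _ _ => sq_nonneg _
    nlinarith [mul_le_mul_of_nonneg_left c4 g0, mul_le_mul_of_nonneg_right hβ (sq_nonneg w)]
  have a2 : ss (cov G (smT (fun y => η y ^ 2) (matT t)) x) ≤
      (3 * (2 + 128 * e) * (η x ^ 2 * w)) ^ 2 := by
    rw [cov_smT_eq (η := fun y => η y ^ 2) (hη.pow 2) ht, te_sq hη]
    refine (ss_add_le _ _ one_pos).trans ?_
    rw [ss_smul, ss_smul]
    have b1 := mul_le_mul_of_nonneg_left a1 (sq_nonneg (η x))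
    have b2 := mul_le_mul_of_nonneg_left c2 (sq_nonneg (η x ^ 2))
    have b3 : 4 ≤ (2 + 128 * e) ^ 2 := by nlinarith
    have b4 := mul_le_mul_of_nonneg_right b3 (sq_nonneg (η x ^ 2 * w))
    nlinarith
  have a3 := abs_ipA l0 h.ell (by positivity) (by positivity) a2 c1
  have a4 : ss (RR G s x) ≤ (8704 * Λ ^ 3 * (e / ρ ^ 2) * (ρ * u)) ^ 2 := by
    rw [mul_pow _ (ρ * u)]
    exact (ss_RR hΛ h).trans (mul_le_mul_of_nonneg_left c3 (sq_nonneg _))
  have a5 := mul_le_mul_of_nonneg_left (abs_ipA l0 h.ell (by positivity) (by positivity) a4 c4)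
    (sq_nonneg (η x))
  refine (abs_add_le _ _).trans ?_
  rw [abs_mul, abs_sq]
  refine (add_le_add a3 a5).trans_eq ?_
  field_simp
  ring

end Cb

open Cb

variable {M : Type*} {T : TD M} {g : T.V → Fam T} {γ σ T0 T1 : ℝ} {v : T.V}

/-- bounded geometry of the reference metrics -/
theorem pt_gb (h : T.Ok) (hL : T.Lim g γ) (hγ : 0 < γ) : ∃ Λ e : ℝ, 1 ≤ Λ ∧ 0 ≤ e ∧
    ∀ v s, ∀ x ∈ T.cK v s, Ell Λ⁻¹ Λ (g v s x) ∧ ∀ T0, Pt (gb T g T0 v s) x (scl T s x) Λ e := by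
  obtain ⟨C, h0, hC⟩ := Ga.gb_sj hL
  obtain ⟨D, c, h1, hc, hD⟩ := Ga.ball_bd hL
  set K := C 0 + C 1 + C 2 + (D 0 + D 1 + D 2) + 1 with hK
  have k0 : ∀ k ≤ 2, C k + 1 ≤ K ∧ D k + 1 ≤ K := fun k hk => by
    have := h0 0; have := h0 1; have := h0 2; have := h1 0; have := h1 1; have := h1 2
    interval_cases k <;> constructor <;> linarith
  have k1 : 1 ≤ K := by linarith [(k0 0 zero_le_two).1, h0 0]
  have ci := inv_pos.2 hc
  have l0 : 0 < c⁻¹ + (K + 1) * 4 := by positivity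
  have l1 : (c⁻¹ + (K + 1) * 4)⁻¹ ≤ c := inv_le_of_inv_le₀ hc (by linarith)
  have l2 : (c⁻¹ + (K + 1) * 4)⁻¹ ≤ 1 / 2 := inv_le_of_inv_le₀ (by norm_num) (by linarith)
  have l3 := le_add_of_nonneg_left (a := (K + 1) * 4) ci.le
  obtain ⟨e, e0, he⟩ := pt_of_jg _ K l0
  refine ⟨c⁻¹ + (K + 1) * 4, e, by linarith, e0, fun v s x hx => ?_⟩
  have hU := (h.core_pou v).sub s hx
  cases s with
  | inl a =>
    obtain ⟨rfl, h2⟩ := TD.mem_cK_inl.1 hx
    obtain ⟨d1, d2⟩ := hD a x (by linarith)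
    have j : Sk.JG 2 (g (T.vx a) (Sum.inl a)) x 1 K := fun k hk p q => by
      rw [Sk.J1, one_pow, mul_one]
      refine le_trans ?_ (k0 k hk).2
      rcases k with _ | k
      · have := d2 0 p q
        rw [norm_iteratedFDeriv_zero] at this ⊢
        refine (norm_sub_le _ _).trans (add_le_add this ?_)
        rw [Matrix.one_apply]; split_ifs <;> simp
      · rw [← norm_iteratedFDeriv_fderiv, Rad.fderiv_dv, norm_iteratedFDeriv_fderiv]
        linarith [d2 (k + 1) p q]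
    have E := ell_of d1 (Rad.jg_ent j) l1 l3
    exact ⟨E, fun T0 => he _ _ _ _ ((hL.met _).riem _) hU one_pos E j⟩
  | inr w =>
    refine ⟨ell_of (pos_of_small (g_sy ((hL.met v).riem _) hU)
      (Ga.lim_small hL hU)) (fun a b => (Ga.lim_small hL hU a b).trans (by linarith)) l2 l3,
      fun T0 => ?_⟩
    have j : Sk.JG 2 (gb T g T0 v (Sum.inr w)) x ‖x‖ K := fun k hk p q =>
      ((hC T0 v w x hU p q).bd k).trans ((mul_le_of_le_one_right (h0 k) (ew_le h hγ hU)).trans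
        (by linarith [(k0 k hk).1]))
    exact he _ _ _ _ (Ga.gb_riem hL _) hU (core_pos hU) (ell_of (pos_of_small
      (Ga.gb_symm hL hU) (Ga.gb_small hL hU)) (Rad.jg_ent j) l2 l3) j

theorem eta_g2 {s : T.S} {x : E4} (hx : x ∈ (T.core v).U s) :
    scl T s x ^ 2 * g2 (eta T v σ T1 s) x ≤ (1 - σ) ^ 2 * eta T v σ T1 s x ^ 2 := by
  rcases s with a | u
  · have : eta T v σ T1 (Sum.inl a) = fun _ => 1 := rfl
    simp only [g2, this, pd_const]
    simpa using sq_nonneg _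
  have x0 := norm_pos_iff.1 (core_pos hx)
  have st : ∀ τ, Real.smoothTransition τ ^ 2 ≤ 1 := fun τ =>
    pow_le_one₀ (Real.smoothTransition.nonneg τ) (Real.smoothTransition.le_one τ)
  by_cases hu : u = v
  · have e : eta T v σ T1 (Sum.inr u) =
        fun y => 0 + Real.exp ((σ - 1) * ph (Real.log ‖y‖ - T1)) := by
      funext y; simp [eta, tau, hu]
    have d := (((hasDerivAt_ph _).comp_sub_const (Real.log ‖x‖) T1).const_mul (σ - 1)).exp
    rw [e]
    refine (N207.M.g2_log _ x0 d 0).trans_le ?_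
    nlinarith [mul_le_mul_of_nonneg_left (st (Real.log ‖x‖ - T1)) (sq_nonneg
      (Real.exp ((σ - 1) * ph (Real.log ‖x‖ - T1)) * (σ - 1)))]
  · have e : eta T v σ T1 (Sum.inr u) =
        fun y => 0 + Real.exp ((1 - σ) * ph (-T1 - Real.log ‖y‖)) := by
      funext y; simp [eta, tau, hu, sub_eq_add_neg, add_comm]
    have d := (((hasDerivAt_ph _).comp_const_sub (-T1) (Real.log ‖x‖)).const_mul (1 - σ)).exp
    rw [e]
    refine (N207.M.g2_log _ x0 d 0).trans_le ?_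
    nlinarith [mul_le_mul_of_nonneg_left (st (-T1 - Real.log ‖x‖)) (sq_nonneg
      (Real.exp ((1 - σ) * ph (-T1 - Real.log ‖x‖)) * (1 - σ)))]

variable {s t : Fam T}

theorem intg_NK (h : T.Ok) {G : Fam T} (hG : (T.core v).IsMet G) {η : T.S → E4 → ℝ}
    (hη : (T.core v).Ct η) (hs : Sec T v s) (ht : Tst T v t) : (T.core v).Intg T.χ G fun a x =>
      η a x ^ 2 * eC (scl T a x) (matT (s a)) (matT (t a)) x := by
  obtain ⟨S, h1, h2⟩ := ht.cs
  obtain ⟨S', h3, h4, h5⟩ := h1.exists_cl (h.core_ok v)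
  have o := (h.core_ok v).isOpen
  refine Atl.intg_of_cs (h.core_ok v) hG (h.core_pou v) h4 (fun a => ((hη a).pow 2).mul
    (continuousOn_finsetSum _ fun I _ => (continuousOn_finsetSum _ fun i _ =>
      (sm_pd (o a) (hs.sec.sm a I) i).continuousOn.mul
        (sm_pd (o a) (ht.sec.sec.sm a I) i).continuousOn).add
      (((hs.sec.sm a I).continuousOn.mul (ht.sec.sec.sm a I).continuousOn).div
        ((cont_scl a).pow 2).continuousOn fun x hx => pow_ne_zero _ (scl_pos hx).ne')))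
    ((h2.mono h3).op (h.core_ok v) h5 fun b y _ e => ?_)
  have e1 : ∀ I, (fun z => matT (t b) z I) =ᶠ[𝓝 y] fun _ => 0 := fun I =>
    e.mono fun z hz => by simp [matT, hz]
  simp [eC, fun I i => N207.pd_congr i (e1 I), fun I => (e1 I).eq_of_nhds, pd_const]

/-- integration by parts -/
theorem ik_eq (h : T.Ok) (hG : (T.core v).IsMet (gb T g T0 v)) {η : T.S → E4 → ℝ}
    (hc : (T.core v).CompF η) (hη : ∀ a, ContDiffOn ℝ ∞ (η a) ((T.core v).U a)) (hs : Sec T v s)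
    (ht : Tst T v t) :
    (T.core v).Intg T.χ (gb T g T0 v) (fun a => q2 (gb T g T0 v a) (s a) (t a) (η a)) ∧
    IK T g T0 v η (PK T g T0 v s) t =
      (T.core v).int T.χ (gb T g T0 v) fun a => q2 (gb T g T0 v a) (s a) (t a) (η a) := by
  obtain ⟨S, h1, h2⟩ := ht.cs
  have o := h.core_ok v
  have p := h.core_pou v
  obtain ⟨S', h3, h4, h5⟩ := h1.exists_cl o
  have v1 : (T.core v).Van (fun a => matT (t a)) S' := (h2.mono h3).of_imp fun b y _ e => by
    funext I; simp [matT, e]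
  have s1 := ht.sec.sec.smT (hc.map (· ^ 2)) fun a => (hη a).pow 2
  have v2 := v1.smT_right fun a y => η a y ^ 2
  have i1 := Atl.intg_of_cs o hG p h4 ((s1.cov o hG).ct_ip hG (hs.sec.cov o hG))
    ((v2.cov o h5).ip_left _)
  have i2 : (T.core v).Intg T.χ (gb T g T0 v) fun a x =>
      η a x ^ 2 * ip (gb T g T0 v a) (RR (gb T g T0 v a) (s a)) (matT (t a)) x :=
    Atl.intg_of_cs o hG p h4 (fun a => ((hη a).pow 2).continuousOn.mul ((smT_RR (hG.riem a)
      (hs.sec.sm a)).ip (hG.riem a) (ht.sec.sec.sm a)).continuousOn)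
      ((v1.ip_right (G := gb T g T0 v) fun a => RR (gb T g T0 v a) (s a)).of_imp
        fun b y _ e => by rw [e, mul_zero])
  have i3 := Atl.intg_of_cs o hG p h4 (s1.ct_ip hG (hs.sec.lapT o hG)) (v2.ip_left _)
  refine ⟨i1.add i2, Eq.trans ?_ (Atl.int_add i1 i2).symm⟩
  rw [Atl.green_lap o hG p s1 hs.sec h4 v2, neg_add_eq_sub, ← Atl.int_sub i2 i3]
  refine Atl.int_congr o fun a x hx => ?_
  rw [ip_comm (hG.riem a) hx (smT _ _)]
  have : smT (fun y => η a y ^ 2) (matT (t a)) x = η a x ^ 2 • matT (t a) x := rfl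
  simp only [ip, PK, pop_RR (hG.riem a) (hs.sec.sm a) (hs.symm a) hx, this, Ar.ipA_sub_left,
    Ar.ipA_smul_right, mul_sub]

/-- **the boundedness half of `COER`** -/
theorem coer_bd (h : T.Ok) (hL : T.Lim g γ) (hγ : 0 < γ) (h0 : 0 < σ) (h1 : σ < 1)
    (hT : 4 / T.r ≤ T1) : ∃ q : ℝ, 0 ≤ q ∧ ∀ v T0, T1 ≤ T0 → ∀ s t, Tst T v s → Tst T v t →
      |IK T g T0 v (eta T v σ T1) (PK T g T0 v s) t| ≤
        q * √(NK T g v (eta T v σ T1) s s) * √(NK T g v (eta T v σ T1) t t) := by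
  obtain ⟨Λ, e, l1, e0, H⟩ := pt_gb h hL hγ
  set Q := 3 * Λ ^ 3 * (2 + 128 * e) ^ 2 + 8704 * Λ ^ 5 * e with hQ
  have l0 : 0 < Λ := by linarith
  have q0 : 0 ≤ Λ ^ 4 * Q := by positivity
  refine ⟨Λ ^ 4 * Q, q0, fun v T0 hT0 s t hs ht => ?_⟩
  have o := h.core_ok v
  obtain ⟨i1, e1⟩ := ik_eq h (Ga.gb_met h hL (hT.trans hT0) v) (eta_comp (σ := σ) h
    (hT.trans (by linarith [Real.add_one_le_exp T1]))) eta_sm hs.sec ht
  have ct : (T.core v).Ct (eta T v σ T1) := fun a => (eta_sm a).continuousOn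
  have := int_cs o (h.core_pou v) i1 ((intg_NK h (hL.met v) ct hs.sec hs).const_mul
    ((Λ ^ 4 * Q) ^ 2)) (intg_NK h (hL.met v) ct ht.sec ht)
    (fun a x _ => mul_nonneg (sq_nonneg _) (mul_nonneg (sq_nonneg _) (eC_nonneg _)))
    (fun a x _ => mul_nonneg (sq_nonneg _) (eC_nonneg _)) fun a x hx => ?_
  · rwa [Atl.int_const_mul, Real.sqrt_mul (sq_nonneg _), Real.sqrt_sq q0, ← e1] at this
  by_cases hχ : T.χ a ((T.core v).c a x) = 0
  · simp [Atl.den, hχ]
  obtain ⟨b1, b2⟩ := H v a x (cK_of_χ h hx hχ)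
  have c1 := abs_q2 (s := s a) l1 (b2 T0) e0 (scl_pos hx) (dAt (eta_sm a) (o.isOpen a) hx)
    (ht.sec.sec.dfT o hx) ((eta_g2 (σ := σ) (T1 := T1) hx).trans
      (mul_le_of_le_one_left (sq_nonneg _) (by nlinarith)))
  have d1 := (ell_det b1 (by positivity)).1
  have d2 := (ell_det (b2 T0).ell (by positivity)).2
  have d3 : √(gb T g T0 v a x).det ≤ Λ ^ 4 * √(g v a x).det :=
    d2.trans (le_trans (le_of_eq (by field_simp)) (mul_le_mul_of_nonneg_left d1 (by positivity)))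
  simp only [Atl.den, mul_assoc, Real.sqrt_mul (sq_nonneg _), Real.sqrt_sq q0,
    Real.sqrt_sq (eta_pos a x).le]
  refine mul_le_mul_of_nonneg_left (mul_le_mul_of_nonneg_left ((mul_le_mul d3 c1 (abs_nonneg _)
    (by positivity)).trans_eq ?_) ((h.core_pou v).nonneg _ _)) (by positivity)
  ring

end Crest.Agent.N207.K

end
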