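import Crest.Agent.N207.K.Coer1
import Crest.Agent.N207.K.Eta
import Crest.Agent.N207.N.Fam4

/-!
# Row 207, block K (helper10): the flat Hardy inequality on the far part of an end of a core
-/

set_option autoImplicit false
open Set Filter Topology Metric MeasureTheory
open scoped ContDiff
open Crest.GeometryTopology.CoordMetric
open Crest.Agent.N207.I Crest.Agent.N207.Hd Crest.Agent.N207.CB

noncomputable section

namespace Crest.Agent.N207.K

namespace Ch

variable {k : ℕ} {U : Set E4} {W : Tn 4 k}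

theorem int_le {f : E4 → ℝ} {A K : Set E4} (hA : MeasurableSet A) (hi : IntegrableOn f K)
    (h0 : ∀ x, 0 ≤ f x) (h : ∀ x ∈ A, f x ≠ 0 → x ∈ K) : ∫ x in A, f x ≤ ∫ x in K, f x := by
  rw [setIntegral_eq_of_subset_of_forall_sdiff_eq_zero hA (inter_subset_left (t := K))
    fun x hx => by_contra fun e => hx.2 ⟨hx.1, h x hx.1 e⟩]
  exact setIntegral_mono_set hi (Eventually.of_forall h0) inter_subset_right.eventuallyLE

theorem ct_a (hU : IsOpen U) (hW : SmT W U) : ContinuousOn (fun x => ss (pa W x)) U := by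
  simp only [ss_pa]
  exact continuousOn_finsetSum _ fun I _ => contOn_g2 hU ((hW I).of_le (by simp))

theorem ct_b (hW : SmT W U) (h0 : ∀ x ∈ U, 0 < ‖x‖) :
    ContinuousOn (fun x => ss (W x) / ‖x‖ ^ 2) U :=
  (continuousOn_finsetSum _ fun I _ => (hW I).continuousOn.pow 2).div
    (continuous_norm.pow 2).continuousOn fun x hx => (pow_pos (h0 x hx) 2).ne'

theorem zero_of {O : Set E4} (hO : IsOpen O) (h : ∀ x ∈ O, W x = 0) {x : E4} (hx : x ∈ O) :
    ss (pa W x) = 0 ∧ ss (W x) / ‖x‖ ^ 2 = 0 := by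
  refine ⟨?_, by simp [ss, h x hx]⟩
  rw [ss_pa]
  refine Finset.sum_eq_zero fun I _ => Finset.sum_eq_zero fun i _ => ?_
  have e : (fun y => W y I) =ᶠ[𝓝 x] fun _ => 0 := by
    filter_upwards [hO.mem_nhds hx] with y hy
    rw [h y hy]; rfl
  simp [pderiv, e.fderiv_eq]

theorem gen : ∃ C : ℝ, 0 ≤ C ∧ ∀ (U F K : Set E4) (W : Tn 4 2) (a c : ℝ), IsOpen U → SmT W U →
    (∀ x ∈ U, 0 < ‖x‖) → MeasurableSet F → F ⊆ U → IsCompact K → K ⊆ U → 0 < a →
    Real.exp 1 * a ≤ c → An a c ⊆ F →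
    (∀ x ∈ F, x ∉ An a c → ss (pa W x) = 0 ∧ ss (W x) / ‖x‖ ^ 2 = 0) →
    (∀ x ∈ An a c, ss (W x) / ‖x‖ ^ 2 ≠ 0 →
      ‖x‖ < Real.exp 1 * a ∨ c / Real.exp 1 ≤ ‖x‖ → x ∈ K) →
    IntegrableOn (fun x => ss (pa W x)) F ∧ IntegrableOn (fun x => ss (W x) / ‖x‖ ^ 2) F ∧
      ∫ x in F, ss (W x) / ‖x‖ ^ 2 ≤ (∫ x in F, ss (pa W x)) + C * ∫ x in K, ss (W x) / ‖x‖ ^ 2 := by
  have he : 1 < Real.exp 1 := Real.one_lt_exp_iff.2 one_pos
  obtain ⟨C, hC, H⟩ := hardy0 he
  refine ⟨C + 1, by positivity, fun U F K W a c hU hW h0 hF hFU hK hKU ha hac hs hz hk => ?_⟩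
  have hc : 0 < c := lt_of_lt_of_le (by positivity) hac
  have su := hs.trans hFU
  have ia := ((ct_a hU hW).mono su).integrableOn_compact (μ := volume) (isCompact_An a c)
  have ib := ((ct_b hW h0).mono su).integrableOn_compact (μ := volume) (isCompact_An a c)
  have iK := ((ct_b hW h0).mono hKU).integrableOn_compact (μ := volume) hK
  have nb : ∀ x, 0 ≤ ss (W x) / ‖x‖ ^ 2 := fun x => div_nonneg (ss_nonneg _) (sq_nonneg _)
  have s1 : An (Real.exp 1 * a) (c / Real.exp 1) ⊆ An a c :=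
    An_mono (by nlinarith) (div_le_self hc.le he.le)
  have s2 : An (c / Real.exp 1) c ⊆ An a c :=
    An_mono (by rw [le_div_iff₀ (by positivity), mul_comm]; exact hac) le_rfl
  refine ⟨ia.of_forall_sdiff_eq_zero hF fun x hx => (hz x hx.1 hx.2).1,
    ib.of_forall_sdiff_eq_zero hF fun x hx => (hz x hx.1 hx.2).2, ?_⟩
  rw [setIntegral_eq_of_subset_of_forall_sdiff_eq_zero hF hs fun x hx => (hz x hx.1 hx.2).1,
    setIntegral_eq_of_subset_of_forall_sdiff_eq_zero hF hs fun x hx => (hz x hx.1 hx.2).2,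
    ← integral_inter_add_sdiff (measurableSet_An (Real.exp 1 * a) (c / Real.exp 1)) ib,
    inter_eq_self_of_subset_right s1]
  have k1 := int_le ((measurableSet_An a c).diff
    (measurableSet_An (Real.exp 1 * a) (c / Real.exp 1))) iK nb fun x hx e => hk x hx.1 e (by
      by_contra n
      rw [not_or, not_lt, not_le] at n
      exact hx.2 ⟨n.1, n.2.le⟩)
  have k2 := mul_le_mul_of_nonneg_left (int_le (measurableSet_An (c / Real.exp 1) c) iK nb
    fun x hx e => hk x (s2 hx) e (Or.inr hx.1)) hC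
  have hW1 : ∀ I, ContDiffOn ℝ 1 (fun y => W y I) U := fun I => (hW I).of_le (by simp)
  have j : ∀ I, IntegrableOn (fun x => (‖x‖ ^ 2)⁻¹ * W x I ^ 2) (An a c) := fun I =>
    ((((continuous_norm.pow 2).continuousOn.inv₀ fun x hx => (pow_pos (h0 x hx) 2).ne').mul
      ((hW I).continuousOn.pow 2)).mono su).integrableOn_compact (isCompact_An a c)
  have e : ∀ x, ss (W x) / ‖x‖ ^ 2 = ∑ I, (‖x‖ ^ 2)⁻¹ * W x I ^ 2 := fun x => by
    rw [ss, div_eq_inv_mul, Finset.mul_sum]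
  have k3 : ∫ x in An (Real.exp 1 * a) (c / Real.exp 1), ss (W x) / ‖x‖ ^ 2 ≤
      (∫ x in An a c, ss (pa W x)) + C * ∫ x in An (c / Real.exp 1) c, ss (W x) / ‖x‖ ^ 2 := by
    simp only [e, ss_pa]
    rw [integral_finsetSum _ fun I _ => (j I).mono_set s1,
      integral_finsetSum _ fun I _ => (j I).mono_set s2, integral_finsetSum _ fun I _ =>
        ((contOn_g2 hU (hW1 I)).mono su).integrableOn_compact (isCompact_An a c), Finset.mul_sum,
      ← Finset.sum_add_distrib]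
    exact Finset.sum_le_sum fun I _ => H U _ a c hU (hW1 I) ha hac su
  linarith

end Ch

/-- the Hardy inequality on the far part of an end -/
theorem hardy_far : ∃ CH : ℝ, 0 ≤ CH ∧ ∀ {M : Type*} (T : TD M) (v w : T.V) (c : ℝ) (t : Fam T)
    (η : T.S → E4 → ℝ), T.Ok → 4 / T.r ≤ Real.exp c → Tst T v t →
    ContDiffOn ℝ ∞ (η (Sum.inr w)) ((T.core v).U (Sum.inr w)) →
    IntegrableOn (aa (t (Sum.inr w)) (η (Sum.inr w)))
        {x | x ∈ (T.core v).U (Sum.inr w) ∧ 0 ≤ tau T v w c x} ∧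
      IntegrableOn (fun x => bb (t (Sum.inr w)) (η (Sum.inr w)) ‖x‖ x)
        {x | x ∈ (T.core v).U (Sum.inr w) ∧ 0 ≤ tau T v w c x} ∧
      ∫ x in {x | x ∈ (T.core v).U (Sum.inr w) ∧ 0 ≤ tau T v w c x},
          bb (t (Sum.inr w)) (η (Sum.inr w)) ‖x‖ x ≤
        (∫ x in {x | x ∈ (T.core v).U (Sum.inr w) ∧ 0 ≤ tau T v w c x},
          aa (t (Sum.inr w)) (η (Sum.inr w)) x) +
        CH * ∫ x in NS.cK0 T v (c + 1) (Sum.inr w), bb (t (Sum.inr w)) (η (Sum.inr w)) ‖x‖ x := by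
  obtain ⟨C, hC, H⟩ := Ch.gen
  refine ⟨C, hC, fun T v w c t η h hc ht hη => ?_⟩
  have hr := h.r_pos
  have hr1 := h.r_lt
  have hO := h.core_ok v
  have hp := h.core_pou v
  have he : 1 < Real.exp 1 := Real.one_lt_exp_iff.2 one_pos
  have ec := Real.exp_pos c
  have c1 : 4 ≤ Real.exp c * T.r := (div_le_iff₀ hr).1 hc
  have hW : SmT (smT (η (Sum.inr w)) (matT (t (Sum.inr w)))) ((T.core v).U (Sum.inr w)) :=
    fun I => hη.mul (ht.sec.sec.sm _ I)
  obtain ⟨S, hS, hV⟩ := ht.cs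
  obtain ⟨D, d1, d2, d3⟩ := hS.exists_cpt hO (hp.sub (Sum.inr w)) (hp.cl _)
  have z : ∀ x ∈ T.cK v (Sum.inr w), x ∉ D →
      smT (η (Sum.inr w)) (matT (t (Sum.inr w))) x = 0 := fun x hx hn => by
    have : t (Sum.inr w) x = 0 := by_contra fun e =>
      hn (d3 x (hp.sub _ hx) ⟨x, hx, rfl⟩ (hV _ x (hp.sub _ hx) e))
    funext I; simp [smT, matT, this]
  have mt : Measurable (tau T v w c) := by unfold tau; split_ifs <;> fun_prop
  have G := fun a b => H _ {x | x ∈ (T.core v).U (Sum.inr w) ∧ 0 ≤ tau T v w c x} _ _ a b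
    (hO.isOpen _) hW (fun x hx => core_pos hx) ((hO.isOpen _).measurableSet.inter
      (measurableSet_le measurable_const mt))
    (fun x hx => hx.1) (NS.Fx.cK0_cpt (c := c + 1) (Sum.inr w)) fun x hx => hp.sub _ hx.1
  by_cases hw : w = v
  · subst hw
    have m : ∀ x : E4, x ∈ (T.core w).U (Sum.inr w) ∧ 0 ≤ tau T w w c x ↔ Real.exp c ≤ ‖x‖ :=
      fun x => by
      rw [TD.mem_core_out, tau, if_pos rfl, sub_nonneg]
      exact ⟨fun k => (Real.le_log_iff_exp_le (by linarith [k.1])).1 k.2, fun k =>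
        ⟨by nlinarith, (Real.le_log_iff_exp_le (by linarith)).2 k⟩⟩
    obtain ⟨b, b0, hb⟩ := d1.isBounded.exists_pos_norm_le
    have zz := fun x => Ch.zero_of (O := {x : E4 | b + 2 < ‖x‖})
      (isOpen_lt continuous_const continuous_norm) (fun x (hx : b + 2 < ‖x‖) =>
        z x (TD.mem_cK_out.2 (by linarith)) fun k => by linarith [hb x k]) (x := x)
    refine G (Real.exp c) (Real.exp 1 * (Real.exp c + b + 3)) ec (by nlinarith)
      (fun x hx => (m x).2 hx.1) (fun x hx hn => zz x ?_) fun x hx e k => ?_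
    · have : Real.exp 1 * (Real.exp c + b + 3) < ‖x‖ := not_le.1 fun k => hn ⟨(m x).1 hx, k⟩
      show b + 2 < ‖x‖
      nlinarith
    · rcases k with k | k
      · have := hx.1
        exact ⟨TD.mem_cK_out.2 (by nlinarith), NS.Fx.mem_cK1_out.2 ⟨by nlinarith, by
          rw [Real.exp_add, mul_comm]; exact k.le⟩⟩
      · rw [mul_div_cancel_left₀ _ (by positivity)] at k
        exact absurd (zz x (show b + 2 < ‖x‖ by linarith)).2 e
  by_cases hk : T.kid v w
  · have c2 : Real.exp (-c) ≤ T.r / 4 := by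
      rw [Real.exp_neg, inv_le_iff_one_le_mul₀ ec]; linarith
    have m : ∀ x : E4, x ∈ (T.core v).U (Sum.inr w) ∧ 0 ≤ tau T v w c x ↔
        0 < ‖x‖ ∧ ‖x‖ ≤ Real.exp (-c) := fun x => by
      rw [TD.mem_core_inn hw, tau, if_neg hw, sub_nonneg, le_neg]
      exact ⟨fun k => ⟨k.1.2.1, (Real.log_le_iff_le_exp k.1.2.1).1 k.2⟩, fun k =>
        ⟨⟨hk, k.1, by linarith [k.2]⟩, (Real.log_le_iff_le_exp k.1).2 k.2⟩⟩
    obtain ⟨b, b0, hb⟩ : ∃ b : ℝ, 0 < b ∧ b ≤ Real.exp (-c) ∧ ∀ x ∈ D, b ≤ ‖x‖ := by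
      rcases D.eq_empty_or_nonempty with rfl | hne
      · exact ⟨_, Real.exp_pos _, le_rfl, by simp⟩
      obtain ⟨x, hx, k⟩ := d1.exists_isMinOn hne continuous_norm.continuousOn
      exact ⟨min ‖x‖ (Real.exp (-c)), lt_min (core_pos (d2 hx)) (Real.exp_pos _), min_le_right _ _,
        fun y hy => (min_le_left _ _).trans (k hy)⟩
    have zz := fun x => Ch.zero_of (O := {x : E4 | 0 < ‖x‖ ∧ ‖x‖ < b}) (NS.Fx.op_ann _ _)
      (fun x hx => z x ((TD.mem_cK_inn hw).2 ⟨hk, hx.1, by linarith [hx.2, hb.1]⟩)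
        fun k => by linarith [hb.2 x k, hx.2]) (x := x)
    have e1 : Real.exp 1 * (b / Real.exp 1) = b := mul_div_cancel₀ _ (by positivity)
    have e2 : 0 < b / Real.exp 1 := by positivity
    refine G (b / Real.exp 1) (Real.exp (-c)) e2 (e1.trans_le hb.1)
      (fun x hx => (m x).2 ⟨e2.trans_le hx.1, hx.2⟩) (fun x hx hn => zz x ?_) fun x hx e k => ?_
    · have := (m x).1 hx
      exact ⟨this.1, (not_le.1 fun k => hn ⟨k, this.2⟩).trans_le (div_le_self b0.le he.le)⟩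
    · have x0 := e2.trans_le hx.1
      have x1 := hx.2
      rcases k with k | k
      · exact absurd (zz x ⟨x0, k.trans_eq e1⟩).2 e
      · exact ⟨(TD.mem_cK_inn hw).2 ⟨hk, x0, by linarith⟩, (NS.Fx.mem_cK1_inn hw).2 ⟨hk, by
          rwa [neg_add, ← sub_eq_add_neg, Real.exp_sub], by linarith⟩⟩
  · have : {x | x ∈ (T.core v).U (Sum.inr w) ∧ 0 ≤ tau T v w c x} = ∅ :=
      eq_empty_of_forall_notMem fun x hx => hk ((TD.mem_core_inn hw).1 hx.1).1
    rw [this]
    refine ⟨integrableOn_empty, integrableOn_empty, ?_⟩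
    simp only [Measure.restrict_empty, integral_zero_measure, zero_add]
    exact mul_nonneg hC (integral_nonneg fun x => bb_nonneg)

end Crest.Agent.N207.K

end
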