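import Crest.Agent.N207.K.Cmp0
import Crest.Agent.N207.K.Trf
import Crest.Agent.N207.N.St

/-!
# Row 207, block K (helper21): the weighted energy controls the jets on `cK1`
-/

set_option autoImplicit false

open Metric Set Filter Topology MeasureTheory
open Crest.GeometryTopology.CoordMetric
open Crest.Agent.N207.I Crest.Agent.N207.I.TD Crest.Agent.N207.CB

noncomputable section

namespace Crest.Agent.N207.K

variable {M : Type*} {T : TD M} {g : T.V → Fam T} {σ T1 : ℝ}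

theorem jet_e (w : MetricField 4) (y : E4) :
    jet (fun I z => matT w z I) y = NS.e1 w y + NS.e0 w y := by
  have e : ∀ f : (Fin 2 → Fin 4) → ℝ, ∑ I, f I = ∑ i, ∑ j, f ![i, j] := fun f => by
    rw [← (piFinTwoEquiv fun _ => Fin 4).symm.sum_comp, Fintype.sum_prod_type]
    rfl
  rw [jet, add_comm, Finset.sum_comm, e, e]
  rfl

/-- jet version of `CMP` -/
theorem jcmp (h : T.Ok) (hT : 4 / T.r ≤ Real.exp T1) {v : T.V} (hg : (T.core v).IsMet (g v))
    (s : T.S) {D : Set E4} (hD : IsCompact D) (hU : D ⊆ (T.core v).U s) :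
    ∃ C : ℝ, 0 ≤ C ∧ ∀ t, Tst T v t →
      ∫ y in D, (NS.e1 (t s) y + NS.e0 (t s) y) ≤ C * NK T g v (eta T v σ T1) t t := by
  have d := dat (σ := σ) h hT hg hg
  have ho := h.core_ok v
  choose! r r0 rU ri using fun y (hy : y ∈ (T.core v).U s) => ho.exists_ball hy
  choose! C C0 hC using fun y (hy : y ∈ (T.core v).U s) => d.loc1 (rU y hy) (ri y hy)
  obtain ⟨S, h1, h2⟩ := cover hD hU fun y hy => ⟨r0 y hy, rU y hy⟩
  refine ⟨∑ x ∈ S, C x, Finset.sum_nonneg fun x hx => (C0 x (h1 x hx)).le, fun t ht => ?_⟩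
  simp only [← jet_e]
  refine (h2 _ (Sys.jet_cont (ho.isOpen s) (ht.sec.sec.sm s)) fun _ _ => by
    unfold jet; positivity).trans ?_
  rw [Finset.sum_mul]
  exact Finset.sum_le_sum fun x hx => hC x (h1 x hx) (toT ht)

theorem cK1_good (h : T.Ok) (v : T.V) (c : ℝ) (s : T.S) :
    IsCompact (NS.cK1 T v c s) ∧ NS.cK1 T v c s ⊆ (T.core v).U s := by
  have := h.r_pos
  rcases s with a | w <;> simp only [NS.cK1, Sum.elim_inl, Sum.elim_inr] <;> split_ifs with h1 h2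
  · exact ⟨isCompact_closedBall _ _, fun x hx =>
      mem_core_inl.2 ⟨h1, by linarith [mem_closedBall_zero_iff.1 hx]⟩⟩
  · exact ⟨isCompact_empty, empty_subset _⟩
  · subst h1
    exact ⟨cpt_ann _ _, fun x hx => mem_core_out.2 (by linarith [hx.1])⟩
  · exact ⟨cpt_ann _ _, fun x hx =>
      (mem_core_inn h1).2 ⟨h2, (Real.exp_pos _).trans_le hx.1, by linarith [hx.2]⟩⟩
  · exact ⟨isCompact_empty, empty_subset _⟩

/-- any depth `c`, any `T1` -/
theorem loc_NK' (h : T.Ok) (hg : ∀ v, (T.core v).IsMet (g v)) (σ c : ℝ)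
    (hT : 4 / T.r ≤ Real.exp T1) : ∃ K : ℝ, 0 ≤ K ∧ ∀ v t, Tst T v t → ∀ s,
      ∫ x in NS.cK1 T v c s, (NS.e1 (t s) x + NS.e0 (t s) x) ≤ K * NK T g v (eta T v σ T1) t t := by
  choose C C0 hC using fun p : T.V × T.S =>
    jcmp (σ := σ) h hT (hg p.1) p.2 (cK1_good h p.1 c p.2).1 (cK1_good h p.1 c p.2).2
  exact ⟨∑ p, C p, Finset.sum_nonneg fun p _ => C0 p, fun v t ht s => (hC (v, s) t ht).trans
    (mul_le_mul_of_nonneg_right (Finset.single_le_sum (fun p _ => C0 p) (Finset.mem_univ _))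
      (NK_nonneg h t))⟩

theorem loc_NK (h : NS.Std T g) (σ c : ℝ) (hc : 4 / T.r ≤ Real.exp c) :
    ∃ K : ℝ, 0 ≤ K ∧ ∀ v t, Tst T v t → ∀ s,
      ∫ x in NS.cK1 T v c s, (NS.e1 (t s) x + NS.e0 (t s) x) ≤ K * NK T g v (eta T v σ c) t t :=
  loc_NK' h.ok h.lim.met σ c hc

end Crest.Agent.N207.K

end
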