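import Crest.Agent.N207.K.CoerA
import Crest.Agent.N207.K.CoerB
import Crest.Agent.N207.K.CoerH
import Crest.Agent.N207.K.CoerL

/-!
# Row 207, block K (helper10): **COER**, the final gluing
-/

set_option autoImplicit false
open Set Filter Topology Metric MeasureTheory
open scoped ContDiff
open Crest.GeometryTopology.CoordMetric
open Crest.Agent.N207.I Crest.Agent.N207.Hd Crest.Agent.N207.CB

noncomputable section

namespace Crest.Agent.N207.K.Zc

theorem chart {U F K : Set E4} {Q N A B : E4 → ℝ} {a D CH : ℝ} (mF : MeasurableSet F)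
    (mU : MeasurableSet U) (mK : MeasurableSet K) (FU : F ⊆ U) (iQ : IntegrableOn Q U)
    (iN : IntegrableOn N U) (iA : IntegrableOn A F) (iB : IntegrableOn B F)
    (iK : IntegrableOn B K) (a0 : 0 ≤ a) (a1 : a ≤ 1) (D0 : 0 ≤ D) (C0 : 0 ≤ CH)
    (B0 : ∀ x, 0 ≤ B x) (hH : ∫ x in F, B x ≤ (∫ x in F, A x) + CH * ∫ x in K, B x)
    (h1 : ∀ x ∈ F, a * (A x - B x) ≤ Q x - N x)
    (h2 : ∀ x ∈ U, x ∉ F → x ∈ K → -D * B x ≤ Q x - N x)
    (h3 : ∀ x ∈ U, x ∉ F → x ∉ K → 0 ≤ Q x - N x) :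
    ∫ x in U, N x ≤ (∫ x in U, Q x) + (CH + D) * ∫ x in K, B x := by
  have i : IntegrableOn (fun x => Q x - N x) U := iQ.sub iN
  have e1 := integral_inter_add_sdiff mF i
  have e2 := integral_inter_add_sdiff mK (i.mono_set (sdiff_subset (t := F)))
  rw [inter_eq_self_of_subset_right FU, integral_sub iQ iN] at e1
  have k0 : 0 ≤ ∫ x in K, B x := integral_nonneg B0
  have k1 : a * ((∫ x in F, A x) - ∫ x in F, B x) ≤ ∫ x in F, (Q x - N x) := by
    rw [← integral_sub iA iB, ← integral_const_mul]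
    exact setIntegral_mono_on ((iA.sub iB).const_mul a) (i.mono_set FU) mF h1
  have k2 : -D * ∫ x in (U \ F) ∩ K, B x ≤ ∫ x in (U \ F) ∩ K, (Q x - N x) := by
    rw [← integral_const_mul]
    exact setIntegral_mono_on ((iK.mono_set inter_subset_right).const_mul _)
      (i.mono_set (inter_subset_left.trans sdiff_subset)) ((mU.diff mF).inter mK)
      fun x hx => h2 x hx.1.1 hx.1.2 hx.2
  have k3 : 0 ≤ ∫ x in (U \ F) \ K, (Q x - N x) :=
    setIntegral_nonneg ((mU.diff mF).diff mK) fun x hx => h3 x hx.1.1 hx.1.2 hx.2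
  have k4 : ∫ x in (U \ F) ∩ K, B x ≤ ∫ x in K, B x :=
    setIntegral_mono_set iK (Eventually.of_forall B0) inter_subset_right.eventuallyLE
  nlinarith [mul_le_mul_of_nonneg_left hH a0, mul_le_mul_of_nonneg_left k4 D0,
    mul_le_mul_of_nonneg_right a1 (mul_nonneg C0 k0)]

theorem num {β : ℝ} (h : β ^ 2 < 1) : ∃ ε : ℝ, 0 < ε ∧
    4096 * ε ^ 2 / ε + (1 + ε) ^ 5 * β ^ 2 + 8704 * (1 + ε) ^ 7 * ε <
      ((1 + ε) ^ 5 * (1 + ε))⁻¹ := by
  have h1 : ContinuousAt (fun ε : ℝ => (4096 * ε + (1 + ε) ^ 5 * β ^ 2 + 8704 * (1 + ε) ^ 7 * ε) *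
      ((1 + ε) ^ 5 * (1 + ε))) 0 := by fun_prop
  have h3 := h1.eventually (gt_mem_nhds (a := 1) (by simpa using h))
  obtain ⟨ε, a, b⟩ := ((h3.filter_mono (nhdsWithin_le_nhds (s := Ioi 0))).and
    self_mem_nhdsWithin).exists
  have b' : 0 < ε := b
  refine ⟨ε, b, ?_⟩
  rw [show 4096 * ε ^ 2 / ε = 4096 * ε by field_simp, inv_eq_one_div, lt_div_iff₀ (by positivity)]
  exact a

theorem ss_e0 (w : MetricField 4) (x : E4) : ss (matT w x) = NS.e0 w x := by
  rw [ss, ← (piFinTwoEquiv fun _ => Fin 4).symm.sum_comp, Fintype.sum_prod_type]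
  rfl

variable {M : Type*} {T : TD M} {g : T.V → Fam T} {v : T.V} {c : ℝ} {s : T.S} {x : E4}

/-- the far part of the chart `s` -/
def Far (T : TD M) (v : T.V) (c : ℝ) : T.S → Set E4 :=
  Sum.elim (fun _ => ∅) fun w => {x | x ∈ (T.core v).U (Sum.inr w) ∧ 0 ≤ tau T v w c x}

theorem near (h : T.Ok) (hx : x ∈ T.cK v s) (hn : x ∉ Far T v (c - 1) s) :
    x ∈ NS.cK0 T v c s := by
  refine ⟨hx, ?_⟩
  have hU := (h.core_pou v).sub s hx
  have hr := h.r_pos
  rcases s with a | w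
  · exact NS.Fx.mem_cK1_inl.2 ⟨(TD.mem_cK_inl.1 hx).1, by linarith [(TD.mem_cK_inl.1 hx).2]⟩
  have k : tau T v w (c - 1) x < 0 := not_le.1 fun k => hn ⟨hU, k⟩
  have hp := core_pos hU
  by_cases hw : w = v
  · subst hw
    rw [tau, if_pos rfl] at k
    exact NS.Fx.mem_cK1_out.2 ⟨by linarith [TD.mem_cK_out.1 hx],
      (Real.log_le_iff_le_exp hp).1 (by linarith)⟩
  · rw [tau, if_neg hw] at k
    obtain ⟨a1, -, a3⟩ := (TD.mem_cK_inn hw).1 hx
    exact (NS.Fx.mem_cK1_inn hw).2 ⟨a1, (Real.le_log_iff_exp_le hp).1 (by linarith), by linarith⟩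

theorem far_χ (h : T.Ok) (hc : 4 / T.r ≤ Real.exp c) (hx : x ∈ Far T v c s) :
    T.χ s ((T.core v).c s x) = 1 := by
  rcases s with a | w
  · exact hx.elim
  obtain ⟨hU, k⟩ := hx
  have hp := core_pos hU
  have hr := h.r_pos
  have ec := Real.exp_pos c
  have c1 : 4 ≤ Real.exp c * T.r := (div_le_iff₀ hr).1 hc
  by_cases hw : w = v
  · subst hw
    rw [tau, if_pos rfl, sub_nonneg, Real.le_log_iff_exp_le hp] at k
    rw [h.core_χ_out w (by nlinarith [h.r_lt]), if_pos rfl]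
  · rw [tau, if_neg hw, sub_nonneg, le_neg, Real.log_le_iff_le_exp hp] at k
    have c2 : Real.exp (-c) ≤ T.r / 4 := by
      rw [Real.exp_neg, inv_le_iff_one_le_mul₀ ec]; linarith
    rw [h.core_χ_inn ((TD.mem_core_inn hw).1 hU).1 hp (by linarith), if_pos rfl]

theorem χ_le (h : T.Ok) (hx : x ∈ (T.core v).U s) : T.χ s ((T.core v).c s x) ≤ 1 :=
  (Finset.single_le_sum (f := fun a => T.χ a ((T.core v).c s x))
    (fun a _ => (h.core_pou v).nonneg a _) (Finset.mem_univ s)).trans_eq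
    ((h.core_pou v).sum s x hx)

/-- **COER** -/
theorem coer (h : NS.Std T g) {σ : ℝ} (h0 : 0 < σ) (h1 : σ < 1) : ∃ c0 : ℝ, ∀ c, c0 ≤ c →
    ∃ η0 : ℝ, 0 < η0 ∧ ∀ (κ : T.V → Type) [∀ v, Fintype (κ v)] [∀ v, DecidableEq (κ v)]
      (ψ : ∀ v, κ v → Fam T) (η C : ℝ), η ≤ η0 → NS.Good T g κ ψ c η C → COER T g κ ψ σ := by
  obtain ⟨hO, -, hL⟩ := h
  have hγ : (0 : ℝ) < 1 / 2 := by norm_num
  have hr := hO.r_pos
  have hβ : (1 - σ) ^ 2 < 1 := by nlinarith
  obtain ⟨Λ, e, l1, e0, H⟩ := pt_gb hO hL hγ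
  obtain ⟨ε, ε0, hε⟩ := num hβ
  obtain ⟨T2, H2⟩ := pt_far hL hγ ε0
  obtain ⟨CH, C0, H3⟩ := hardy_far
  set a1 := ((1 + ε) ^ 5 * (1 + ε))⁻¹ with ha1
  set b1 := 4096 * ε ^ 2 / ε + (1 + ε) ^ 5 * (1 - σ) ^ 2 + 8704 * (1 + ε) ^ 7 * ε with hb1
  set a2 := (Λ ^ 5 * (1 + 1))⁻¹ with ha2
  set b2 := 4096 * e ^ 2 / 1 + Λ ^ 5 * (1 - σ) ^ 2 + 8704 * Λ ^ 7 * e with hb2
  have p1 : a1 ≤ 1 := inv_le_one_of_one_le₀ (one_le_mul_of_one_le_of_one_le
    (one_le_pow₀ (by linarith)) (by linarith))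
  have p2 : 0 ≤ b1 := by positivity
  have p3 : 0 < a2 := by positivity
  have p4 : 0 ≤ b2 := by positivity
  obtain ⟨m, m0, m1, m2⟩ : ∃ m : ℝ, 0 < m ∧ 2 * m ≤ a1 - b1 ∧ m ≤ a2 :=
    ⟨min ((a1 - b1) / 2) a2, lt_min (by linarith) p3, by linarith [min_le_left ((a1 - b1) / 2) a2],
      min_le_right _ _⟩
  refine ⟨max T2 (4 / T.r) + 1, fun c hc => ?_⟩
  have c1 : T2 ≤ c - 1 := by linarith [le_max_left T2 (4 / T.r)]
  have c2 : 4 / T.r ≤ c - 1 := by linarith [le_max_right T2 (4 / T.r)]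
  have c3 : 4 / T.r ≤ Real.exp (c - 1) := by linarith [Real.add_one_le_exp (c - 1)]
  have c4 : 4 / T.r ≤ Real.exp (c + 1) := by linarith [Real.add_one_le_exp (c + 1)]
  obtain ⟨K, K0, H4⟩ := loc_NK' hO hL.met σ (c + 1) c4
  obtain ⟨q, q0, H5⟩ := coer_bd hO hL hγ h0 h1 (T1 := c + 1) (by linarith)
  have uU : ∀ v s, NS.cK0 T v c s ⊆ (T.core v).U s := fun v s x hx => (hO.core_pou v).sub s hx.1
  have sc : ∀ v s, ∀ x ∈ (T.core v).U s, scl T s x ^ 2 ≠ 0 := fun v s x hx =>
    (pow_pos (scl_pos hx) 2).ne'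
  have ct : ∀ v s, ContinuousOn (fun x => eta T v σ (c + 1) s x ^ 2 / scl T s x ^ 2)
      ((T.core v).U s) := fun v s =>
    ((eta_sm s).continuousOn.pow 2).div ((cont_scl s).pow 2).continuousOn (sc v s)
  choose E E0 hE using fun p : T.V × T.S =>
    exists_ub (NS.Fx.cK0_cpt (c := c) p.2) ((ct p.1 p.2).mono (uU p.1 p.2))
  set E1 := ∑ p, E p with hE1
  have E2 : ∀ p, E p ≤ E1 := fun p =>
    Finset.single_le_sum (fun p _ => (E0 p).le) (Finset.mem_univ p)
  have E3 : 0 ≤ E1 := Finset.sum_nonneg fun p _ => (E0 p).le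
  set n := m / (3 * Λ ^ 2) with hn
  have n0 : 0 < n := by positivity
  set W := (Fintype.card T.S : ℝ) * ((CH + (b2 + m)) * (E1 * K)) with hW
  have W0 : 0 ≤ W := by positivity
  refine ⟨n / 2 / (W + 1), by positivity, fun κ _ _ ψ η C hη hg => ⟨c + 1, n / 2, q, c4,
    by positivity, q0, hg.psi, fun v T0 hT => ⟨H5 v T0 hT, fun t ht hp => ?_⟩⟩⟩
  have o := hO.core_ok v
  have pu := hO.core_pou v
  obtain ⟨i1, e1⟩ := ik_eq hO (Ga.gb_met hO hL (T0 := T0) (by linarith) v)
    (eta_comp (σ := σ) hO c4) eta_sm ht.sec ht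
  have i2 := (ig_NK (σ := σ) hO c4 (hL.met v) ht.sec ht).const_mul n
  have N0 := NK_nonneg (g := g) (v := v) (σ := σ) (T1 := c + 1) hO t
  have hB : ∀ s, ∫ x in NS.cK0 T v c s, bb (t s) (eta T v σ (c + 1) s) (scl T s x) x ≤
      E1 * K * (n / 2 / (W + 1) * NK T g v (eta T v σ (c + 1)) t t) := fun s => by
    have a := hg.loc v t (Ga.res_sec (NS.Fx.cU1_U hO) ht.sec.sec)
      (fun s x hx => ht.sec.symm s x (NS.Fx.cU1_U hO s hx)) s
    simp only [hp, ne_eq, OfNat.ofNat_ne_zero, not_false_eq_true, zero_pow, Finset.sum_const_zero,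
      mul_zero, add_zero] at a
    have b := a.trans ((mul_le_mul_of_nonneg_right hη (integral_nonneg fun x => add_nonneg
      (Finset.sum_nonneg fun _ _ => Finset.sum_nonneg fun _ _ => g2_nonneg _ _)
      (by rw [← ss_e0]; exact ss_nonneg _))).trans
        (mul_le_mul_of_nonneg_left (H4 v t ht s) (by positivity)))
    refine le_trans ?_ ((mul_le_mul_of_nonneg_left b E3).trans_eq (by ring))
    rw [← integral_const_mul]
    refine integral_mono_of_nonneg (Eventually.of_forall fun x => bb_nonneg)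
      (Integrable.const_mul ?_ _) ?_
    · rw [← funext (ss_e0 (t s))]
      exact ((continuousOn_finsetSum _ fun I _ => (ht.sec.sec.sm s I).continuousOn.pow 2).mono
        (uU v s)).integrableOn_compact (NS.Fx.cK0_cpt s)
    · filter_upwards [ae_restrict_mem (NS.Fx.cK0_cpt s).measurableSet] with x hx
      rw [bb_eq, ← ss_e0, ← mul_div_assoc, mul_div_right_comm]
      exact mul_le_mul_of_nonneg_right (((le_abs_self _).trans (hE (v, s) x hx)).trans (E2 _))
        (ss_nonneg _)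
  have key : ∀ s, ∫ x in (T.core v).U s, (T.core v).den T.χ (g v) s x *
      (n * (eta T v σ (c + 1) s x ^ 2 * eC (scl T s x) (matT (t s)) (matT (t s)) x)) ≤
      (∫ x in (T.core v).U s, (T.core v).den T.χ (gb T g T0 v) s x *
        Cb.q2 (gb T g T0 v s) (t s) (t s) (eta T v σ (c + 1) s) x) + (CH + (b2 + m)) *
        ∫ x in NS.cK0 T v c s, bb (t s) (eta T v σ (c + 1) s) (scl T s x) x := fun s => by
    set k := (Nat.card ((T.core v).Γ s) : ℝ)⁻¹ with hk
    have k0 : 0 ≤ k := by positivity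
    have k1 : k ≤ 1 := inv_le_one_of_one_le₀ (by
      have := o.fin s
      exact_mod_cast Nat.card_pos)
    have dη := fun x (hx : x ∈ (T.core v).U s) => dAt (eta_sm (σ := σ) (T1 := c + 1) s)
      (o.isOpen s) hx
    have up : ∀ x ∈ T.cK v s, √(g v s x).det * (n * (eta T v σ (c + 1) s x ^ 2 *
        eC (scl T s x) (matT (t s)) (matT (t s)) x)) ≤ m * (aa (t s) (eta T v σ (c + 1) s) x +
          bb (t s) (eta T v σ (c + 1) s) (scl T s x) x) := fun x hx => by
      have hx' := pu.sub s hx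
      have a := eC_le (scl_pos hx') (dη x hx') (ht.sec.sec.dfT o hx') hβ.le (eta_g2 hx')
      refine (mul_le_mul (ell_det (H v s x hx).1 (by positivity)).2
        (mul_le_mul_of_nonneg_left a n0.le) (mul_nonneg n0.le (mul_nonneg (sq_nonneg _)
          (eC_nonneg _ _ _))) (by positivity)).trans_eq ?_
      rw [hn]; field_simp
    have HF : MeasurableSet (Far T v (c - 1) s) ∧ Far T v (c - 1) s ⊆ (T.core v).U s ∧
        IntegrableOn (aa (t s) (eta T v σ (c + 1) s)) (Far T v (c - 1) s) ∧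
        IntegrableOn (fun x => bb (t s) (eta T v σ (c + 1) s) (scl T s x) x) (Far T v (c - 1) s) ∧
        (∫ x in Far T v (c - 1) s, bb (t s) (eta T v σ (c + 1) s) (scl T s x) x ≤
          (∫ x in Far T v (c - 1) s, aa (t s) (eta T v σ (c + 1) s) x) +
          CH * ∫ x in NS.cK0 T v c s, bb (t s) (eta T v σ (c + 1) s) (scl T s x) x) ∧
        ∀ x ∈ Far T v (c - 1) s, Pt (gb T g T0 v s) x (scl T s x) (1 + ε) ε := by
      rcases s with a | w
      · refine ⟨MeasurableSet.empty, empty_subset _, integrableOn_empty, integrableOn_empty, ?_,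
          fun x hx => hx.elim⟩
        simp only [Far, Sum.elim_inl, Measure.restrict_empty, integral_zero_measure, zero_add]
        exact mul_nonneg C0 (integral_nonneg fun x => bb_nonneg)
      · have mt : Measurable (tau T v w (c - 1)) := by unfold tau; split_ifs <;> fun_prop
        have := H3 T v w (c - 1) t (eta T v σ (c + 1)) hO c3 ht (eta_sm _)
        rw [sub_add_cancel] at this
        refine ⟨(o.isOpen _).measurableSet.inter (measurableSet_le measurable_const mt),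
          fun x hx => hx.1, this.1, this.2.1, this.2.2, fun x hx => H2 v T0 w x hx.1 ?_⟩
        have := hx.2
        simp only [tau] at this ⊢
        linarith
    obtain ⟨f1, f2, f3, f4, f5, f6⟩ := HF
    have cb : ContinuousOn (fun x => bb (t s) (eta T v σ (c + 1) s) (scl T s x) x)
        ((T.core v).U s) := (continuousOn_finsetSum _ fun I _ => ((eta_sm s).continuousOn.mul
          (ht.sec.sec.sm s I).continuousOn).pow 2).div ((cont_scl s).pow 2).continuousOn (sc v s)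
    refine chart (a := k * (a1 - m)) f1 (o.isOpen s).measurableSet
      (NS.Fx.cK0_cpt s).measurableSet f2 (i1 s) (i2 s) f3 f4
      ((cb.mono (uU v s)).integrableOn_compact (NS.Fx.cK0_cpt s)) (mul_nonneg k0 (by linarith))
      (mul_le_one₀ k1 (by linarith) (by linarith)) (by positivity) C0 (fun x => bb_nonneg) f5
      (fun x hx => ?_) (fun x hx hn hK => ?_) fun x hx hn hK => ?_
    · have hx' := f2 hx
      have χ1 := far_χ hO c3 hx
      have a := up x (cK_of_χ hO hx' (by rw [χ1]; exact one_ne_zero))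
      have b := qq_ge (w := t s) (by linarith) (f6 x hx) (scl_pos hx') ε0 (dη x hx')
        (ht.sec.sec.dfT o hx') (eta_g2 hx')
      rw [Atl.den, Atl.den, χ1, one_mul, one_mul, ← hk, mul_assoc, mul_assoc, mul_assoc, ← mul_sub,
        Cb.q2_self]
      refine mul_le_mul_of_nonneg_left ?_ k0
      have b0 : 0 ≤ bb (t s) (eta T v σ (c + 1) s) (scl T s x) x := bb_nonneg
      linarith [mul_le_mul_of_nonneg_right m1 b0]
    · have a := up x hK.1
      have b := qq_ge (w := t s) l1 ((H v s x hK.1).2 T0) (scl_pos hx) one_pos (dη x hx)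
        (ht.sec.sec.dfT o hx) (eta_g2 hx)
      have b0 : 0 ≤ bb (t s) (eta T v σ (c + 1) s) (scl T s x) x := bb_nonneg
      have a0 : 0 ≤ aa (t s) (eta T v σ (c + 1) s) x := aa_nonneg
      have χ0 := pu.nonneg s ((T.core v).c s x)
      have z := mul_le_one₀ k1 χ0 (χ_le hO hx)
      have y : -(b2 + m) * bb (t s) (eta T v σ (c + 1) s) (scl T s x) x ≤
          √(gb T g T0 v s x).det * qq (gb T g T0 v s) (t s) (eta T v σ (c + 1) s) x -
          √(g v s x).det * (n * (eta T v σ (c + 1) s x ^ 2 *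
            eC (scl T s x) (matT (t s)) (matT (t s)) x)) := by
        rw [← ha2, ← hb2] at b
        linarith [mul_le_mul_of_nonneg_right m2 a0]
      have := mul_le_mul_of_nonneg_left y (mul_nonneg k0 χ0)
      rw [Atl.den, Atl.den, ← hk, Cb.q2_self]
      linarith [mul_le_mul_of_nonneg_right z (mul_nonneg (add_nonneg p4 m0.le) b0)]
    · have : T.χ s ((T.core v).c s x) = 0 := by_contra fun k => hK (near hO (cK_of_χ hO hx k) hn)
      simp [Atl.den, this]
  have S := Finset.sum_le_sum fun s (_ : s ∈ Finset.univ) => (key s).trans (add_le_add_right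
    (mul_le_mul_of_nonneg_left (hB s) (by positivity)) _)
  rw [Finset.sum_add_distrib, Finset.sum_const, Finset.card_univ, nsmul_eq_mul] at S
  have S1 : n * NK T g v (eta T v σ (c + 1)) t t ≤
      IK T g T0 v (eta T v σ (c + 1)) (PK T g T0 v t) t +
        W * (n / 2 / (W + 1)) * NK T g v (eta T v σ (c + 1)) t t := by
    refine (Atl.int_const_mul n _).symm.trans_le (S.trans_eq ?_)
    rw [e1, hW]
    congr 1
    ring
  have S2 : W * (n / 2 / (W + 1)) ≤ n / 2 := by
    rw [← mul_div_assoc, div_le_iff₀ (by positivity)]; linarith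
  linarith [mul_le_mul_of_nonneg_right S2 N0]

end Crest.Agent.N207.K.Zc

end
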