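import Crest.Agent.N207.K.Hd8
import Crest.Agent.N207.K.Pop1
import Crest.Agent.N207.Rad.Crd
import Crest.Agent.R238.HBMat

/-!
# Row 207, block K (helper5): pointwise estimates for the coercivity of `Pop`
-/

set_option autoImplicit false
open Set Filter Topology
open scoped ContDiff
open Crest.GeometryTopology.CoordMetric Crest.GeometryTopology.ChartCurvature
open Crest.Agent.R238 (Ell)
open Crest.Agent.R202.Tens (bil bil_apply)
open Crest.Agent.N207.Hd Crest.Agent.N207.Lg Crest.Agent.N207.CB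

noncomputable section

namespace Crest.Agent.N207.K

variable {k : ℕ}

/-- sum of squares -/
def ss (A : Arr 4 k) : ℝ := ∑ I, A I ^ 2

/-- partial derivatives -/
def pa (T : Tn 4 k) (x : E4) : Arr 4 (k + 1) := fun J => pderiv (J 0) (fun y => T y (Fin.tail J)) x

/-- `df ⊗ A` -/
def te (f : E4 → ℝ) (x : E4) (A : Arr 4 k) : Arr 4 (k + 1) :=
  fun J => pderiv (J 0) f x * A (Fin.tail J)

/-- the curvature term of `Pop` -/
def RR (G w : MetricField 4) : Tn 4 2 := fun y I =>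
  -2 * (cvJ (w y) (iv G y) (riemann G y) (I 0) (I 1) -
    cvJ (G y) (up (iv G y) (w y)) (riemann G y) (I 0) (I 1))

/-- bounded geometry at one point -/
structure Pt (G : MetricField 4) (x : E4) (ρ Λ e : ℝ) : Prop where
  ell : Ell Λ⁻¹ Λ (G x)
  chr : ∀ m i j, |christoffel G x m i j| ≤ e / ρ
  rm : ∀ l a i j, |riemann G x l a i j| ≤ e / ρ ^ 2

theorem ss_nonneg (A : Arr 4 k) : 0 ≤ ss A := Finset.sum_nonneg fun _ _ => sq_nonneg _

theorem ss_smul (c : ℝ) (A : Arr 4 k) : ss (c • A) = c ^ 2 * ss A := by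
  simp only [ss, Pi.smul_apply, smul_eq_mul, mul_pow, Finset.mul_sum]

theorem ss_add_le (A B : Arr 4 k) {θ : ℝ} (hθ : 0 < θ) :
    ss (A + B) ≤ (1 + θ) * ss A + (1 + θ⁻¹) * ss B := by
  simp only [ss, Finset.mul_sum, ← Finset.sum_add_distrib, Pi.add_apply]
  refine Finset.sum_le_sum fun I _ => ?_
  have h : 0 ≤ θ⁻¹ * (θ * A I - B I) ^ 2 := by positivity
  have e : θ⁻¹ * (θ * A I - B I) ^ 2 = θ * A I ^ 2 - 2 * A I * B I + θ⁻¹ * B I ^ 2 := by
    field_simp; ring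
  nlinarith

theorem abs_le_ss (A : Arr 4 k) (I : Fin k → Fin 4) : |A I| ≤ √(ss A) :=
  Real.abs_le_sqrt (Finset.single_le_sum (f := fun I => A I ^ 2) (fun _ _ => sq_nonneg _)
    (Finset.mem_univ I))

theorem ss_le {A : Arr 4 k} {c : ℝ} (h : ∀ I, |A I| ≤ c) : ss A ≤ 4 ^ k * c ^ 2 := by
  have := Finset.sum_le_card_nsmul Finset.univ (fun I => A I ^ 2) (c ^ 2) fun I _ =>
    sq_le_sq' (abs_le.1 (h I)).1 (abs_le.1 (h I)).2
  simpa [ss] using this

theorem ss_pa (T : Tn 4 k) (x : E4) : ss (pa T x) = ∑ I, g2 (fun y => T y I) x := by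
  rw [ss, AI.sum_cons, Finset.sum_comm]; rfl

theorem ss_te (f : E4 → ℝ) (x : E4) (A : Arr 4 k) : ss (te f x A) = g2 f x * ss A := by
  rw [ss, AI.sum_cons, g2, ss, Finset.sum_mul_sum]
  simp only [te, Fin.cons_zero, Fin.tail_cons, mul_pow]

theorem eC_eq (ρ : ℝ) (T : Tn 4 k) (x : E4) : eC ρ T T x = ss (pa T x) + ss (T x) / ρ ^ 2 := by
  rw [ss_pa, eC, Finset.sum_add_distrib, ss, Finset.sum_div]
  simp only [g2, pow_two]

variable {G w : MetricField 4} {x : E4} {ρ Λ e θ β : ℝ} {T : Tn 4 k} {η : E4 → ℝ} {U : Set E4}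

theorem ss_gam (hc : ∀ m i j, |christoffel G x m i j| ≤ e) (T : Tn 4 k) :
    ss (pa T x - cov G T x) ≤ 4 ^ (k + 1) * (4 * k * e) ^ 2 * ss (T x) := by
  have h : ∀ J, |(pa T x - cov G T x) J| ≤ 4 * k * e * √(ss (T x)) := fun J => by
    simp only [pa, cov, Pi.sub_apply, sub_sub_cancel]
    refine (Finset.abs_sum_le_sum_abs _ _).trans ((Finset.sum_le_sum fun s _ =>
      Rad.sum4_le fun m => Rad.abs_mul_le (hc _ _ _) (abs_le_ss _ _)).trans_eq ?_)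
    simp only [Finset.sum_const, Finset.card_univ, Fintype.card_fin, nsmul_eq_mul]
    ring
  refine (ss_le h).trans_eq ?_
  rw [mul_pow, Real.sq_sqrt (ss_nonneg _), ← mul_assoc]

theorem cov_smT_eq (hη : DifferentiableAt ℝ η x) (hT : DfT T x) :
    cov G (smT η T) x = te η x (T x) + η x • cov G T x :=
  funext fun J => cov_smT hη hT J

theorem pa_smT_eq (hη : DifferentiableAt ℝ η x) (hT : DfT T x) :
    pa (smT η T) x = te η x (T x) + η x • pa T x :=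
  funext fun J => pd_mul (J 0) hη (hT _)

theorem te_sq (hη : DifferentiableAt ℝ η x) (A : Arr 4 k) :
    te (fun y => η y ^ 2) x A = (2 * η x) • te η x A := by
  funext J
  simp only [te, pow_two, pd_mul (J 0) hη hη, Pi.smul_apply, smul_eq_mul]
  ring

/-- the conjugation identity -/
theorem conj_ip (hA : (G x).PosDef) (hη : DifferentiableAt ℝ η x) (hT : DfT T x) :
    ip G (cov G (smT (fun y => η y ^ 2) T)) (cov G T) x =
      nsq G (cov G (smT η T)) x - ipA (G x)⁻¹ (te η x (T x)) (te η x (T x)) := by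
  simp only [nsq, ip]
  rw [cov_smT_eq (η := fun y => η y ^ 2) (hη.pow 2) hT, cov_smT_eq hη hT, Ar.ipA_add_self hA, te_sq hη, Ar.ipA_add_left,
    Ar.ipA_smul_left, Ar.ipA_smul_left, Ar.ipA_smul_left, Ar.ipA_smul_right, Ar.ipA_smul_right]
  ring

theorem pop_RR (hG : IsRiemannianOn G U) (hw : SmT (matT w) U) (hs : ∀ y ∈ U, (w y).IsSymm)
    (hx : x ∈ U) : matT (Pop G w) x = RR G w x - lapT G (matT w) x := by
  refine arr2_ext fun a b => ?_
  have := pop_eq (.of_riem hG hx) (w_c2 hG.isOpen hw hx) (w_sy hG.isOpen hs hx) a b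
  simp only [matT, RR, Pi.sub_apply, Matrix.cons_val_zero, Matrix.cons_val_one] at this ⊢
  linarith

theorem smT_RR (hG : IsRiemannianOn G U) (hw : SmT (matT w) U) : SmT (RR G w) U := fun I => by
  have h1 : ∀ a b, ContDiffOn ℝ ∞ (fun y => w y a b) U := fun a b => hw ![a, b]
  have h2 := sm_inv hG
  have h3 := sm_riemann hG
  have h4 := hG.contDiffOn
  simp only [RR, cvJ, up, iv]
  refine contDiffOn_const.mul ((contDiffOn_const.mul (ContDiffOn.sum fun _ _ => ContDiffOn.sum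
    fun _ _ => ContDiffOn.sum fun _ _ => (h2 _ _).mul
      (((h3 _ _ _ _).mul (h1 _ _)).add ((h3 _ _ _ _).mul (h1 _ _))))).sub
    (contDiffOn_const.mul (ContDiffOn.sum fun _ _ => ContDiffOn.sum fun _ _ => ContDiffOn.sum
      fun _ _ => (ContDiffOn.sum fun _ _ => ContDiffOn.sum fun _ _ =>
        ((h2 _ _).mul (h1 _ _)).mul (h2 _ _)).mul
        (((h3 _ _ _ _).mul (h4 _ _)).add ((h3 _ _ _ _).mul (h4 _ _))))))

theorem abs_cvJ_le {g H : M2 (Fin 4) ℝ} {R : M4 (Fin 4) ℝ} {a b c : ℝ} (hg : ∀ i j, |g i j| ≤ a)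
    (hH : ∀ i j, |H i j| ≤ b) (hR : ∀ i j k l, |R i j k l| ≤ c) (i j : Fin 4) :
    |cvJ g H R i j| ≤ 64 * (b * (c * a)) := by
  rw [cvJ, abs_mul, abs_of_pos (by norm_num : (0 : ℝ) < 1 / 2)]
  have := Rad.sum4_le fun k => Rad.sum4_le fun l => Rad.sum4_le fun m => Rad.abs_mul_le (hH k l)
    ((abs_add_le _ _).trans (add_le_add (Rad.abs_mul_le (hR m l k i) (hg m j))
      (Rad.abs_mul_le (hR m l k j) (hg m i))))
  linarith

theorem ss_RR (hΛ : 1 ≤ Λ) (h : Pt G x ρ Λ e) :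
    ss (RR G w x) ≤ (8704 * Λ ^ 3 * (e / ρ ^ 2)) ^ 2 * ss (matT w x) := by
  have l0 : 0 < Λ⁻¹ := by positivity
  have hw : ∀ a b, |w x a b| ≤ √(ss (matT w x)) := fun a b => abs_le_ss (matT w x) ![a, b]
  have hH : ∀ a b, |iv G x a b| ≤ Λ := fun a b => by simpa [iv] using h.ell.abs_inv_le l0 a b
  have hu : ∀ a b, |up (iv G x) (w x) a b| ≤ 4 * (4 * (Λ * √(ss (matT w x)) * Λ)) := fun a b =>
    Rad.sum4_le fun _ => Rad.sum4_le fun _ => Rad.abs_mul_le (Rad.abs_mul_le (hH _ _) (hw _ _))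
      (hH _ _)
  have e0 : 0 ≤ e / ρ ^ 2 := (abs_nonneg _).trans (h.rm 0 0 0 0)
  have key : ∀ I, |RR G w x I| ≤ 2176 * Λ ^ 3 * (e / ρ ^ 2) * √(ss (matT w x)) := fun I => by
    have h1 := abs_cvJ_le hw hH h.rm (I 0) (I 1)
    have h2 := abs_cvJ_le (h.ell.abs_entry_le l0.le) hu h.rm (I 0) (I 1)
    have h3 : Λ ≤ Λ ^ 3 := le_self_pow₀ hΛ (by norm_num)
    have h4 := mul_le_mul_of_nonneg_right h3 (mul_nonneg e0 (Real.sqrt_nonneg (ss (matT w x))))
    rw [RR, abs_mul, abs_neg, abs_two]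
    have := abs_sub (cvJ (w x) (iv G x) (riemann G x) (I 0) (I 1))
      (cvJ (G x) (up (iv G x) (w x)) (riemann G x) (I 0) (I 1))
    nlinarith
  refine (ss_le key).trans_eq ?_
  rw [mul_pow, Real.sq_sqrt (ss_nonneg _)]
  ring

theorem ipA_le_ss (hΛ : 0 < Λ) (h : Ell Λ⁻¹ Λ (G x)) (A : Arr 4 k) :
    ipA (G x)⁻¹ A A ≤ Λ ^ k * ss A :=
  Ar.ipA_le_sum_sq (h.posDef (by positivity)) hΛ.le (fun v => by
    rw [← inv_mul_le_iff₀ hΛ]; exact ell_lo h v) A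

theorem ss_le_ipA (hΛ : 0 < Λ) (h : Ell Λ⁻¹ Λ (G x)) (A : Arr 4 k) :
    ss A ≤ Λ ^ k * ipA (G x)⁻¹ A A :=
  Ar.sum_sq_le_ipA (h.posDef (by positivity)) hΛ.le (ell_hi h) A

theorem abs_ip_RR (hΛ : 1 ≤ Λ) (h : Pt G x ρ Λ e) :
    |ip G (RR G w) (matT w) x| ≤ 8704 * Λ ^ 5 * e * (ss (matT w x) / ρ ^ 2) := by
  have l0 : 0 < Λ := by linarith
  have e0 : 0 ≤ e / ρ ^ 2 := (abs_nonneg _).trans (h.rm 0 0 0 0)
  have s0 := ss_nonneg (matT w x)
  have h1 := (ipA_le_ss l0 h.ell (RR G w x)).trans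
    (mul_le_mul_of_nonneg_left (ss_RR hΛ h) (by positivity))
  have h2 := ipA_le_ss l0 h.ell (matT w x)
  have hA := h.ell.posDef (inv_pos.2 l0)
  refine abs_le_of_sq_le_sq' ?_ ?_ |> abs_le.2
  · refine (Ar.ipA_sq_le hA _ _).trans ((mul_le_mul h1 h2 (Ar.ipA_nonneg hA _)
      (by positivity)).trans_eq ?_)
    ring
  · rw [mul_assoc, ← mul_div_assoc, mul_div_right_comm]; positivity

/-- the integrand of the quadratic form -/
def qq (G w : MetricField 4) (η : E4 → ℝ) (x : E4) : ℝ :=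
  ip G (cov G (smT (fun y => η y ^ 2) (matT w))) (cov G (matT w)) x +
    η x ^ 2 * ip G (RR G w) (matT w) x

/-- `|∂(η w)|²` -/
def aa (w : MetricField 4) (η : E4 → ℝ) (x : E4) : ℝ := ss (pa (smT η (matT w)) x)

/-- `|η w|² / ρ²` -/
def bb (w : MetricField 4) (η : E4 → ℝ) (ρ : ℝ) (x : E4) : ℝ := ss (smT η (matT w) x) / ρ ^ 2

theorem aa_nonneg : 0 ≤ aa w η x := ss_nonneg _

theorem bb_nonneg : 0 ≤ bb w η ρ x := div_nonneg (ss_nonneg _) (sq_nonneg _)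

theorem bb_eq : bb w η ρ x = η x ^ 2 * (ss (matT w x) / ρ ^ 2) := by
  rw [bb, ← mul_div_assoc, ← ss_smul]; rfl

theorem te_le (hρ : 0 < ρ) (hβ : ρ ^ 2 * g2 η x ≤ β ^ 2 * η x ^ 2) :
    ss (te η x (matT w x)) ≤ β ^ 2 * bb w η ρ x := by
  rw [ss_te, bb_eq, ← mul_assoc, ← mul_div_assoc, le_div_iff₀ (by positivity)]
  nlinarith [mul_le_mul_of_nonneg_right hβ (ss_nonneg (matT w x))]

theorem qq_ge (hΛ : 1 ≤ Λ) (h : Pt G x ρ Λ e) (hρ : 0 < ρ) (hθ : 0 < θ)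
    (hη : DifferentiableAt ℝ η x) (hw : DfT (matT w) x) (hβ : ρ ^ 2 * g2 η x ≤ β ^ 2 * η x ^ 2) :
    (Λ ^ 5 * (1 + θ))⁻¹ * aa w η x -
      (4096 * e ^ 2 / θ + Λ ^ 5 * β ^ 2 + 8704 * Λ ^ 7 * e) * bb w η ρ x ≤
      √(G x).det * qq G w η x := by
  have l0 : 0 < Λ := by linarith
  have hA := h.ell.posDef (inv_pos.2 l0)
  obtain ⟨d1, d2⟩ := ell_det h.ell (inv_pos.2 l0).le
  have e0 : 0 ≤ e := by
    have := (abs_nonneg _).trans (h.chr 0 0 0)
    exact (div_nonneg_iff.1 this).elim (fun h => h.1) fun h => absurd h.2 (not_le.2 hρ)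
  have b0 : 0 ≤ bb w η ρ x := bb_nonneg
  set N := nsq G (cov G (smT η (matT w))) x with hN
  have n0 : 0 ≤ N := Ar.ipA_nonneg hA (cov G (smT η (matT w)) x)
  have h1 : aa w η x ≤ (1 + θ) * (Λ ^ 3 * N) + (1 + θ⁻¹) * (4096 * e ^ 2 * bb w η ρ x) := by
    have a1 := ss_add_le (cov G (smT η (matT w)) x)
      (pa (smT η (matT w)) x - cov G (smT η (matT w)) x) hθ
    rw [add_sub_cancel] at a1
    have a2 := ss_gam h.chr (smT η (matT w))
    refine a1.trans (add_le_add (mul_le_mul_of_nonneg_left (ss_le_ipA l0 h.ell _) (by positivity))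
      (mul_le_mul_of_nonneg_left (a2.trans_eq ?_) (by positivity)))
    rw [bb]; push_cast; field_simp; ring
  have h2 : (Λ ^ 5 * (1 + θ))⁻¹ * aa w η x ≤ √(G x).det * N + 4096 * e ^ 2 / θ * bb w η ρ x := by
    rw [inv_mul_le_iff₀ (by positivity)]
    refine h1.trans ?_
    have c1 : Λ ^ 3 * N ≤ Λ ^ 5 * (√(G x).det * N) :=
      calc Λ ^ 3 * N = Λ ^ 5 * (Λ⁻¹ ^ 2 * N) := by field_simp
        _ ≤ _ := by gcongr
    have c2 : (1 + θ⁻¹) * (4096 * e ^ 2 * bb w η ρ x) =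
        (1 + θ) * (4096 * e ^ 2 / θ * bb w η ρ x) := by field_simp; ring
    have c3 : 4096 * e ^ 2 / θ * bb w η ρ x ≤ Λ ^ 5 * (4096 * e ^ 2 / θ * bb w η ρ x) :=
      le_mul_of_one_le_left (by positivity) (one_le_pow₀ hΛ)
    rw [c2]
    nlinarith
  have h3 := (ipA_le_ss l0 h.ell _).trans
    (mul_le_mul_of_nonneg_left (te_le (w := w) hρ hβ) (by positivity))
  have h4 : -(8704 * Λ ^ 5 * e * bb w η ρ x) ≤ η x ^ 2 * ip G (RR G w) (matT w) x := by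
    have := mul_le_mul_of_nonneg_left (abs_le.1 (abs_ip_RR (w := w) hΛ h)).1 (sq_nonneg (η x))
    rw [bb_eq]; linarith
  rw [qq, conj_ip hA hη hw, ← hN]
  have h5 := mul_le_mul d2 h3 (Ar.ipA_nonneg hA _) (by positivity)
  have h6 := mul_le_mul_of_nonneg_left h4 (Real.sqrt_nonneg (G x).det)
  have h7 := mul_le_mul_of_nonneg_right d2 (by positivity : 0 ≤ 8704 * Λ ^ 5 * e * bb w η ρ x)
  nlinarith

theorem eC_le (hρ : 0 < ρ) (hη : DifferentiableAt ℝ η x) (hw : DfT (matT w) x) (h1 : β ^ 2 ≤ 1)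
    (hβ : ρ ^ 2 * g2 η x ≤ β ^ 2 * η x ^ 2) :
    η x ^ 2 * eC ρ (matT w) (matT w) x ≤ 3 * (aa w η x + bb w η ρ x) := by
  have a1 := ss_add_le (pa (smT η (matT w)) x) ((-1 : ℝ) • te η x (matT w x)) one_pos
  have e : pa (smT η (matT w)) x + (-1 : ℝ) • te η x (matT w x) = η x • pa (matT w) x := by
    rw [pa_smT_eq hη hw, neg_one_smul]; abel
  rw [e, ss_smul, ss_smul] at a1
  have a2 := te_le (w := w) hρ hβ
  have b0 : 0 ≤ bb w η ρ x := bb_nonneg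
  have a0 : 0 ≤ aa w η x := aa_nonneg
  rw [eC_eq, mul_add, ← bb_eq]
  unfold aa at *
  nlinarith [mul_le_mul_of_nonneg_right h1 b0]

end Crest.Agent.N207.K

end
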