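import Crest.Agent.N207.K.Coer1
import Crest.Agent.N207.K.Gbj
import Crest.Agent.N207.K.Eta

/-!
# Row 207, block K (helper10): bounded geometry (`Pt`) of the reference metrics `gb`
-/

set_option autoImplicit false
open Set Filter Topology Metric
open scoped ContDiff
open Crest.GeometryTopology.CoordMetric Crest.GeometryTopology.ChartCurvature
open Crest.Agent.R238 (Ell)
open Crest.Agent.R202.Tens (bil bil_apply metric_symm)
open Crest.Agent.N207.I Crest.Agent.N207.Hd Crest.Agent.N207.CB Crest.Agent.N207.Ga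

noncomputable section

namespace Crest.Agent.N207.K

section pt

variable {G : MetricField 4} {U : Set E4} {x : E4} {ρ Λ e Λ' e' : ℝ}

theorem Pt.mono (h : Pt G x ρ Λ e) (hρ : 0 < ρ) (h0 : 0 < Λ) (h1 : Λ ≤ Λ') (h2 : e ≤ e') :
    Pt G x ρ Λ' e' :=
  ⟨Hd.ell_mono h.ell (inv_anti₀ h0 h1) h1, fun m i j => (h.chr m i j).trans (by gcongr),
    fun l a i j => (h.rm l a i j).trans (by gcongr)⟩

theorem pt_of_jg {η : ℝ} (hG : IsRiemannianOn G U) (hx : x ∈ U) (h : Sk.JG 2 G x ρ η)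
    (hη : η ≤ 1 / 100) (hρ : 0 < ρ) : Pt G x ρ (1 + 8 * η) (44 * η) := by
  have h0 := Rad.jg_nonneg h
  refine ⟨ell_of ⟨fun a b => metric_symm hG hx a b, fun v => ?_⟩ fun v => ?_, fun m i j =>
    (Rad.jg_chr hG hx h hη one_le_two hρ m i j).trans ?_, fun l a i j =>
      (Rad.jg_riemann hG hx h hη le_rfl hρ l a i j).trans_eq (mul_div_assoc _ _ _).symm⟩
  · have := (abs_le.1 (Rad.jg_bil h v)).1
    have k : (1 + 8 * η)⁻¹ ≤ 1 - 4 * η := by
      rw [inv_eq_one_div, div_le_iff₀ (by positivity)]; nlinarith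
    nlinarith [mul_le_mul_of_nonneg_right k (sq_nonneg ‖v‖)]
  · have := (abs_le.1 (Rad.jg_bil h v)).2
    nlinarith [mul_nonneg h0 (sq_nonneg ‖v‖)]
  · rw [mul_div_assoc]
    have := div_nonneg h0 hρ.le
    linarith

end pt

variable {M : Type*} {T : TD M} {g : T.V → Fam T} {γ : ℝ}

/-- far out on the ends the geometry of `gb` is almost flat, uniformly in `T0` -/
theorem pt_far (hL : T.Lim g γ) (hγ : 0 < γ) {ε : ℝ} (hε : 0 < ε) : ∃ T2 : ℝ, ∀ v T0 w,
    ∀ x ∈ (T.core v).U (Sum.inr w), T2 ≤ tau T v w 0 x →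
      Pt (gb T g T0 v (Sum.inr w)) x ‖x‖ (1 + ε) ε := by
  obtain ⟨C, h0, hC⟩ := gb_sj hL
  have hs := sm_nonneg (m := 2) h0
  set η := min (1 / 100) (ε / 44) with hη
  have η0 : 0 < η := by positivity
  have η1 : η ≤ ε / 44 := min_le_right _ _
  have t : Tendsto (fun t : ℝ => sm C 2 * Real.exp (-γ * t)) atTop (𝓝 0) := by
    simpa using (Real.tendsto_exp_atBot.comp
      (tendsto_id.const_mul_atTop_of_neg (neg_neg_of_pos hγ))).const_mul (sm C 2)
  obtain ⟨T2, hT⟩ := eventually_atTop.1 (t.eventually (ge_mem_nhds η0))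
  refine ⟨T2, fun v T0 w x hx ht => ?_⟩
  have hp := core_pos hx
  have e : ew γ v w x = Real.exp (-γ * tau T v w 0 x) := by
    unfold ew tau
    split_ifs <;> rw [Real.rpow_def_of_pos hp] <;> congr 1 <;> ring
  refine (pt_of_jg (η := η) (gb_riem hL _) hx (fun k hk i j => ?_) (min_le_left _ _) hp).mono hp
    (by positivity) (by linarith) (by linarith)
  refine ((hC T0 v w x hx i j).bd k).trans (le_trans ?_ (hT _ ht))
  rw [e]
  exact mul_le_mul_of_nonneg_right (le_sm h0 hk) (Real.exp_pos _).le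

/-- bounded geometry on all the ends -/
theorem pt_end (h : T.Ok) (hL : T.Lim g γ) (hγ : 0 < γ) : ∃ e : ℝ, 0 ≤ e ∧ ∀ v T0 w,
    ∀ x ∈ (T.core v).U (Sum.inr w), Pt (gb T g T0 v (Sum.inr w)) x ‖x‖ 2 e := by
  obtain ⟨C, h0, hC⟩ := gb_sj hL
  have hs := sm_nonneg (m := 2) h0
  set δ := (100 * sm C 2 + 1)⁻¹ with hδ
  have δ0 : 0 < δ := by positivity
  have δ1 : δ ≤ 1 := inv_le_one_of_one_le₀ (by linarith)
  have δ2 : sm C 2 * δ ≤ 1 / 100 := by
    rw [hδ, ← div_eq_mul_inv, div_le_iff₀ (by positivity)]; linarith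
  refine ⟨1 / δ ^ 2, by positivity, fun v T0 w x hx => ?_⟩
  have hp := core_pos hx
  have j : Sk.JG 2 (gb T g T0 v (Sum.inr w)) x (δ * ‖x‖) (1 / 100) := fun k hk i j => by
    rcases Nat.eq_zero_or_pos k with rfl | k0
    · rw [Sk.J1, norm_iteratedFDeriv_zero, pow_zero, mul_one]
      exact gb_small (T0 := T0) hL hx i j
    · have a := ((hC T0 v w x hx i j).bd k).trans
        ((mul_le_of_le_one_right (h0 k) (ew_le h hγ hx)).trans (le_sm h0 hk))
      have b : δ ^ k ≤ δ := pow_le_of_le_one δ0.le δ1 k0.ne'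
      have c := mul_le_mul a b (by positivity) hs
      rw [Sk.J1, mul_pow, mul_comm (δ ^ k), ← mul_assoc]
      exact c.trans δ2
  have p := pt_of_jg (gb_riem hL _) hx j le_rfl (by positivity)
  refine ⟨Hd.ell_mono p.ell (by norm_num) (by norm_num), fun m i j => (p.chr m i j).trans ?_,
    fun l a i j => (p.rm l a i j).trans ?_⟩
  · rw [div_div, div_le_div_iff₀ (by positivity) (by positivity)]
    nlinarith [mul_pos δ0 hp, mul_le_mul_of_nonneg_right δ1 (mul_pos δ0 hp).le]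
  · rw [div_div, mul_pow]
    gcongr
    norm_num

/-- bounded geometry on the balls -/
theorem pt_ball (hL : T.Lim g γ) : ∃ Λ e : ℝ, 2 ≤ Λ ∧ 0 ≤ e ∧ ∀ a, ∀ x : E4, ‖x‖ ≤ 15 / 8 →
    Pt (g (T.vx a) (Sum.inl a)) x 1 Λ e := by
  obtain ⟨D, c, h1, hc, hD⟩ := ball_bd hL
  have h2 := h1 0
  have h3 := inv_pos.2 hc
  have hK := isCompact_closedBall (0 : E4) (15 / 8)
  have hs : ∀ a, closedBall (0 : E4) (15 / 8) ⊆ (T.core (T.vx a)).U (Sum.inl a) := fun a x hx =>
    TD.mem_core_inl.2 ⟨rfl, (mem_closedBall_zero_iff.1 hx).trans_lt (by norm_num)⟩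
  have k : ∀ p : T.B × Fin 4 × Fin 4 × Fin 4 × Fin 4, ∃ e, ∀ x ∈ closedBall (0 : E4) (15 / 8),
      |christoffel (g (T.vx p.1) (Sum.inl p.1)) x p.2.1 p.2.2.1 p.2.2.2.1| ≤ e ∧
      |riemann (g (T.vx p.1) (Sum.inl p.1)) x p.2.1 p.2.2.1 p.2.2.2.1 p.2.2.2.2| ≤ e := fun p => by
    have r := (hL.met (T.vx p.1)).riem (Sum.inl p.1)
    obtain ⟨e1, k1⟩ := hK.exists_bound_of_continuousOn
      ((sm_chr r p.2.1 p.2.2.1 p.2.2.2.1).continuousOn.mono (hs _))
    obtain ⟨e2, k2⟩ := hK.exists_bound_of_continuousOn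
      ((sm_riemann r p.2.1 p.2.2.1 p.2.2.2.1 p.2.2.2.2).continuousOn.mono (hs _))
    exact ⟨max e1 e2, fun x hx => ⟨le_max_of_le_left (k1 x hx), le_max_of_le_right (k2 x hx)⟩⟩
  choose e he using k
  obtain ⟨E, hE⟩ := (Set.finite_range e).bddAbove
  have hE' : ∀ p, e p ≤ max E 0 := fun p => le_max_of_le_left (hE ⟨p, rfl⟩)
  refine ⟨2 + c⁻¹ + 16 * D 0, max E 0, by linarith, le_max_right _ _, fun a x hx => ⟨?_,
    fun m i j => ?_, fun l b i j => ?_⟩⟩
  · refine ell_of ((hD a x hx).1.mono ?_) fun v => ?_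
    · rw [inv_le_comm₀ (by linarith) hc]; linarith
    · have := (abs_le.1 (Jt.abs_bil_le (A := g (T.vx a) (Sum.inl a) x) (C := D 0) (fun p q => by
        simpa [norm_iteratedFDeriv_zero] using (hD a x hx).2 0 p q) v v)).2
      push_cast at this
      refine this.trans ?_
      nlinarith [mul_nonneg h3.le (sq_nonneg ‖v‖)]
  · rw [div_one]
    exact (he (a, m, i, j, 0) x (mem_closedBall_zero_iff.2 hx)).1.trans (hE' _)
  · rw [one_pow, div_one]
    exact (he (a, l, b, i, j) x (mem_closedBall_zero_iff.2 hx)).2.trans (hE' _)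

/-- bounded geometry on the supports of the partition of unity, uniformly in `T0` -/
theorem pt_all (h : T.Ok) (hL : T.Lim g γ) (hγ : 0 < γ) : ∃ Λ e : ℝ, 2 ≤ Λ ∧ 0 ≤ e ∧ ∀ v T0 s,
    ∀ x ∈ T.cK v s, Pt (gb T g T0 v s) x (scl T s x) Λ e := by
  obtain ⟨e1, a1, k1⟩ := pt_end h hL hγ
  obtain ⟨Λ, e2, a2, a3, k2⟩ := pt_ball hL
  refine ⟨Λ, e1 + e2, a2, by positivity, ?_⟩
  rintro v T0 (a | w) x hx
  · obtain ⟨rfl, h2⟩ := TD.mem_cK_inl.1 hx
    exact (k2 a x (by linarith)).mono one_pos (by linarith) le_rfl (by linarith)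
  · have hx' := (h.core_pou v).sub _ hx
    exact (k1 v T0 w x hx').mono (core_pos hx') two_pos a2 (by linarith)

end Crest.Agent.N207.K

end
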