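import Crest.Agent.N207.K.Pop1
import Crest.Agent.N207.K.Sch2
import Crest.Agent.R238.HBMat

/-!
# Row 207, block K (helper10): scaling of `Pop`, the leaf `PSCH`
-/

set_option autoImplicit false

open scoped ContDiff
open Set Filter Topology Metric MeasureTheory
open Crest.GeometryTopology.CoordMetric Crest.GeometryTopology.ChartCurvature
open Crest.Agent.N207.CB Crest.Agent.N207.Lg Crest.Agent.NLib.Ell
open Crest.Agent.R238 (Ell)

noncomputable section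

namespace Crest.Agent.N207.K

theorem jet_aff (K : MetricField 4) (x : E4) (ρ : ℝ) (y : E4) :
    Lg.jet (fun y => K (x + ρ • y)) y = ρ • Lg.jet K (x + ρ • y) := by
  funext c a b; exact pd_aff c (fun z => K z a b) x ρ y

theorem jet2_aff (K : MetricField 4) (x : E4) (ρ : ℝ) (y : E4) :
    jet2 (fun y => K (x + ρ • y)) y = ρ ^ 2 • jet2 K (x + ρ • y) := by
  funext c d a b
  simp only [jet2, jet_aff, Pi.smul_apply, smul_eq_mul, pd_cmul]
  rw [pow_two, mul_assoc]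
  exact congrArg _ (pd_aff c (fun z => Lg.jet K z d a b) x ρ y)

variable {G w : MetricField 4} {U : Set E4}

theorem sm_aff (x : E4) (ρ : ℝ) : ContDiff ℝ ∞ fun y : E4 => x + ρ • y :=
  contDiff_const.add (contDiff_id.const_smul ρ)

theorem riem_aff (hG : IsRiemannianOn G U) (x : E4) (ρ : ℝ) :
    IsRiemannianOn (fun y => G (x + ρ • y)) ((fun y => x + ρ • y) ⁻¹' U) :=
  ⟨hG.isOpen.preimage (sm_aff x ρ).continuous, fun i j =>
    (hG.contDiffOn i j).comp (sm_aff x ρ).contDiffOn fun _ h => h, fun _ h => hG.posDef _ h⟩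

theorem smT_aff (hw : SmT (matT w) U) (x : E4) (ρ : ℝ) :
    SmT (matT fun y => w (x + ρ • y)) ((fun y => x + ρ • y) ⁻¹' U) := fun I =>
  (hw I).comp (sm_aff x ρ).contDiffOn fun _ h => h

/-- scaling of `Pop` -/
theorem pop_aff (hG : IsRiemannianOn G U) (hw : SmT (matT w) U) (hs : ∀ y ∈ U, (w y).IsSymm)
    (x : E4) (ρ : ℝ) {y : E4} (hy : x + ρ • y ∈ U) (a b : Fin 4) :
    Pop (fun y => G (x + ρ • y)) (fun y => w (x + ρ • y)) y a b =
      ρ ^ 2 * Pop G w (x + ρ • y) a b := by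
  have h := riem_aff hG x ρ
  rw [pop_jet (.of_riem h hy) (w_c2 h.isOpen (smT_aff hw x ρ) hy)
    (w_sy h.isOpen (fun _ hz => hs _ hz) hy),
    pop_jet (.of_riem hG hy) (w_c2 hG.isOpen hw hy) (w_sy hG.isOpen hs hy), jet_aff, jet_aff,
    jet2_aff, jet2_aff, chr_smul, dG2_hom]
  exact congrFun (congrFun (popJ_hom _ _ _ _ ρ _ _ _) a) b

theorem ex_unif {ι X : Type*} [Fintype ι] {V : X → Set E4} {k : ℕ} {f : ι → X → E4 → ℝ}
    (h : ∀ i, ∃ C, 0 ≤ C ∧ ∀ d, CKA (1 / 2) (V d) k C (f i d)) :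
    ∃ C, 0 ≤ C ∧ ∀ i d, CKA (1 / 2) (V d) k C (f i d) := by
  choose C h0 h1 using h
  exact ⟨∑ i, C i, Finset.sum_nonneg fun i _ => h0 i, fun i d => (h1 i d).mono
    (Finset.single_le_sum (fun i _ => h0 i) (Finset.mem_univ i))⟩

/-- the inverse of an elliptic matrix field -/
theorem cka_inv (k : ℕ) {lo : ℝ} (hlo : 0 < lo) (hi M : ℝ) : ∃ C : ℝ, 0 ≤ C ∧
    ∀ (V : Set E4) (G : MetricField 4), IsOpen V → (∀ y ∈ V, Ell lo hi (G y)) →
      (∀ a b, CKA (1 / 2) V k M fun y => G y a b) →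
      ∀ a b, CKA (1 / 2) V k C fun y => (G y)⁻¹ a b := by
  have hc : IsClosed {A : Fin 4 → Fin 4 → ℝ | Ell lo hi (Matrix.of A)} := by
    simp only [Ell, ofPred_and, ofPred_forall, forall_and, Matrix.of_apply]
    refine (isClosed_iInter fun i => isClosed_iInter fun j => isClosed_eq ?_ ?_).inter
      ((isClosed_iInter fun z => isClosed_le ?_ ?_).inter (isClosed_iInter fun z => isClosed_le ?_ ?_))
    all_goals fun_prop
  have hd : ContDiff ℝ ∞ fun A : Fin 4 → Fin 4 → ℝ => A := contDiff_id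
  have hA : ∀ (A : Fin 4 → Fin 4 → ℝ) i j,
      ContDiffAt ℝ ∞ (fun A : Fin 4 → Fin 4 → ℝ => Matrix.of A i j) A := fun A i j =>
    contDiffAt_pi.1 (contDiffAt_pi.1 hd.contDiffAt i) j
  obtain ⟨C, hC⟩ := NLib.Ell.comp 4 k (1 / 2) (4 * (4 * M)) (by norm_num) (by norm_num)
    (Fin 4 → Fin 4 → ℝ) (Fin 4 → Fin 4 → ℝ) (fun A i j => (Matrix.of A)⁻¹ i j)
    {A | (Matrix.of A).det ≠ 0} _
    (isOpen_ne_fun (continuous_iff_continuousAt.2 fun A => (cA_det (hA A)).continuousAt)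
      continuous_const)
    ((isCompact_closedBall 0 (4 * (4 * M))).inter_right hc)
    (fun A h => (R238.Ell.det_pos hlo h.2).ne')
    fun A h => (contDiffAt_pi.2 fun i => contDiffAt_pi.2 fun j =>
      cA_inv (hA A) h i j).contDiffWithinAt
  refine ⟨|C|, abs_nonneg _, fun V G hV he h a b => ?_⟩
  have h1 : CKA (1 / 2) V k (4 * (4 * M)) fun y (a b : Fin 4) => G y a b := by
    simpa using CKA.pi hV fun a => CKA.pi hV fun b => h a b
  exact (((hC V _ hV (fun y hy => ⟨mem_closedBall_zero_iff.2 (h1.bdd hy), he y hy⟩) h1).apply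
    hV a).apply hV b).mono (le_abs_self C)

/-- uniform bounds for the coefficients of `Pop` -/
theorem cka_coef (k : ℕ) {lo : ℝ} (hlo : 0 < lo) (hi M : ℝ) : ∃ C : ℝ, 0 ≤ C ∧
    ∀ (V : Set E4) (G : MetricField 4), IsOpen V → (∀ y ∈ V, Ell lo hi (G y)) →
      (∀ a b, CKA (1 / 2) V (k + 2) M fun y => G y a b) →
      (∀ a b, CKA (1 / 2) V k C fun y => (G y)⁻¹ a b) ∧
      (∀ c I J, CKA (1 / 2) V k C (popB G c I J)) ∧ ∀ I J, CKA (1 / 2) V k C (popC G I J) := by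
  obtain ⟨C0, hC0, h0⟩ := cka_inv k hlo hi M
  let D := {p : Set E4 × MetricField 4 // IsOpen p.1 ∧ (∀ y ∈ p.1, Ell lo hi (p.2 y)) ∧
    ∀ a b, CKA (1 / 2) p.1 (k + 2) M fun y => p.2 y a b}
  have cl : Cl fun f : D × E4 → ℝ =>
      ∃ C, 0 ≤ C ∧ ∀ d : D, CKA (1 / 2) d.1.1 k C fun y => f (d, y) :=
    ⟨fun c => ⟨_, norm_nonneg c, fun _ => CKA.const c⟩,
      fun ⟨_, h1, h2⟩ ⟨_, h3, h4⟩ => ⟨_, add_nonneg h1 h3, fun d => (h2 d).add d.2.1 (h4 d)⟩,
      fun ⟨_, h1, h2⟩ ⟨_, h3, h4⟩ => ⟨_, by positivity, fun d => (h2 d).mul d.2.1 (h4 d)⟩⟩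
  have h := Cl.popBC cl (G := fun p => p.1.1.2) (y := fun p => p.2)
    (fun a b => ⟨|M|, abs_nonneg _, fun d => (d.2.2.2 a b).pred.pred.mono (le_abs_self M)⟩)
    (fun a b => ⟨C0, hC0, fun d => h0 _ _ d.2.1 d.2.2.1 (fun a b => (d.2.2.2 a b).pred.pred) a b⟩)
    (fun c a b => ⟨|M|, abs_nonneg _, fun d => ((d.2.2.2 a b).pd c).pred.mono (le_abs_self M)⟩)
    (fun c e a b => ⟨|M|, abs_nonneg _, fun d => (((d.2.2.2 a b).pd e).pd c).mono (le_abs_self M)⟩)
  obtain ⟨C1, hC1, h1⟩ := ex_unif (V := fun d : D => d.1.1)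
    (f := fun (i : Fin 4 × (Fin 2 → Fin 4) × (Fin 2 → Fin 4)) d => popB d.1.2 i.1 i.2.1 i.2.2)
    fun i => h.1 i.1 i.2.1 i.2.2
  obtain ⟨C2, hC2, h2⟩ := ex_unif (V := fun d : D => d.1.1)
    (f := fun (i : (Fin 2 → Fin 4) × (Fin 2 → Fin 4)) d => popC d.1.2 i.1 i.2)
    fun i => h.2 i.1 i.2
  exact ⟨C0 + C1 + C2, by positivity, fun V G hV he hG =>
    ⟨fun a b => (h0 V G hV he (fun a b => (hG a b).pred.pred) a b).mono (by linarith),
      fun c I J => (h1 (c, I, J) ⟨(V, G), hV, he, hG⟩).mono (by linarith),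
      fun I J => (h2 (I, J) ⟨(V, G), hV, he, hG⟩).mono (by linarith)⟩⟩

theorem D2_pd {u : E4 → ℝ} {x : E4} (hu : ContDiffAt ℝ 2 u x) (i j : Fin 4) :
    fderiv ℝ (fderiv ℝ u) x (ei i) (ei j) = pderiv i (pderiv j u) x := by
  have hd : DifferentiableAt ℝ (fderiv ℝ u) x :=
    (hu.fderiv_right (m := 1) (by norm_num)).differentiableAt (by norm_num)
  exact (DFunLike.congr_fun
    ((ContinuousLinearMap.apply ℝ ℝ (ei j : E4)).hasFDerivAt.comp x hd.hasFDerivAt).fderiv _).symm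

theorem psch : PSCH := by
  intro k lam M δ hl hδ hδ1
  have hM := abs_nonneg M
  obtain ⟨K, hK, hc⟩ := cka_coef k hl (lam + |M| * 4) M
  obtain ⟨C, hC, H⟩ := sys_radii 4 k (Fin 2 → Fin 4) (a := 1 / 2) (lo := 1 / (lam + |M| * 4))
    (hi := 1 / lam) (by norm_num) (by norm_num) (by positivity)
    (one_div_le_one_div_of_le hl (by linarith)) hK (half_pos hδ) (half_lt_self hδ) hδ1
  refine ⟨C, hC, fun G w U x y0 ρ N S _ hN hS hG hw hs hU hell hGM hP hI a b => ?_⟩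
  have hG' := riem_aff hG x ρ
  have hw' := smT_aff hw x ρ
  have hm : ∀ y ∈ ball y0 δ, x + ρ • y ∈ U := fun y hy => hU y (ball_subset_closedBall hy)
  have he : ∀ y ∈ ball y0 δ, Ell lam (lam + |M| * 4) (G (x + ρ • y)) := fun y hy =>
    ⟨g_sy hG (hm y hy), fun z => ⟨hell y hy z, by
      have h1 := R238.quad_abs_le (B := G (x + ρ • y)) (c := |M|)
        (fun i j => ((hGM i j).bdd hy).trans (le_abs_self M)) z
      have h2 : 0 ≤ ∑ i, z i ^ 2 := by positivity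
      push_cast at h1
      nlinarith [le_abs_self (∑ i, ∑ j, G (x + ρ • y) i j * z i * z j)]⟩⟩
  obtain ⟨h1, h2, h3⟩ := hc _ (fun y => G (x + ρ • y)) isOpen_ball he hGM
  obtain ⟨V, hV⟩ := exists_cka (a := 1 / 2) (x0 := y0) (R := δ) hG'.isOpen (contDiffOn_pi.2 hw') hU
    (by norm_num) (by norm_num) 2
  refine H y0 (fun y => (G (x + ρ • y))⁻¹) (fun c I J y => -popB (fun y => G (x + ρ • y)) c I J y)
    (fun I J y => -popC (fun y => G (x + ρ • y)) I J y) (fun I y => w (x + ρ • y) (I 0) (I 1))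
    (fun I y => -(ρ ^ 2 * Pop G w (x + ρ • y) (I 0) (I 1))) N S hN
    ⟨fun y hy => R238.Ell.inv hl (by linarith) (he y hy), h1,
      fun c I J => (h2 c I J).neg isOpen_ball, fun I J => (h3 I J).neg isOpen_ball,
      fun I => (hP _ _).neg isOpen_ball, ⟨V, fun I => hV.apply isOpen_ball I⟩, hS,
      fun I => hI _ _, fun I y hy => ?_⟩ ![a, b]
  have c2 := w_c2 hG'.isOpen hw' (hm y hy)
  have e := pop_opc (.of_riem hG' (hm y hy)) c2 (w_sy hG'.isOpen (fun _ hz => hs _ hz) (hm y hy)) I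
  rw [← pop_aff hG hw hs x ρ (hm y hy), show Pop _ _ y (I 0) (I 1) = _ from e, opc]
  simp only [neg_mul, Finset.sum_neg_distrib, neg_add, neg_neg, add_assoc]
  refine congrArg₂ (· + ·) (Finset.sum_congr rfl fun i _ => Finset.sum_congr rfl fun j _ => ?_) rfl
  exact congrArg _ (D2_pd (c2 _ _) i j)

end Crest.Agent.N207.K

end
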