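import Crest.Agent.N207.K.KSt
import Crest.Agent.N207.K.Gbj
import Crest.Agent.N207.K.Pop3

/-!
# Row 207, block K (helper24): **EST**
-/

set_option autoImplicit false

open scoped ContDiff
open Metric Set Filter Topology MeasureTheory
open Crest.GeometryTopology.CoordMetric
open Crest.Agent.NLib.Ell Crest.Agent.N207.I Crest.Agent.N207.CB

noncomputable section

namespace Crest.Agent.N207.K

variable {M : Type*} {T : TD M} {g : T.V → Fam T} {γ : ℝ}

theorem big_cell (h : T.Ok) {v : T.V} {s : T.S} {x y : E4} (hx : x ∈ T.cK v s) (hy : ‖y‖ ≤ 9 / 8) :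
    x + rad T s x • y ∈ (T.core v).U s := by
  cases s with
  | inl a =>
    obtain ⟨h1, h2⟩ := TD.mem_cK_inl.1 hx
    exact TD.mem_core_inl.2 ⟨h1, (Ga.ball_norm h2 hy).trans_lt (by norm_num)⟩
  | inr w => exact end_cell h hx hy

theorem est_of (h : T.Ok) (hG : GBJ T g) : EST T g := by
  intro k δ hδ hδ1
  obtain ⟨T1, lam, hl, hm, hK⟩ := hG
  obtain ⟨K, hK⟩ := hK (k + 2)
  obtain ⟨C, hC, hP⟩ := psch k lam K δ hl hδ (by linarith)
  refine ⟨T1, 2 / (δ / 2) * C, by positivity, fun v T0 hT w H N S hN hS hw hE s x hx hH hI a b => ?_⟩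
  rw [mul_assoc]
  refine CKA.of_local (by norm_num) (by norm_num) (half_pos hδ) (by linarith) fun y0 hy0 => ?_
  have h0 : ‖y0‖ < 1 := mem_ball_zero_iff.1 hy0
  have h1 : ∀ y ∈ closedBall y0 δ, ‖y‖ < 9 / 8 := fun y hy => by
    linarith [norm_le_of_mem_closedBall hy]
  have h2 : ball y0 δ ⊆ ball (0 : E4) (9 / 8) := fun y hy =>
    mem_ball_zero_iff.2 (h1 y (ball_subset_closedBall hy))
  have hr : 0 < rad T s x := by
    rw [rad_eq]; exact div_pos (scl_pos ((h.core_pou v).sub _ hx)) (by norm_num)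
  refine hP _ (w s) _ x y0 _ N S hr hN hS ((hm v T0 hT).riem s) (hw.sec.sm s) (hw.symm s)
    (fun y hy => big_cell h hx (h1 y hy).le) (fun y hy => (hK v T0 hT s x hx).1 y (h2 hy))
    (fun a b => ((hK v T0 hT s x hx).2 a b).subset h2)
    (fun a b => (hH y0 hy0 a b).congr isOpen_ball fun y hy => by
      rw [hE s _ (big_cell h hx (h1 y (ball_subset_closedBall hy)).le)])
    (fun a b => le_trans (setIntegral_mono_set ?_ (.of_forall fun _ => sq_nonneg _)
      h2.eventuallyLE) (hI a b)) a b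
  have hc : ContinuousOn (fun y => w s (x + rad T s x • y) a b ^ 2) (closedBall 0 (9 / 8)) :=
    ((hw.sec.sm s ![a, b]).continuousOn.comp (f := fun y : E4 => x + rad T s x • y) (by fun_prop)
      fun y hy => big_cell h hx (mem_closedBall_zero_iff.1 hy)).pow 2
  exact (hc.integrableOn_compact (isCompact_closedBall _ _)).mono_set ball_subset_closedBall

/-- **EST** -/
theorem est (h : T.Ok) (hL : T.Lim g γ) (hγ : 0 < γ) : EST T g := est_of h (gbj h hL hγ)

end Crest.Agent.N207.K

end
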