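import Crest.Agent.N207.K.KSt
import Crest.Agent.N207.K.Trf

/-!
# Row 207, block K (helper21): the leaf `FIN`
-/

set_option autoImplicit false

open scoped ContDiff
open Metric Set Filter Topology MeasureTheory
open Crest.GeometryTopology.CoordMetric
open Crest.Agent.NLib.Ell Crest.Agent.N207.I Crest.Agent.N207.CB Crest.Agent.N207.I.TD

noncomputable section

namespace Crest.Agent.N207.K

variable {M : Type*} {T : TD M} {g : T.V → Fam T} {σ : ℝ}

/-- the weight on the cells of depth at most `5` -/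
theorem scl_reg (h0 : 0 < σ) (h1 : σ < 1) {v : T.V} {T0 : ℝ} (hT : 0 ≤ T0) {s : T.S}
    {x : E4} (hx : x ∈ T.cK v s) (hr : (s, x) ∈ Reg T v T0 5) :
    scl T s x ^ (-σ) ≤ Real.exp 5 * Real.exp (σ * T0) := by
  have o : (1 : ℝ) ≤ Real.exp 5 * Real.exp (σ * T0) :=
    one_le_mul_of_one_le_of_one_le (Real.one_le_exp (by norm_num)) (Real.one_le_exp (by positivity))
  rcases s with a | u
  · simpa [scl] using o
  by_cases hu : u = v
  · subst hu
    exact (Real.rpow_le_one_of_one_le_of_nonpos (by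
      simp only [scl, Sum.elim_inr]; linarith [mem_cK_out.1 hx]) (by linarith)).trans o
  · have h2 := hr u rfl
    simp only [tau, hu, if_false] at h2
    simp only [scl, Sum.elim_inr]
    rw [Real.rpow_def_of_pos ((mem_cK_inn hu).1 hx).2.1, ← Real.exp_add, Real.exp_le_exp]
    nlinarith

theorem fin (h : T.Ok) (h0 : 0 < σ) (h1 : σ < 1) (hE : EST T g) : FIN T g σ := by
  intro κ _ v ψ T1 k hψ hV
  obtain ⟨Ct, δ, hCt, hδ, hδ8, ht⟩ := trf T h k 2
  choose P hP0 hP using fun j => psb T h k 2 v T1 (ψ j) (hψ j) (hV j)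
  obtain ⟨T2, Ce, hCe, he⟩ := hE k δ hδ hδ8
  have hQ : 0 ≤ ∑ j, P j := Finset.sum_nonneg fun j _ => hP0 j
  refine ⟨max T2 0, Ce * (Ct + Ct * ∑ j, P j + Real.exp 5), by positivity,
    fun T0 hT w F μ N S hN hS hw hF hF0 hFN hμ hq hL => ?_⟩
  have hs : ∀ s, ∀ x ∈ T.cK v s, 0 ≤ scl T s x ^ (-σ) := fun s x hx =>
    Real.rpow_nonneg (scl_pos ((h.core_pou v).sub s hx)).le _
  have E := fun N' (hN' : 0 ≤ N') s x (hx : x ∈ T.cK v s) hH =>
    he v T0 (le_of_max_le_left hT) w (fun s x => F s x + ∑ j, μ j • ψ j s x) N'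
      (S * scl T s x ^ (-σ)) hN' (mul_nonneg hS (hs s x hx)) hw hq s x hx hH (hL s x hx)
  have A : ∀ s, ∀ x ∈ T.cK v s, ∀ a b, CKA (1 / 2) B1 (k + 2)
      (Ce * (Ct * N + Ct * (∑ j, P j) * S + S * scl T s x ^ (-σ)))
      fun y => w s (x + rad T s x • y) a b := fun s x hx =>
    E _ (by positivity) s x hx fun y0 hy0 a b => by
      refine (((ht v F N hF hFN s x hx y0 hy0 a b).add isOpen_ball (CKA.sum isOpen_ball
        Finset.univ fun j _ => (ht v (ψ j) (P j) (hψ j) (hP j) s x hx y0 hy0 a b).const_mul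
          isOpen_ball (μ j))).congr isOpen_ball fun y _ => ?_).mono ?_
      · simp only [Matrix.add_apply, Matrix.sum_apply, Matrix.smul_apply, smul_eq_mul, mul_add,
          Finset.mul_sum, mul_left_comm]
      · rw [Finset.mul_sum, Finset.sum_mul]
        refine add_le_add le_rfl (Finset.sum_le_sum fun j _ => ?_)
        rw [mul_comm]
        exact mul_le_mul_of_nonneg_left ((norm_le_pi_norm μ j).trans hμ)
          (mul_nonneg hCt.le (hP0 j))
  have c0 : ∀ {s x a b K}, (CKA (1 / 2) B1 (k + 2) K fun y => w s (x + rad T s x • y) a b) →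
      |w s x a b| ≤ K := fun hK => by simpa using hK.bdd (mem_ball_self one_pos)
  refine ⟨?_, fun s x hx hr a b => ?_⟩
  · set R := 2 * (Real.exp (T0 + 4) + Real.exp T1 + 1) with hR
    have e1 := Real.exp_pos (T0 + 4)
    have e2 := Real.exp_pos T1
    have hR1 : 1 ≤ R ^ σ := Real.one_le_rpow (by linarith) h0.le
    have hN' : 0 ≤ Ct * N + Ct * (∑ j, P j) * S := by positivity
    refine ⟨Ce * ((Ct * N + Ct * (∑ j, P j) * S) * R ^ σ + S), fun u x hx a b => ?_⟩
    have hx0 : 0 < ‖x‖ := scl_pos ((h.core_pou v).sub _ hx)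
    have p0 := Real.rpow_pos_of_pos hx0 (-σ)
    rcases le_total ‖x‖ R with h2 | h2
    · refine (c0 (A _ x hx a b)).trans ?_
      have h3 : 1 ≤ R ^ σ * ‖x‖ ^ (-σ) := by
        rw [Real.rpow_neg hx0.le, ← div_eq_mul_inv, one_le_div (Real.rpow_pos_of_pos hx0 σ)]
        exact Real.rpow_le_rpow hx0.le h2 h0.le
      rw [mul_assoc Ce, add_mul _ S, mul_assoc _ (R ^ σ)]
      exact mul_le_mul_of_nonneg_left
        (add_le_add (le_mul_of_one_le_right hN' h3) le_rfl) hCe.le
    · obtain rfl : u = v := by_contra fun hu => by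
        linarith [((mem_cK_inn hu).1 hx).2.2, h.r_lt]
      refine (c0 (E 0 le_rfl _ x hx (fun y0 hy0 a b => CKA.zero.congr isOpen_ball
        fun y hy => ?_) a b)).trans ?_
      · have n1 : ‖y‖ ≤ 2 := by
          have := norm_add_le (y - y0) y0
          rw [sub_add_cancel] at this
          linarith [mem_ball_iff_norm.1 hy, mem_ball_zero_iff.1 hy0]
        have n2 : R / 2 ≤ ‖x + rad T (Sum.inr u) x • y‖ := by
          have := norm_sub_le (x + rad T (Sum.inr u) x • y) (rad T (Sum.inr u) x • y)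
          rw [add_sub_cancel_right, norm_smul] at this
          simp only [rad, Sum.elim_inr, Real.norm_of_nonneg (by positivity : 0 ≤ ‖x‖ / 8)] at this ⊢
          nlinarith
        generalize x + rad T (Sum.inr u) x • y = z at n2
        have z1 : 1 < ‖z‖ := by linarith
        have l1 : T0 + 4 ≤ Real.log ‖z‖ := (Real.le_log_iff_exp_le (by linarith)).2 (by linarith)
        have l2 : T1 ≤ Real.log ‖z‖ := (Real.le_log_iff_exp_le (by linarith)).2 (by linarith)
        rw [hF0 u z (mem_core_out.2 z1) (by simp only [tau, if_true]; linarith),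
          Finset.sum_eq_zero fun j _ => by
            rw [hV j u z (mem_core_out.2 z1) (by simp only [tau, if_true]; linarith), smul_zero]]
        simp
      · rw [zero_add, mul_assoc]
        exact mul_le_mul_of_nonneg_left (mul_le_mul_of_nonneg_right
          (le_add_of_nonneg_left (by positivity)) p0.le) hCe.le
  · refine ((A s x hx a b).congr isOpen_ball fun y _ => by rw [pow_zero, one_mul]).mono ?_
    have hT0 : 0 ≤ T0 := le_of_max_le_right hT
    have h2 := mul_le_mul_of_nonneg_left (scl_reg h0 h1 hT0 hx hr) hS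
    have h3 : S ≤ S * Real.exp (σ * T0) := le_mul_of_one_le_right hS (Real.one_le_exp (by positivity))
    have h4 := mul_le_mul_of_nonneg_left h3 (mul_nonneg hCt.le hQ)
    have e5 := Real.exp_pos 5
    rw [mul_left_comm] at h2
    rw [mul_assoc Ce]
    refine mul_le_mul_of_nonneg_left ?_ hCe.le
    generalize S * Real.exp (σ * T0) = Z at *
    have hZ : 0 ≤ Z := hS.trans h3
    nlinarith [mul_nonneg hCt.le hZ, mul_nonneg (mul_nonneg hCt.le hQ) hN, mul_nonneg e5.le hN]

end Crest.Agent.N207.K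

end
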