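import Crest.Agent.N207.K.Hd1

/-!
# Row 207, block K (helper5): Hardy inequalities on necks, constants independent of the length
-/

set_option autoImplicit false
open MeasureTheory Set Filter Topology Metric
open scoped ContDiff
open Crest.GeometryTopology.CoordMetric

noncomputable section

namespace Crest.Agent.N207.Hd

variable {U : Set E4} {u : E4 → ℝ} {a c : ℝ}

/-- a smooth step from `0` (`s ≤ 1`) to `1` (`κ² ≤ s`) -/
structure Step (κ C : ℝ) (S : ℝ → ℝ) : Prop where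
  sm : ContDiff ℝ ∞ S
  nn : ∀ s, 0 ≤ S s
  le : ∀ s, S s ≤ 1
  zero : ∀ s, s ≤ 1 → S s = 0
  one : ∀ s, κ ^ 2 ≤ s → S s = 1
  d0 : ∀ s, 0 ≤ deriv S s
  dle : ∀ s, s * deriv S s ≤ C
  dz : ∀ s, s < 1 → deriv S s = 0
  dz' : ∀ s, κ ^ 2 < s → deriv S s = 0

theorem exists_step {κ : ℝ} (hκ : 1 < κ) : ∃ C, 0 ≤ C ∧ ∃ S, Step κ C S := by
  have hk : 0 < κ ^ 2 - 1 := by nlinarith
  set S : ℝ → ℝ := fun s => Real.smoothTransition ((s - 1) / (κ ^ 2 - 1)) with hS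
  have sm : ContDiff ℝ ∞ S :=
    Real.smoothTransition.contDiff.comp ((contDiff_id.sub contDiff_const).div_const _)
  have zero : ∀ s, s ≤ 1 → S s = 0 := fun s hs =>
    Real.smoothTransition.zero_of_nonpos (div_nonpos_of_nonpos_of_nonneg (by linarith) hk.le)
  have one : ∀ s, κ ^ 2 ≤ s → S s = 1 := fun s hs =>
    Real.smoothTransition.one_of_one_le ((one_le_div hk).2 (by linarith))
  have mono : Monotone S := fun s t h =>
    Real.smoothTransition.monotone (div_le_div_of_nonneg_right (by linarith) hk.le)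
  have dz : ∀ s, s < 1 → deriv S s = 0 := fun s hs => by
    have : S =ᶠ[𝓝 s] fun _ => 0 := by
      filter_upwards [Iio_mem_nhds hs] with t ht using zero t (le_of_lt ht)
    rw [this.deriv_eq, deriv_const]
  have dz' : ∀ s, κ ^ 2 < s → deriv S s = 0 := fun s hs => by
    have : S =ᶠ[𝓝 s] fun _ => 1 := by
      filter_upwards [Ioi_mem_nhds hs] with t ht using one t (le_of_lt ht)
    rw [this.deriv_eq, deriv_const]
  have cd : Continuous fun s => s * deriv S s := continuous_id.mul (sm.continuous_deriv (by simp))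
  obtain ⟨C, hC⟩ := (isCompact_Icc (a := (1 : ℝ)) (b := κ ^ 2)).exists_bound_of_continuousOn
    cd.continuousOn
  have h0 : 0 ≤ C := (norm_nonneg _).trans (hC 1 ⟨le_rfl, by linarith⟩)
  refine ⟨C, h0, S, sm, fun _ => Real.smoothTransition.nonneg _,
    fun _ => Real.smoothTransition.le_one _, zero, one, fun s => mono.deriv_nonneg, fun s => ?_,
    dz, dz'⟩
  by_cases h1 : s < 1
  · rw [dz s h1, mul_zero]; exact h0
  by_cases h2 : κ ^ 2 < s
  · rw [dz' s h2, mul_zero]; exact h0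
  exact (le_abs_self _).trans (hC s ⟨not_lt.1 h1, not_lt.1 h2⟩)

theorem Step.hasDeriv {κ C : ℝ} {S : ℝ → ℝ} (h : Step κ C S) (t s : ℝ) :
    HasDerivAt (fun s => S (t * s)) (deriv S (t * s) * t) s := by
  have := ((h.sm.differentiable (by simp) (t * s)).hasDerivAt).comp s
    ((hasDerivAt_id s).const_mul t)
  simpa [Function.comp_def] using this

theorem contOn_wt (ha : 0 < a) (p : ℝ) : ContinuousOn (fun x : E4 => (‖x‖ ^ 2) ^ p) (An a c) :=
  contOn_rad (φ := fun s => s ^ p) (fun s hs =>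
    (Real.continuousAt_rpow_const s p (Or.inl (ne_of_gt hs))).continuousWithinAt) ha

theorem int_ind {f : E4 → ℝ} {S T : Set E4} (hS : MeasurableSet S) (h : S ⊆ T) :
    ∫ x in T, S.indicator f x = ∫ x in S, f x := by
  rw [setIntegral_indicator hS, inter_eq_right.2 h]

/-- Hardy on a neck: the error lives on the outer collar if `-1 ≤ σ`, on the inner one if
`σ ≤ -1` -/
theorem hardy_neck {κ : ℝ} (hκ : 1 < κ) : ∃ C : ℝ, 0 ≤ C ∧ ∀ (U : Set E4) (u : E4 → ℝ) (a c σ : ℝ),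
    IsOpen U → ContDiffOn ℝ 1 u U → 0 < a → κ * a ≤ c → An a c ⊆ U →
    (1 + σ) ^ 2 * ∫ x in An (κ * a) (c / κ), (‖x‖ ^ 2) ^ (σ - 1) * u x ^ 2 ≤
      (∫ x in An a c, (‖x‖ ^ 2) ^ (σ - 1) * dr u x ^ 2) + C * |1 + σ| *
        ∫ x in (if -1 ≤ σ then An (c / κ) c else An a (κ * a)), (‖x‖ ^ 2) ^ (σ - 1) * u x ^ 2 := by
  obtain ⟨C, hC, S, h⟩ := exists_step hκ
  refine ⟨2 * C, by positivity, fun U u a c σ hU hu ha hac hsub => ?_⟩
  have hκ0 : 0 < κ := by linarith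
  have hc : 0 < c := lt_of_lt_of_le (by positivity) hac
  set t1 : ℝ := (a ^ 2)⁻¹ with ht1
  set t2 : ℝ := κ ^ 2 * (c ^ 2)⁻¹ with ht2
  have t1p : 0 < t1 := by positivity
  have t2p : 0 < t2 := by positivity
  set β : ℝ → ℝ := fun s => S (t1 * s) * (1 - S (t2 * s)) with hβ
  have sβ : ContDiff ℝ 1 β := by
    have := h.sm.of_le (m := 1) (by simp)
    exact (this.comp (contDiff_const.mul contDiff_id)).mul
      (contDiff_const.sub (this.comp (contDiff_const.mul contDiff_id)))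
  have dβ : ∀ s, deriv β s = deriv S (t1 * s) * t1 * (1 - S (t2 * s))
      + S (t1 * s) * -(deriv S (t2 * s) * t2) := fun s =>
    ((h.hasDeriv t1 s).mul ((h.hasDeriv t2 s).const_sub 1)).deriv
  have k1 : ∀ r : ℝ, 0 ≤ r → r ≤ a → t1 * r ^ 2 ≤ 1 := fun r h0 h1 => by
    rw [ht1, inv_mul_le_iff₀ (by positivity), mul_one]; exact pow_le_pow_left₀ h0 h1 2
  have k2 : ∀ r : ℝ, κ * a ≤ r → κ ^ 2 ≤ t1 * r ^ 2 := fun r h1 => by
    rw [ht1, le_inv_mul_iff₀ (by positivity), mul_comm, ← mul_pow]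
    exact pow_le_pow_left₀ (by positivity) h1 2
  have k2' : ∀ r : ℝ, κ * a < r → κ ^ 2 < t1 * r ^ 2 := fun r h1 => by
    rw [ht1, lt_inv_mul_iff₀ (by positivity), mul_comm, ← mul_pow]
    exact pow_lt_pow_left₀ h1 (by positivity) two_ne_zero
  have e2 : ∀ r : ℝ, t2 * r ^ 2 = (κ * r / c) ^ 2 := fun r => by rw [ht2]; field_simp
  have k3 : ∀ r : ℝ, 0 ≤ r → r ≤ c / κ → t2 * r ^ 2 ≤ 1 := fun r h0 h1 => by
    rw [e2]
    refine pow_le_one₀ (by positivity) ((div_le_one hc).2 ?_)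
    rwa [le_div_iff₀ hκ0, mul_comm] at h1
  have k3' : ∀ r : ℝ, 0 ≤ r → r < c / κ → t2 * r ^ 2 < 1 := fun r h0 h1 => by
    rw [e2]
    refine pow_lt_one₀ (by positivity) ((div_lt_one hc).2 ?_) two_ne_zero
    rwa [lt_div_iff₀ hκ0, mul_comm] at h1
  have k4 : ∀ r : ℝ, c ≤ r → κ ^ 2 ≤ t2 * r ^ 2 := fun r h1 => by
    rw [e2]
    refine pow_le_pow_left₀ hκ0.le ?_ 2
    rw [le_div_iff₀ hc]; exact mul_le_mul_of_nonneg_left h1 hκ0.le
  have h1 := hardy_pow hU hu ha hsub σ sβ fun x _ _ hx => by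
    by_cases h2 : a ≤ ‖x‖
    · have h3 : c ≤ ‖x‖ := le_of_not_ge fun h3 => hx ⟨h2, h3⟩
      simp only [hβ, h.one _ (k4 _ h3), sub_self, mul_zero, zero_mul]
    · simp only [hβ, h.zero _ (k1 _ (norm_nonneg x) (le_of_not_ge h2)), zero_mul]
  set A2 : Set E4 := if -1 ≤ σ then An (c / κ) c else An a (κ * a) with hA2
  have hac' : a ≤ c / κ := by rw [le_div_iff₀ hκ0, mul_comm]; exact hac
  have s1 : An (κ * a) (c / κ) ⊆ An a c := An_mono (by nlinarith) (div_le_self hc.le hκ.le)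
  have s2 : A2 ⊆ An a c := by
    rw [hA2]; split_ifs
    exacts [An_mono hac' le_rfl, An_mono le_rfl hac]
  have m2 : MeasurableSet A2 := by
    rw [hA2]; split_ifs <;> exact measurableSet_An _ _
  set F : E4 → ℝ := fun x => (‖x‖ ^ 2) ^ (σ - 1) * u x ^ 2 with hF
  have cu : ContinuousOn u (An a c) := hu.continuousOn.mono hsub
  have iF : IntegrableOn F (An a c) :=
    ((contOn_wt ha _).mul (cu.pow 2)).integrableOn_compact (isCompact_An a c)
  rw [← int_ind (measurableSet_An _ _) s1, ← int_ind m2 s2, ← sub_le_iff_le_add,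
    ← integral_const_mul, ← integral_const_mul, ← integral_sub
      ((iF.indicator (measurableSet_An _ _)).const_mul _) ((iF.indicator m2).const_mul _)]
  refine le_trans (setIntegral_mono_on (((iF.indicator (measurableSet_An _ _)).const_mul _).sub
    ((iF.indicator m2).const_mul _)) ?_ (measurableSet_An a c) fun x hx => ?_) h1
  · have cn : ContinuousOn (fun x : E4 => ‖x‖ ^ 2) (An a c) := (continuous_norm.pow 2).continuousOn
    have c1 := contOn_rad (c := c) sβ.continuous.continuousOn ha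
    have c2 := contOn_rad (c := c) (sβ.continuous_deriv le_rfl).continuousOn ha
    exact (((contOn_wt ha _).mul ((continuousOn_const.mul ((continuousOn_const.mul c1).sub
      (c1.pow 2))).add (continuousOn_const.mul (cn.mul c2)))).mul
      (cu.pow 2)).integrableOn_compact (isCompact_An a c)
  have F0 : 0 ≤ F x := mul_nonneg (Real.rpow_nonneg (sq_nonneg _) _) (sq_nonneg _)
  have b0 : 0 ≤ β (‖x‖ ^ 2) := mul_nonneg (h.nn _) (sub_nonneg.2 (h.le _))
  have b1 : β (‖x‖ ^ 2) ≤ 1 := mul_le_one₀ (h.le _) (sub_nonneg.2 (h.le _)) (by linarith [h.nn (t2 * ‖x‖ ^ 2)])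
  have p1 : (An (κ * a) (c / κ)).indicator F x ≤ (2 * β (‖x‖ ^ 2) - β (‖x‖ ^ 2) ^ 2) * F x := by
    by_cases h2 : x ∈ An (κ * a) (c / κ)
    · rw [indicator_of_mem h2]
      simp only [hβ, h.one _ (k2 _ h2.1), h.zero _ (k3 _ (norm_nonneg x) h2.2)]
      norm_num
    · rw [indicator_of_notMem h2]
      exact mul_nonneg (by nlinarith) F0
  set d1 := t1 * ‖x‖ ^ 2 * deriv S (t1 * ‖x‖ ^ 2) with hd1
  set d2 := t2 * ‖x‖ ^ 2 * deriv S (t2 * ‖x‖ ^ 2) with hd2
  have d10 : 0 ≤ d1 := mul_nonneg (by positivity) (h.d0 _)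
  have d20 : 0 ≤ d2 := mul_nonneg (by positivity) (h.d0 _)
  have d1C : d1 ≤ C := h.dle _
  have d2C : d2 ≤ C := h.dle _
  have eβ : ‖x‖ ^ 2 * deriv β (‖x‖ ^ 2) =
      d1 * (1 - S (t2 * ‖x‖ ^ 2)) - S (t1 * ‖x‖ ^ 2) * d2 := by rw [dβ, hd1, hd2]; ring
  have q1 : 0 ≤ d1 * (1 - S (t2 * ‖x‖ ^ 2)) := mul_nonneg d10 (sub_nonneg.2 (h.le _))
  have q2 : 0 ≤ S (t1 * ‖x‖ ^ 2) * d2 := mul_nonneg (h.nn _) d20
  have q3 : d1 * (1 - S (t2 * ‖x‖ ^ 2)) ≤ d1 :=
    mul_le_of_le_one_right d10 (by linarith [h.nn (t2 * ‖x‖ ^ 2)])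
  have q4 : S (t1 * ‖x‖ ^ 2) * d2 ≤ d2 := mul_le_of_le_one_left d20 (h.le _)
  have p2 : -(C * |1 + σ| * A2.indicator F x) ≤
      (1 + σ) * (‖x‖ ^ 2 * deriv β (‖x‖ ^ 2)) * F x := by
    rw [eβ, hA2]
    split_ifs with hσ
    · rw [abs_of_nonneg (by linarith)]
      have hσ' : 0 ≤ (1 + σ) * F x := mul_nonneg (by linarith) F0
      by_cases h2 : x ∈ An (c / κ) c
      · rw [indicator_of_mem h2]; nlinarith
      · have h3 : ‖x‖ < c / κ := lt_of_not_ge fun h3 => h2 ⟨h3, hx.2⟩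
        have : d2 = 0 := by rw [hd2, h.dz _ (k3' _ (norm_nonneg x) h3), mul_zero]
        rw [indicator_of_notMem h2, this]; nlinarith
    · rw [abs_of_nonpos (by linarith)]
      have hσ' : 0 ≤ -(1 + σ) * F x := mul_nonneg (by linarith) F0
      by_cases h2 : x ∈ An a (κ * a)
      · rw [indicator_of_mem h2]; nlinarith
      · have h3 : κ * a < ‖x‖ := lt_of_not_ge fun h3 => h2 ⟨hx.1, h3⟩
        have : d1 = 0 := by rw [hd1, h.dz' _ (k2' _ h3), mul_zero]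
        rw [indicator_of_notMem h2, this]; nlinarith
  have p3 := mul_le_mul_of_nonneg_left p1 (sq_nonneg (1 + σ))
  simp only [hF] at p2 p3 ⊢
  nlinarith

theorem int_dr_le (hU : IsOpen U) (hu : ContDiffOn ℝ 1 u U) (ha : 0 < a) (hsub : An a c ⊆ U)
    (σ : ℝ) : ∫ x in An a c, (‖x‖ ^ 2) ^ (σ - 1) * dr u x ^ 2 ≤
      ∫ x in An a c, (‖x‖ ^ 2) ^ σ * g2 u x := by
  refine setIntegral_mono_on (((contOn_wt ha _).mul
    (((contOn_dr hU hu).mono hsub).pow 2)).integrableOn_compact (isCompact_An a c))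
    (((contOn_wt ha _).mul ((contOn_g2 hU hu).mono hsub)).integrableOn_compact (isCompact_An a c))
    (measurableSet_An a c) fun x hx => ?_
  have hs : 0 < ‖x‖ ^ 2 := pow_pos (pos_of_An ha hx) 2
  calc _ ≤ (‖x‖ ^ 2) ^ (σ - 1) * (‖x‖ ^ 2 * g2 u x) :=
        mul_le_mul_of_nonneg_left (dr_sq_le u x) (Real.rpow_nonneg hs.le _)
    _ = _ := by
        have := (pos_of_An ha hx).ne'
        rw [Real.rpow_sub_one hs.ne']; field_simp

/-- the unweighted form: `∫ u²/|x|² ≤ ∫ |Du|² + C ∫_(outer collar) u²/|x|²` -/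
theorem hardy0 {κ : ℝ} (hκ : 1 < κ) : ∃ C : ℝ, 0 ≤ C ∧ ∀ (U : Set E4) (u : E4 → ℝ) (a c : ℝ),
    IsOpen U → ContDiffOn ℝ 1 u U → 0 < a → κ * a ≤ c → An a c ⊆ U →
    ∫ x in An (κ * a) (c / κ), (‖x‖ ^ 2)⁻¹ * u x ^ 2 ≤
      (∫ x in An a c, g2 u x) + C * ∫ x in An (c / κ) c, (‖x‖ ^ 2)⁻¹ * u x ^ 2 := by
  obtain ⟨C, hC, h⟩ := hardy_neck hκ
  refine ⟨C, hC, fun U u a c hU hu ha hac hsub => ?_⟩
  have h1 := h U u a c 0 hU hu ha hac hsub
  have h2 := int_dr_le hU hu ha hsub 0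
  simp only [add_zero, one_pow, one_mul, zero_sub, Real.rpow_neg_one, abs_one, mul_one,
    Real.rpow_zero, show (-1 : ℝ) ≤ 0 by norm_num, if_true] at h1 h2
  linarith

end Crest.Agent.N207.Hd

end
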