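import Crest.Agent.N207.K.Hd5
import Crest.Agent.N207.I.Cal1

/-!
# Row 207, block K (helper5): Poincaré inequality on a connected atlas
-/

set_option autoImplicit false
open MeasureTheory Set Filter Topology Metric
open scoped ContDiff ENNReal NNReal
open Crest.GeometryTopology.CoordMetric

noncomputable section

namespace Crest.Agent.N207.Hd

open I

variable {X : Type*} {α : Type} {A : Atl X α} {a b : α} {x y : E4} {F : E4 → E4}

theorem L2_tr (h : A.Ok) (t : A.Tr a b x F) {δ' : ℝ} (hδ' : 0 < δ') :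
    ∃ δ > 0, ∃ C : ℝ≥0, ∀ f : α → E4 → ℝ, A.CompF f →
      L2 (f a) (ball x δ) ≤ C * L2 (f b) (ball (F x) δ') := by
  obtain ⟨V, hV, hx, hT, hi⟩ := t.exists_nbhd h
  have hd : (fderiv ℝ F x).det ≠ 0 :=
    (LinearEquiv.ofInjectiveEndo (fderiv ℝ F x : E4 →ₗ[ℝ] E4) (t.inj h)).isUnit_det'.ne_zero
  set c := |(fderiv ℝ F x).det| / 2 with hc
  have c0 : 0 < c := half_pos (abs_pos.2 hd)
  have cd : ContinuousAt (fun z => |(fderiv ℝ F z).det|) x :=
    (ContinuousLinearMap.continuous_det.continuousAt.comp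
      (t.cda.continuousAt_fderiv (by simp))).abs
  have e : ∀ᶠ z in 𝓝 x, z ∈ V ∧ c < |(fderiv ℝ F z).det| ∧ F z ∈ ball (F x) δ' :=
    (hV.eventually_mem hx).and ((cd.eventually (lt_mem_nhds (half_lt_self (abs_pos.2 hd)))).and
      (t.cont.eventually (ball_mem_nhds _ hδ')))
  obtain ⟨δ, hδ, hb⟩ := Metric.eventually_nhds_iff_ball.1 e
  refine ⟨δ, hδ, ⟨c⁻¹, (inv_pos.2 c0).le⟩, fun f hf => ?_⟩
  have h1 := lintegral_image_eq_lintegral_abs_det_fderiv_mul volume (measurableSet_ball (x := x)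
    (ε := δ)) (fun z hz => (hT z (hb z hz).1).diff.hasFDerivAt.hasFDerivWithinAt)
    (hi.mono fun z hz => (hb z hz).1) fun y => ENNReal.ofReal (f b y ^ 2)
  refine le_trans ?_ (mul_le_mul_right (L2_mono (S := F '' ball x δ) ?_) _)
  · rw [L2, L2, h1, ← lintegral_const_mul' _ _ ENNReal.coe_ne_top]
    refine setLIntegral_mono' measurableSet_ball fun z hz => ?_
    rw [hf.tr (hT z (hb z hz).1), ENNReal.coe_nnreal_eq, ← mul_assoc,
      ← ENNReal.ofReal_mul (NNReal.coe_nonneg _)]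
    refine le_mul_of_one_le_left zero_le (ENNReal.one_le_ofReal.2 ?_)
    exact (le_inv_mul_iff₀ c0).2 (by linarith [(hb z hz).2.1])
  · rintro _ ⟨z, hz, rfl⟩; exact (hb z hz).2.2

variable [Fintype α]

/-- compact subsets of the chart domains -/
def CK (A : Atl X α) (K : α → Set E4) : Prop := ∀ s, IsCompact (K s) ∧ K s ⊆ A.U s

/-- compatible `C¹` families -/
def Adm (A : Atl X α) (f : α → E4 → ℝ) : Prop :=
  (∀ s, ContDiffOn ℝ 1 (f s) (A.U s)) ∧ A.CompF f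

/-- the functional `Φ` is bounded by the Dirichlet energy on compact sets and `Z` -/
def Bnd (A : Atl X α) (Z Φ : (α → E4 → ℝ) → ℝ≥0∞) : Prop :=
  ∃ K, CK A K ∧ ∃ C : ℝ≥0, ∀ f, Adm A f → Φ f ≤ C * (∑ s, DD (f s) (K s) + Z f)

variable {Z Φ Ψ : (α → E4 → ℝ) → ℝ≥0∞}

theorem Bnd.mono (h : Bnd A Z Ψ) (e : ∀ f, Adm A f → Φ f ≤ Ψ f) : Bnd A Z Φ :=
  let ⟨K, hK, C, hC⟩ := h
  ⟨K, hK, C, fun f hf => (e f hf).trans (hC f hf)⟩

theorem Bnd.add (h : Bnd A Z Φ) (h' : Bnd A Z Ψ) : Bnd A Z fun f => Φ f + Ψ f := by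
  obtain ⟨K, hK, C, hC⟩ := h
  obtain ⟨K', hK', C', hC'⟩ := h'
  refine ⟨fun s => K s ∪ K' s, fun s => ⟨(hK s).1.union (hK' s).1,
    union_subset (hK s).2 (hK' s).2⟩, C + C', fun f hf => ?_⟩
  rw [ENNReal.coe_add, add_mul]
  refine add_le_add ((hC f hf).trans ?_) ((hC' f hf).trans ?_)
  · gcongr with s; exact DD_mono subset_union_left
  · gcongr with s; exact DD_mono subset_union_right

theorem Bnd.mul (h : Bnd A Z Φ) (c : ℝ≥0) : Bnd A Z fun f => c * Φ f := by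
  obtain ⟨K, hK, C, hC⟩ := h
  refine ⟨K, hK, c * C, fun f hf => ?_⟩
  rw [ENNReal.coe_mul, mul_assoc]
  exact mul_le_mul_right (hC f hf) _

theorem bnd_self : Bnd A Z Z :=
  ⟨fun _ => ∅, fun _ => ⟨isCompact_empty, empty_subset _⟩, 1, fun f _ => by simp⟩

theorem bnd_zero : Bnd A Z fun _ => 0 := bnd_self.mono fun _ _ => zero_le

theorem bnd_DD {K : Set E4} (hK : IsCompact K) (hU : K ⊆ A.U a) :
    Bnd A Z fun f => DD (f a) K := by
  classical
  refine ⟨fun s => if s = a then K else ∅, fun s => ?_, 1, fun f _ => ?_⟩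
  · by_cases hs : s = a
    · subst hs; simp [hK, hU]
    · simp [hs]
  · rw [ENNReal.coe_one, one_mul]
    refine le_add_right (le_trans ?_ (Finset.single_le_sum
      (f := fun s => DD (f s) (if s = a then K else ∅)) (fun _ _ => zero_le) (Finset.mem_univ a)))
    simp

theorem bnd_sum {ι : Type*} {Φ : ι → (α → E4 → ℝ) → ℝ≥0∞} (t : Finset ι)
    (h : ∀ i ∈ t, Bnd A Z (Φ i)) : Bnd A Z fun f => ∑ i ∈ t, Φ i f := by
  classical
  induction t using Finset.induction_on with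
  | empty => simpa using bnd_zero
  | insert i t hi ih =>
    simp only [Finset.sum_insert hi]
    exact (h i (Finset.mem_insert_self _ _)).add (ih fun j hj => h j (Finset.mem_insert_of_mem hj))

/-- controlled points -/
def Ctl (A : Atl X α) (Z : (α → E4 → ℝ) → ℝ≥0∞) (a : α) (x : E4) : Prop :=
  ∃ δ > 0, Bnd A Z fun f => L2 (f a) (ball x δ)

theorem Ctl.tr (h : A.Ok) (hx : x ∈ A.U a) (hy : y ∈ A.U b) (e : A.c a x = A.c b y)
    (hc : Ctl A Z b y) : Ctl A Z a x := by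
  obtain ⟨F, t, rfl⟩ := h.loc a b x hx y hy e
  obtain ⟨δ', hδ', hb⟩ := hc
  obtain ⟨δ, hδ, C, hC⟩ := L2_tr h t hδ'
  exact ⟨δ, hδ, (hb.mul C).mono fun f hf => hC f hf.2⟩

theorem ctl_of_ball {δ : ℝ} (hb : Bnd A Z fun f => L2 (f a) (ball y δ)) (hx : x ∈ ball y δ) :
    Ctl A Z a x := by
  obtain ⟨ε, hε, hs⟩ := Metric.isOpen_iff.1 isOpen_ball x hx
  exact ⟨ε, hε, hb.mono fun f _ => L2_mono hs⟩

theorem Ctl.ball (h : A.Ok) (hc : Ctl A Z a y) {ρ : ℝ} (hρ : 0 < ρ)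
    (hU : closedBall y (2 * ρ) ⊆ A.U a) : Bnd A Z fun f => L2 (f a) (ball y ρ) := by
  obtain ⟨δ, hδ, hb⟩ := hc
  obtain ⟨C, hC⟩ := ball_poinc (lt_min hδ hρ) (min_le_right δ ρ)
  refine (((bnd_DD (isCompact_closedBall y _) hU).add hb).mul C).mono fun f hf => ?_
  refine (hC _ _ y (h.isOpen a) (hf.1 a) hU).trans ?_
  gcongr
  exact L2_mono (ball_subset_ball (min_le_left _ _))

theorem ctl_all (h : A.Ok) (hc : A.Conn) {a₀ : α} {x₀ : E4} (h₀ : x₀ ∈ A.U a₀)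
    (hz : Ctl A Z a₀ x₀) (hx : x ∈ A.U a) : Ctl A Z a x := by
  set S : Set X := {p | ∃ a, ∃ x ∈ A.U a, A.c a x = p ∧ Ctl A Z a x} with hS
  have key : ∀ b, ∀ y ∈ A.U b, A.c b y ∈ S → Ctl A Z b y := by
    rintro b y hy ⟨a, x, hx, e, hc⟩
    exact hc.tr h hy hx e.symm
  have c1 : A.Cl S := fun b y hy hn => by
    obtain ⟨ε, hε, hs⟩ := Metric.nhds_basis_closedBall.mem_iff.1 ((h.isOpen b).mem_nhds hy)
    filter_upwards [ball_mem_nhds y (show 0 < ε / 3 by positivity)] with z hz hzS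
    have s1 : closedBall z (2 * (ε / 3)) ⊆ closedBall y ε :=
      closedBall_subset_closedBall' (by linarith [mem_ball.1 hz])
    have hzU : z ∈ A.U b := hs (s1 (mem_closedBall_self (by positivity)))
    exact hn ⟨b, y, hy, rfl, ctl_of_ball ((key b z hzU hzS).ball h (by positivity) (s1.trans hs))
      (mem_ball_comm.1 hz)⟩
  have c2 : A.Cl Sᶜ := fun b y hy hn => by
    obtain ⟨δ, hδ, hb⟩ := key b y hy (not_not.1 hn)
    filter_upwards [ball_mem_nhds y hδ, (h.isOpen b).mem_nhds hy] with z hz hzU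
    exact not_not.2 ⟨b, z, hzU, rfl, ctl_of_ball hb hz⟩
  rcases hc S c1 c2 with h1 | h1
  · exact key a x hx (h1 a x hx)
  · exact absurd ⟨a₀, x₀, h₀, rfl, hz⟩ (h1 a₀ x₀ h₀)

theorem bnd_cpt {K : Set E4} (hK : IsCompact K) (hc : ∀ x ∈ K, Ctl A Z a x) :
    Bnd A Z fun f => L2 (f a) K := by
  refine hK.induction_on (p := fun S => Bnd A Z fun f => L2 (f a) S) ?_ ?_ ?_ ?_
  · simpa [L2] using bnd_zero
  · exact fun S T hST hT => hT.mono fun f _ => L2_mono hST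
  · exact fun S T hS hT => (hS.add hT).mono fun f _ => L2_union S T
  · intro x hx
    obtain ⟨δ, hδ, hb⟩ := hc x hx
    exact ⟨_, mem_nhdsWithin_of_mem_nhds (ball_mem_nhds x hδ), hb⟩

/-- **Poincaré inequality on a connected atlas** -/
theorem atl_poinc (h : A.Ok) (hc : A.Conn) {a₀ : α} {x₀ : E4} (h₀ : x₀ ∈ A.U a₀) {δ : ℝ}
    (hδ : 0 < δ) {K : α → Set E4} (hK : CK A K) : ∃ K', CK A K' ∧ ∃ C : ℝ≥0, ∀ f, Adm A f →
      ∑ s, L2 (f s) (K s) ≤ C * (∑ s, DD (f s) (K' s) + L2 (f a₀) (ball x₀ δ)) :=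
  bnd_sum (Z := fun f => L2 (f a₀) (ball x₀ δ)) _ fun s _ =>
    bnd_cpt (hK s).1 fun _ hx => ctl_all h hc h₀ ⟨δ, hδ, bnd_self⟩ ((hK s).2 hx)

end Crest.Agent.N207.Hd

end
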