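import Crest.Agent.N207.K.Hd6
import Crest.Agent.N207.I.Car3

/-!
# Row 207, block K (helper5): the Hardy inequality on `glob L`, uniform in `L` (scalar, flat form)
-/

set_option autoImplicit false
open MeasureTheory Set Filter Topology Metric
open scoped ContDiff ENNReal NNReal
open Crest.GeometryTopology.CoordMetric

noncomputable section

namespace Crest.Agent.N207.Hd

open I I.TD

theorem rs_ok {X : Type*} {α : Type} {A : Atl X α} (h : A.Ok) {U' : α → Set E4}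
    (ho : ∀ a, IsOpen (U' a)) (hs : ∀ a, U' a ⊆ A.U a)
    (hi : ∀ a, ∀ γ ∈ A.Γ a, ∀ x ∈ U' a, γ x ∈ U' a) : (⟨A.c, U', A.Γ⟩ : Atl X α).Ok := by
  refine ⟨ho, h.fin, hi, fun a γ hγ x hx => h.free a γ hγ x (hs a hx),
    fun a x hx y hy => h.fib a x (hs a hx) y (hs a hy), fun a b x hx y hy e => ?_,
    fun a b x hx y hy => h.t2 a b x (hs a hx) y (hs b hy)⟩
  obtain ⟨F, t, rfl⟩ := h.loc a b x (hs a hx) y (hs b hy) e
  exact ⟨F, ⟨hx, hy, t.sm, t.eq⟩, rfl⟩

theorem rs_conn {X : Type*} {α : Type} {A : Atl X α} (h : A.Ok) (hc : A.Conn) {U' : α → Set E4}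
    (hs : ∀ a, U' a ⊆ A.U a) (hv : ∀ b, ∀ y ∈ A.U b, ∃ a, ∃ x ∈ U' a, A.c a x = A.c b y) :
    (⟨A.c, U', A.Γ⟩ : Atl X α).Conn := by
  have k : ∀ S, (⟨A.c, U', A.Γ⟩ : Atl X α).Cl S → A.Cl S := fun S hS b y hy hn => by
    obtain ⟨a, x, hx, e⟩ := hv b y hy
    obtain ⟨F, t, rfl⟩ := h.loc b a y hy x (hs a hx) e.symm
    filter_upwards [t.cont.eventually (hS a _ hx (fun h => hn (e ▸ h))), t.eq] with z h1 h2
    exact h2 ▸ h1
  intro S h1 h2
  rcases hc S (k S h1) (k _ h2) with h3 | h3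
  exacts [Or.inl fun a x hx => h3 a x (hs a hx), Or.inr fun a x hx => h3 a x (hs a hx)]

variable {M : Type*} (T : TD M)

/-- `base v` with smaller balls -/
def bs (v : T.V) : Atl M T.S := ⟨(T.base v).c, fun s =>
  (T.base v).U s ∩ Sum.elim (fun _ => ball 0 (15 / 8)) (fun _ => univ) s, (T.base v).Γ⟩

/-- an exhaustion of the chart domains of `glob L` (`θ → 1`); `gK L s ⊆ gKt (4/5) L s` -/
def gKt (θ : ℝ) (L : T.V → ℝ) : T.S → Set E4 :=
  Sum.elim (fun _ => closedBall 0 (15 / 8 * θ)) fun w =>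
    {x | θ⁻¹ ≤ ‖x‖ ∧ (w ≠ T.root → ‖x‖ ≤ θ * T.r * Real.exp (L w))}

/-- `ε²` -/
def e2 (L : T.V → ℝ) (v : T.V) : ℝ≥0∞ := ENNReal.ofReal (T.eps L v ^ 2)

/-- the Dirichlet energy in root units -/
def EG (θ : ℝ) (L : T.V → ℝ) (f : T.S → E4 → ℝ) : ℝ≥0∞ :=
  ∑ s, e2 T L (T.un s) * DD (f s) (gKt T θ L s)

/-- admissible families -/
def AG (L : T.V → ℝ) (f : T.S → E4 → ℝ) : Prop :=
  T.Long L ∧ Adm (T.glob L) f ∧ ∃ R, Lw (f (Sum.inr T.root)) {x | R ≤ ‖x‖} ≠ ⊤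

/-- bounded by the energy -/
def BG (Φ : (T.V → ℝ) → (T.S → E4 → ℝ) → ℝ≥0∞) : Prop :=
  ∃ θ : ℝ, 1 / 2 ≤ θ ∧ θ < 1 ∧ ∃ C : ℝ≥0, ∀ L f, AG T L f → Φ L f ≤ C * EG T θ L f

/-- a family on `glob L` read in the charts of `base v` -/
def res (L : T.V → ℝ) (v : T.V) (f : T.S → E4 → ℝ) (s : T.S) (y : E4) : ℝ :=
  f s (0 + (sc (lm L) s v)⁻¹ • y)

variable {T} {L : T.V → ℝ} {θ θ' : ℝ} {Φ Ψ : (T.V → ℝ) → (T.S → E4 → ℝ) → ℝ≥0∞}
  {f : T.S → E4 → ℝ}

theorem gKt_mono (h : T.Ok) (h0 : 0 < θ') (hθ : θ' ≤ θ) (s : T.S) : gKt T θ' L s ⊆ gKt T θ L s := by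
  have := h.r_pos
  cases s with
  | inl a => exact closedBall_subset_closedBall (by linarith)
  | inr w =>
    exact fun x hx => ⟨(inv_anti₀ h0 hθ).trans hx.1, fun hw => (hx.2 hw).trans (by gcongr)⟩

theorem bs_ok (h : T.Ok) (v : T.V) : (bs T v).Ok := by
  refine rs_ok (h.base v) (fun s => ((h.base v).isOpen s).inter ?_) (fun _ => inter_subset_left)
    fun s γ hγ x hx => ⟨(h.base v).inv s γ hγ x hx.1, ?_⟩
  · cases s
    exacts [isOpen_ball, isOpen_univ]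
  · cases s
    · simpa using hx.2
    · trivial

theorem bs_conn (h : T.Ok) {v : T.V} (hc : (T.base v).Conn) : (bs T v).Conn := by
  refine rs_conn (h.base v) hc (fun _ => inter_subset_left) fun s x hx => ?_
  cases s with
  | inr w => exact ⟨_, x, ⟨hx, trivial⟩, rfl⟩
  | inl a =>
    rcases h.cover v _ x hx with ⟨b, hb, y, hy, e⟩ | ⟨y, h1, h2, e⟩ | ⟨w, hw, y, h1, h2, e⟩
    · have := mem_ball_zero_iff.1 hy
      exact ⟨Sum.inl b, y, ⟨mem_base_inl.2 ⟨hb, by linarith⟩, mem_ball_zero_iff.2 (by linarith)⟩, e⟩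
    · exact ⟨Sum.inr v, y, ⟨mem_base_out.2 ⟨by linarith, h2⟩, trivial⟩, by rw [base_c_out, e]⟩
    · exact ⟨Sum.inr w, y, ⟨(mem_base_inn (h.kid_ne hw)).2 ⟨hw, h1, by linarith [h.r_pos]⟩,
        trivial⟩, by rw [base_c_inn (h.kid_ne hw), e]⟩

theorem gK_sub (h : T.Ok) (s : T.S) : T.gK L s ⊆ gKt T (4 / 5) L s := by
  have := h.r_pos
  cases s with
  | inl a => exact closedBall_subset_closedBall (by norm_num)
  | inr w =>
    exact fun x hx => ⟨le_trans (by norm_num) hx.1, fun hw => (hx.2 hw).trans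
      (mul_le_mul_of_nonneg_right (by linarith) (Real.exp_pos _).le)⟩

theorem gKt_sub (h : T.Ok) (h0 : 0 < θ) (hθ : θ < 1) (s : T.S) : gKt T θ L s ⊆ (T.glob L).U s := by
  have := h.r_pos
  cases s with
  | inl a => exact closedBall_subset_ball (by linarith)
  | inr w =>
    refine fun x hx => ⟨((one_lt_inv₀ h0).2 hθ).trans_le hx.1, fun hw => (hx.2 hw).trans_lt ?_⟩
    have : 0 < T.r * Real.exp (L w) := by positivity
    nlinarith

theorem isClosed_gKt (s : T.S) : IsClosed (gKt T θ L s) := by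
  cases s with
  | inl a => exact isClosed_closedBall
  | inr w =>
    refine (isClosed_le continuous_const continuous_norm).inter ?_
    by_cases hw : w = T.root
    · have : (fun x : E4 => w ≠ T.root → ‖x‖ ≤ θ * T.r * Real.exp (L w)) = univ := by
        ext x; exact ⟨fun _ => trivial, fun _ h => absurd hw h⟩
      rw [this]; exact isClosed_univ
    · have : (fun x : E4 => w ≠ T.root → ‖x‖ ≤ θ * T.r * Real.exp (L w)) =
          {x : E4 | ‖x‖ ≤ θ * T.r * Real.exp (L w)} := by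
        ext x; exact ⟨fun h => h hw, fun h _ => h⟩
      rw [this]; exact isClosed_le continuous_norm continuous_const

theorem EG_mono (h : T.Ok) (h0 : 0 < θ') (hθ : θ' ≤ θ) : EG T θ' L f ≤ EG T θ L f :=
  Finset.sum_le_sum fun s _ => mul_le_mul_right (DD_mono (gKt_mono h h0 hθ s)) _

theorem BG.mono (h : BG T Ψ) (e : ∀ L f, AG T L f → Φ L f ≤ Ψ L f) : BG T Φ :=
  let ⟨θ, h1, h2, C, hC⟩ := h
  ⟨θ, h1, h2, C, fun L f hf => (e L f hf).trans (hC L f hf)⟩

theorem BG.add (hT : T.Ok) (h : BG T Φ) (h' : BG T Ψ) : BG T fun L f => Φ L f + Ψ L f := by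
  obtain ⟨θ, h1, h2, C, hC⟩ := h
  obtain ⟨θ', h1', h2', C', hC'⟩ := h'
  refine ⟨max θ θ', le_max_of_le_left h1, max_lt h2 h2', C + C', fun L f hf => ?_⟩
  rw [ENNReal.coe_add, add_mul]
  exact add_le_add
    ((hC L f hf).trans (mul_le_mul_right (EG_mono hT (by linarith) (le_max_left _ _)) _))
    ((hC' L f hf).trans (mul_le_mul_right (EG_mono hT (by linarith) (le_max_right _ _)) _))

theorem BG.mul (h : BG T Φ) (c : ℝ≥0) : BG T fun L f => c * Φ L f := by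
  obtain ⟨θ, h1, h2, C, hC⟩ := h
  refine ⟨θ, h1, h2, c * C, fun L f hf => ?_⟩
  rw [ENNReal.coe_mul, mul_assoc]
  exact mul_le_mul_right (hC L f hf) _

theorem bg_zero : BG T fun _ _ => 0 :=
  ⟨1 / 2, le_rfl, by norm_num, 0, fun _ _ _ => zero_le⟩

theorem bg_sum (hT : T.Ok) {ι : Type*} {Φ : ι → (T.V → ℝ) → (T.S → E4 → ℝ) → ℝ≥0∞} (t : Finset ι)
    (h : ∀ i ∈ t, BG T (Φ i)) : BG T fun L f => ∑ i ∈ t, Φ i L f := by
  classical
  induction t using Finset.induction_on with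
  | empty => simpa using bg_zero
  | insert i t hi ih =>
    simp only [Finset.sum_insert hi]
    exact (h i (Finset.mem_insert_self _ _)).add hT
      (ih fun j hj => h j (Finset.mem_insert_of_mem hj))

theorem bg_DD (h : T.Ok) (h0 : 0 < θ) (h1 : θ < 1) (s : T.S) :
    BG T fun L f => e2 T L (T.un s) * DD (f s) (gKt T θ L s) := by
  refine ⟨max (1 / 2) θ, le_max_left _ _, max_lt (by norm_num) h1, 1, fun L f _ => ?_⟩
  rw [ENNReal.coe_one, one_mul]
  exact le_trans (Finset.single_le_sum (f := fun s => e2 T L (T.un s) * DD (f s) (gKt T θ L s))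
    (fun _ _ => zero_le) (Finset.mem_univ s)) (EG_mono h h0 (le_max_right _ _))

theorem res_mem (h : T.Ok) (hL : T.Long L) {v : T.V} {s : T.S} {y : E4}
    (hy : y ∈ (T.base v).U s) : 0 + (sc (lm L) s v)⁻¹ • y ∈ (T.glob L).U s ∧
      (T.glob L).c s (0 + (sc (lm L) s v)⁻¹ • y) = Sum.inl (v, (T.base v).c s y) := by
  have hS := h.str_glob hL
  have e : sc (lm L) s v • (0 + (sc (lm L) s v)⁻¹ • y) = y := by
    rw [zero_add, smul_smul, mul_inv_cancel₀ (hS.sc_pos s v).ne', one_smul]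
  have := hS.conv' (s := s) (v := v) (x := 0 + (sc (lm L) s v)⁻¹ • y) trivial (by rwa [e])
  rwa [e] at this

theorem res_adm (h : T.Ok) (hL : T.Long L) (hf : Adm (T.glob L) f) (v : T.V) :
    Adm (bs T v) (res T L v f) := by
  refine ⟨fun s => (cd_affine 0 _ (hf.1 s)).mono fun y hy => (res_mem h hL hy.1).1,
    fun a b x hx y hy e => hf.2 a b _ (res_mem h hL hx.1).1 _ (res_mem h hL hy.1).1 ?_⟩
  rw [(res_mem h hL hx.1).2, (res_mem h hL hy.1).2]
  exact congrArg (fun p => Sum.inl (v, p)) e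

theorem res_inl (v : T.V) (a : T.B) : res T L v f (Sum.inl a) = f (Sum.inl a) := by
  funext y; simp [res, sc]

theorem res_out (v : T.V) : res T L v f (Sum.inr v) = f (Sum.inr v) := by
  funext y; simp [res, sc, lm]

theorem res_inn {v w : T.V} (hw : w ≠ v) :
    res T L v f (Sum.inr w) = fun y => f (Sum.inr w) (0 + Real.exp (L w) • y) := by
  funext y; simp [res, sc, lm, hw, Real.exp_neg]

theorem e2_kid (h : T.Ok) {w : T.V} (hw : w ≠ T.root) :
    e2 T L w * ENNReal.ofReal (Real.exp (L w) ^ 2) = e2 T L (T.par w) := by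
  rw [e2, e2, ← ENNReal.ofReal_mul (sq_nonneg _), h.eps_kid L hw, ← mul_pow, mul_assoc,
    ← Real.exp_add, neg_add_cancel, Real.exp_zero, mul_one]

theorem cpt_lt {K : Set E4} (hK : IsCompact K) {φ : E4 → ℝ} (hφ : ContinuousOn φ K)
    (h1 : ∀ x ∈ K, φ x < 1) : ∃ θ : ℝ, 1 / 2 ≤ θ ∧ θ < 1 ∧ ∀ x ∈ K, φ x ≤ θ := by
  rcases K.eq_empty_or_nonempty with rfl | hne
  · exact ⟨1 / 2, le_rfl, by norm_num, fun _ h => h.elim⟩
  · obtain ⟨x, hx, hm⟩ := hK.exists_isMaxOn hne hφ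
    exact ⟨max (1 / 2) (φ x), le_max_left _ _, max_lt (by norm_num) (h1 x hx),
      fun y hy => le_max_of_le_right (hm hy)⟩

theorem bg_base_DD (h : T.Ok) (v : T.V) (s : T.S) {K : Set E4} (hK : IsCompact K)
    (hU' : K ⊆ (bs T v).U s) : BG T fun L f => e2 T L v * DD (res T L v f s) K := by
  have hU : K ⊆ (T.base v).U s := fun x hx => (hU' hx).1
  rcases K.eq_empty_or_nonempty with rfl | ⟨x₀, h₀⟩
  · simpa [DD] using bg_zero
  have hr := h.r_pos
  cases s with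
  | inl a =>
    obtain rfl : T.vx a = v := (mem_base_inl.1 (hU h₀)).1
    obtain ⟨θ, h1, h2, h3⟩ := cpt_lt hK (φ := fun x => ‖x‖ * (8 / 15)) (by fun_prop) fun x hx => by
      linarith [mem_ball_zero_iff.1 (hU' hx).2]
    refine (bg_DD h (by linarith) h2 (Sum.inl a)).mono fun L f _ => ?_
    rw [res_inl]
    exact mul_le_mul_right (DD_mono fun x hx => mem_closedBall_zero_iff.2
      (by linarith [h3 x hx])) _
  | inr w =>
    by_cases hw : w = v
    · subst hw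
      have p : ∀ x ∈ K, 1 < ‖x‖ ∧ ‖x‖ < 4 := fun x hx => mem_base_out.1 (hU hx)
      obtain ⟨θ, h1, h2, h3⟩ := cpt_lt hK (φ := fun x => ‖x‖⁻¹)
        (continuous_norm.continuousOn.inv₀ fun x hx => by linarith [(p x hx).1])
        fun x hx => inv_lt_one_of_one_lt₀ (p x hx).1
      refine (bg_DD h (by linarith) h2 (Sum.inr w)).mono fun L f hf => ?_
      rw [res_out]
      have s1 : K ⊆ gKt T θ L (Sum.inr w) := fun x hx =>
        ⟨inv_le_of_inv_le₀ (by linarith [(p x hx).1]) (h3 x hx), fun hw => by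
          have := hf.1 w hw
          nlinarith [(p x hx).2]⟩
      exact mul_le_mul_right (DD_mono s1) _
    · have p : ∀ x ∈ K, T.r / 4 < ‖x‖ ∧ ‖x‖ < T.r := fun x hx => ((mem_base_inn hw).1 (hU hx)).2
      obtain ⟨hw0, rfl⟩ : T.kid v w := ((mem_base_inn hw).1 (hU h₀)).1
      obtain ⟨θ, h1, h2, h3⟩ := cpt_lt hK (φ := fun x => ‖x‖ / T.r) (by fun_prop) fun x hx =>
        (div_lt_one hr).2 (p x hx).2
      refine (bg_DD h (by linarith) h2 (Sum.inr w)).mono fun L f hf => ?_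
      have e0 := Real.exp_pos (L w)
      have s1 : (fun z => 0 + Real.exp (L w) • z) '' K ⊆ gKt T θ L (Sum.inr w) := by
        rintro _ ⟨z, hz, rfl⟩
        have := hf.1 w hw0
        have h4 := (div_le_iff₀ hr).1 (h3 z hz)
        have h5 : θ⁻¹ ≤ 2 := inv_le_of_inv_le₀ two_pos (by linarith)
        simp only [gKt, Sum.elim_inr, mem_ofPred_eq, zero_add, norm_smul, Real.norm_of_nonneg e0.le]
        exact ⟨by nlinarith [(p z hz).1], fun _ => by nlinarith⟩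
      rw [res_inn hw, ← e2_kid h hw0, mul_assoc, ← DD_affine 0 e0 hK.measurableSet (glob_open w)
        (hf.2.1.1 _) (s1.trans (gKt_sub h (by linarith) h2 _))]
      exact mul_le_mul_right (DD_mono s1) _

/-- the neck of `w` is controlled -/
def NG (T : TD M) (w : T.V) : Prop := ∀ θ : ℝ, 1 / 2 ≤ θ → θ < 1 →
  BG T fun L f => e2 T L w * Lw (f (Sum.inr w)) (gKt T θ L (Sum.inr w))

theorem bg_base (h : T.Ok) {v : T.V} (hc : (T.base v).Conn) (hv : NG T v) (s : T.S) {K : Set E4}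
    (hK : IsCompact K) (hU : K ⊆ (bs T v).U s) :
    BG T fun L f => e2 T L v * L2 (res T L v f s) K := by
  set x₀ : E4 := EuclideanSpace.single 0 (5 / 2) with hx₀
  have n₀ : ‖x₀‖ = 5 / 2 := by rw [hx₀]; simp
  have h₀ : x₀ ∈ (bs T v).U (Sum.inr v) := ⟨mem_base_out.2 (by rw [n₀]; norm_num), trivial⟩
  obtain ⟨K', hK', C, hC⟩ : Bnd (bs T v) (fun f => L2 (f (Sum.inr v)) (ball x₀ (1 / 2)))
      fun f => L2 (f s) K := bnd_cpt hK fun _ hx =>
    ctl_all (bs_ok h v) (bs_conn h hc) h₀ ⟨1 / 2, by norm_num, bnd_self⟩ (hU hx)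
  refine (((bg_sum h Finset.univ fun s _ => bg_base_DD h v s (hK' s).1 (hK' s).2).add h
    ((hv (1 / 2) le_rfl (by norm_num)).mul 9)).mul C).mono fun L f hf => ?_
  refine (mul_le_mul_right (hC _ (res_adm h hf.1 hf.2.1 v)) _).trans ?_
  beta_reduce
  rw [mul_left_comm, mul_add, Finset.mul_sum, res_out, mul_left_comm (↑(9 : ℝ≥0) : ℝ≥0∞)]
  have p : ∀ x ∈ ball x₀ (1 / 2), 2 ≤ ‖x‖ ∧ ‖x‖ ≤ 3 := fun x hx => by
    have h1 := mem_ball_iff_norm.1 hx
    have h2 := abs_le.1 (abs_norm_sub_norm_le x x₀)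
    constructor <;> linarith [h2.1, h2.2]
  gcongr
  refine (L2_le_Lw (c := 3) measurableSet_ball fun x hx =>
    ⟨by linarith [(p x hx).1], (p x hx).2⟩).trans ?_
  rw [show ((9 : ℝ≥0) : ℝ≥0∞) = ENNReal.ofReal (3 ^ 2) by norm_num]
  have s1 : ball x₀ (1 / 2) ⊆ gKt T (1 / 2) L (Sum.inr v) := fun x hx =>
    ⟨by linarith [(p x hx).1], fun hw => by linarith [hf.1 v hw, (p x hx).2]⟩
  exact mul_le_mul_right (Lw_mono s1) _

theorem ng_all (h : T.Ok) (hc : ∀ v, (T.base v).Conn) (v : T.V) : NG T v := by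
  have hr := h.r_pos
  have k : ∀ θ : ℝ, 1 / 2 ≤ θ → θ < 1 → 1 < (1 + θ) / 2 / θ ∧
      (1 + θ) / 2 / θ * ((1 + θ) / 2)⁻¹ = θ⁻¹ := fun θ h1 h2 =>
    ⟨(one_lt_div (by linarith)).2 (by linarith), by
      have : 1 + θ ≠ 0 := by linarith
      field_simp⟩
  refine h.ind (fun θ h1 h2 => ?_) (fun w hw ih θ h1 h2 => ?_) v
  · refine (bg_DD h (θ := (1 + θ) / 2) (by linarith) (by linarith) (Sum.inr T.root)).mono
      fun L f hf => mul_le_mul_right ?_ _
    obtain ⟨R, hR⟩ := hf.2.2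
    have s1 : {x : E4 | ((1 + θ) / 2)⁻¹ ≤ ‖x‖} ⊆ gKt T ((1 + θ) / 2) L (Sum.inr T.root) :=
      fun x hx => ⟨hx, fun h => absurd rfl h⟩
    have := hardyL_end (k θ h1 h2).1 (glob_open T.root) (hf.2.1.1 _) (by positivity)
      (s1.trans (gKt_sub h (by linarith) (by linarith) _)) hR
    rw [(k θ h1 h2).2] at this
    exact ((Lw_mono fun x hx => hx.1).trans this).trans (DD_mono s1)
  · obtain ⟨C, hC⟩ := hardyL (k θ h1 h2).1
    have hne := h.par_ne hw
    have hb := bg_base h (hc (T.par w)) ih (Sum.inr w)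
      (isCompact_An (θ * T.r) ((1 + θ) / 2 * T.r)) fun x hx => ⟨(mem_base_inn hne).2
        ⟨⟨hw, rfl⟩, by nlinarith [hx.1], by nlinarith [hx.2]⟩, trivial⟩
    refine ((bg_DD h (θ := (1 + θ) / 2) (by linarith) (by linarith) (Sum.inr w)).add h
      ((hb.mul ⟨((θ * T.r) ^ 2)⁻¹, by positivity⟩).mul C)).mono fun L f hf => ?_
    have e0 := Real.exp_pos (L w)
    have hL := hf.1 w hw
    have s1 : An ((1 + θ) / 2)⁻¹ ((1 + θ) / 2 * T.r * Real.exp (L w)) ⊆
        gKt T ((1 + θ) / 2) L (Sum.inr w) := fun x hx => ⟨hx.1, fun _ => hx.2⟩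
    have h5 : θ⁻¹ ≤ 2 := inv_le_of_inv_le₀ two_pos (by linarith)
    have h6 := hC _ (f (Sum.inr w)) _ _ (glob_open w) (hf.2.1.1 _) (by positivity)
      (by rw [(k θ h1 h2).2]; nlinarith) (s1.trans (gKt_sub h (by linarith) (by linarith) _))
    have e1 : (1 + θ) / 2 * T.r * Real.exp (L w) / ((1 + θ) / 2 / θ) =
        θ * T.r * Real.exp (L w) := by
      have : 1 + θ ≠ 0 := by linarith
      have : θ ≠ 0 := by linarith
      field_simp
    rw [(k θ h1 h2).2, e1, mul_comm (θ * T.r), mul_comm (_ * T.r) (Real.exp _), ← img_An0 e0,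
      Lw_dil e0 (measurableSet_An _ _), mul_comm (Real.exp _), mul_comm (Real.exp _),
      ← res_inn hne] at h6
    have s2 : gKt T θ L (Sum.inr w) ⊆ An θ⁻¹ (θ * T.r * Real.exp (L w)) := fun x hx =>
      ⟨hx.1, hx.2 hw⟩
    refine (mul_le_mul_right ((Lw_mono s2).trans h6) _).trans ?_
    rw [mul_add, mul_left_comm, ← mul_assoc (e2 T L w), e2_kid h hw]
    refine add_le_add (mul_le_mul_right (DD_mono s1) _) (mul_le_mul_right ?_ _)
    rw [mul_left_comm, ENNReal.coe_nnreal_eq]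
    exact mul_le_mul_right (Lw_le_L2 (measurableSet_An _ _) (by positivity) fun x hx => hx.1) _

/-- **Hardy inequality on `glob L`**, chartwise flat form, uniform in `L` -/
theorem hardyG_flat (h : T.Ok) (hc : ∀ v, (T.base v).Conn) (h0 : 0 < θ') (h1 : θ' < 1) :
    ∃ θ : ℝ, 1 / 2 ≤ θ ∧ θ < 1 ∧ ∃ C : ℝ≥0, ∀ L f, AG T L f →
      ∑ s, e2 T L (T.un s) * ∫⁻ x in gKt T θ' L s,
        ENNReal.ofReal ((Sum.elim (fun _ => (1 : ℝ)) (fun _ => ‖x‖) s ^ 2)⁻¹ * f s x ^ 2) ≤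
      C * EG T θ L f := by
  refine bg_sum h Finset.univ fun s _ => ?_
  have m1 : (1 / 2 : ℝ) ≤ max (1 / 2) θ' := le_max_left _ _
  have m2 : max (1 / 2) θ' < 1 := max_lt (by norm_num) h1
  cases s with
  | inl a =>
    refine (bg_base h (hc _) (ng_all h hc (T.vx a)) (Sum.inl a)
      (isCompact_closedBall 0 (15 / 8 * θ')) fun x hx =>
        ⟨mem_base_inl.2 ⟨rfl, by linarith [mem_closedBall_zero_iff.1 hx]⟩,
          mem_ball_zero_iff.2 (by linarith [mem_closedBall_zero_iff.1 hx])⟩).mono fun L f _ => ?_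
    simp only [res_inl, Sum.elim_inl, one_pow, inv_one, one_mul]
    exact le_rfl
  | inr w =>
    exact (ng_all h hc w _ m1 m2).mono fun L f _ =>
      mul_le_mul_right (Lw_mono (gKt_mono h h0 (le_max_right _ _) _)) _

end Crest.Agent.N207.Hd

end
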