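import Crest.Agent.N207.K.Hd7
import Crest.Agent.N207.I.Cal4
import Crest.Agent.N207.A.Arr
import Crest.Agent.N207.Sk.Sta
import Crest.Agent.R238.HolDefs

/-!
# Row 207, block K (helper5): Kato's inequality and the Hardy inequality for tensors on `glob L`
-/

set_option autoImplicit false
open MeasureTheory Set Filter Topology Metric
open scoped ContDiff ENNReal NNReal
open Crest.GeometryTopology.CoordMetric
open Crest.Agent.R238 (Ell)
open Crest.Agent.R202.Tens (bil bil_apply)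

noncomputable section

namespace Crest.Agent.N207.Hd

open I I.TD

variable {lo hi : ℝ} {A : Matrix (Fin 4) (Fin 4) ℝ} {k : ℕ}

theorem ell_hi (h : Ell lo hi A) (v : E4) : bil A v v ≤ hi * ‖v‖ ^ 2 := by
  rw [bil_apply, norm_sq_eq]; exact (h.2 v).2

theorem ell_lo (h : Ell lo hi A) (v : E4) : lo * ‖v‖ ^ 2 ≤ bil A v v := by
  rw [bil_apply, norm_sq_eq]; exact (h.2 v).1

theorem ell_smul (h : Ell lo hi A) {c : ℝ} (hc : 0 ≤ c) : Ell (lo * c) (hi * c) (c • A) := by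
  refine ⟨fun i j => by simp [h.1 i j], fun z => ?_⟩
  have e : ∑ i, ∑ j, (c • A) i j * z i * z j = c * ∑ i, ∑ j, A i j * z i * z j := by
    simp only [Finset.mul_sum, Matrix.smul_apply, smul_eq_mul, mul_assoc]
  rw [e]
  constructor <;> nlinarith [(h.2 z).1, (h.2 z).2]

theorem ell_mono (h : Ell lo hi A) {lo' hi' : ℝ} (h1 : lo' ≤ lo) (h2 : hi ≤ hi') :
    Ell lo' hi' A := by
  refine ⟨h.1, fun z => ?_⟩
  have : 0 ≤ ∑ i, z i ^ 2 := Finset.sum_nonneg fun _ _ => sq_nonneg _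
  constructor <;> nlinarith [(h.2 z).1, (h.2 z).2]

theorem ell_det (h : Ell lo hi A) (h0 : 0 ≤ lo) : lo ^ 2 ≤ √A.det ∧ √A.det ≤ hi ^ 2 := by
  have hA : A.IsHermitian := Matrix.IsHermitian.ext fun i j => by simp [h.1 i j]
  have e : ∀ i, lo ≤ hA.eigenvalues i ∧ hA.eigenvalues i ≤ hi := fun i => by
    have h1 := ell_lo h (hA.eigenvectorBasis i)
    have h2 := ell_hi h (hA.eigenvectorBasis i)
    have h3 : bil A (hA.eigenvectorBasis i) (hA.eigenvectorBasis i) = hA.eigenvalues i := by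
      rw [hA.eigenvalues_eq, bil_apply]
      simp only [dotProduct, Matrix.mulVec, star_trivial, RCLike.re_to_real, Finset.mul_sum]
      exact Finset.sum_congr rfl fun a _ => Finset.sum_congr rfl fun b _ => by ring
    rw [hA.eigenvectorBasis.orthonormal.1 i, h3] at h1 h2
    constructor <;> linarith
  have hd : A.det = ∏ i, hA.eigenvalues i := by simpa using hA.det_eq_prod_eigenvalues
  have d1 : lo ^ 4 ≤ A.det := by
    rw [hd]
    simpa using Finset.prod_le_prod (s := Finset.univ) (f := fun _ : Fin 4 => lo)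
      (fun _ _ => h0) fun i _ => (e i).1
  have d2 : A.det ≤ hi ^ 4 := by
    rw [hd]
    simpa using Finset.prod_le_prod (s := Finset.univ) (g := fun _ : Fin 4 => hi)
      (fun i _ => h0.trans (e i).1) fun i _ => (e i).2
  exact ⟨Real.le_sqrt_of_sq_le (by linarith), Real.sqrt_le_iff.2 ⟨sq_nonneg _, by linarith⟩⟩

/-- a smooth approximation of `√N` -/
def rt0 (δ N : ℝ) : ℝ := √(N + δ ^ 2) - δ

theorem rt0_nonneg {δ N : ℝ} (hN : 0 ≤ N) : 0 ≤ rt0 δ N :=
  sub_nonneg.2 (Real.le_sqrt_of_sq_le (by linarith))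

theorem rt0_anti {δ δ' N : ℝ} (hN : 0 ≤ N) (h0 : 0 ≤ δ) (h : δ ≤ δ') : rt0 δ' N ≤ rt0 δ N := by
  have h1 : δ ≤ √(N + δ ^ 2) := Real.le_sqrt_of_sq_le (by linarith)
  have h2 : √(N + δ ^ 2) ^ 2 = N + δ ^ 2 := Real.sq_sqrt (by positivity)
  have : √(N + δ' ^ 2) ≤ √(N + δ ^ 2) + (δ' - δ) :=
    Real.sqrt_le_iff.2 ⟨by linarith, by nlinarith⟩
  unfold rt0; linarith

theorem rt0_zero {N : ℝ} (hN : 0 ≤ N) : rt0 0 N ^ 2 = N := by
  simp [rt0, Real.sq_sqrt hN]

theorem rt0_sq_le {δ N : ℝ} (hN : 0 ≤ N) (h0 : 0 ≤ δ) : rt0 δ N ^ 2 ≤ N :=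
  (pow_le_pow_left₀ (rt0_nonneg hN) (rt0_anti hN le_rfl h0) 2).trans_eq (rt0_zero hN)

variable {G : MetricField 4} {U : Set E4} {w : Tn 4 k} {y : E4}

theorem nsq_nonneg (hG : IsRiemannianOn G U) (hy : y ∈ U) (w : Tn 4 k) : 0 ≤ nsq G w y :=
  Ar.ipA_nonneg (hG.posDef y hy) _

theorem sm_rt0 (hG : IsRiemannianOn G U) (hw : SmT w U) {δ : ℝ} (hδ : 0 < δ) :
    ContDiffOn ℝ ∞ (fun y => rt0 δ (nsq G w y)) U :=
  (((hw.nsq hG).add contDiffOn_const).sqrt fun y hy => by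
    have := nsq_nonneg hG hy w
    positivity).sub contDiffOn_const

/-- Kato's inequality -/
theorem kato (hG : IsRiemannianOn G U) (hw : SmT w U) {δ : ℝ} (hδ : 0 < δ) (hy : y ∈ U)
    (h0 : 0 ≤ hi) (hh : ∀ v, bil (G y) v v ≤ hi * ‖v‖ ^ 2) :
    g2 (fun y => rt0 δ (nsq G w y)) y ≤ hi * nsq G (cov G w) y := by
  have hN := nsq_nonneg hG hy w
  have hN' := nsq_nonneg hG hy (cov G w)
  have hp : 0 < nsq G w y + δ ^ 2 := by positivity
  have hd : HasDerivAt (rt0 δ) (1 / (2 * √(nsq G w y + δ ^ 2))) (nsq G w y) :=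
    (((hasDerivAt_id _).add_const (δ ^ 2)).sqrt hp.ne').sub_const δ
  have h1 : g2 (fun y => rt0 δ (nsq G w y)) y =
      (1 / (2 * √(nsq G w y + δ ^ 2))) ^ 2 * ∑ I, dT (nsq G w) y I ^ 2 := by
    rw [sum_fin1, g2, Finset.mul_sum]
    refine Finset.sum_congr rfl fun i _ => ?_
    rw [pd_comp i hd.differentiableAt (dAt (hw.nsq hG) hG.isOpen hy), hd.deriv, mul_pow]
    rfl
  have h2 := Ar.sum_sq_le_ipA (hG.posDef y hy) h0 hh (dT (nsq G w) y)
  have h3 : ipA (G y)⁻¹ (dT (nsq G w) y) (dT (nsq G w) y) ≤ 4 * (nsq G w y * nsq G (cov G w) y) := by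
    rw [dT_nsq hG hy (hw.dAt hG.isOpen hy), Ar.ipA_smul_left, Ar.ipA_smul_right, ← mul_assoc,
      show (2 * 2 : ℝ) = 4 by norm_num]
    exact mul_le_mul_of_nonneg_left (Ar.ipA_con_le (hG.posDef y hy) (w y) (cov G w y)) (by norm_num)
  rw [h1, div_pow, mul_pow, Real.sq_sqrt hp.le, one_pow, div_mul_eq_mul_div, one_mul,
    div_le_iff₀ (by positivity)]
  rw [pow_one] at h2
  have h4 := mul_le_mul_of_nonneg_left h3 h0
  have h5 : 0 ≤ hi * nsq G (cov G w) y * δ ^ 2 := by positivity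
  nlinarith

variable {M : Type*} {T : TD M} {L : T.V → ℝ} {θ Λ : ℝ} {b : T.S → MetricField 4}

/-- ellipticity (root units) -/
def EllG (T : TD M) (θ Λ : ℝ) (L : T.V → ℝ) (b : T.S → MetricField 4) : Prop :=
  ∀ s, ∀ x ∈ gKt T θ L s,
    Ell (Λ⁻¹ * T.eps L (T.un s) ^ 2) (Λ * T.eps L (T.un s) ^ 2) (b s x)

theorem mem_gK_of_norm {s : T.S} {x y : E4} (hy : y ∈ T.gK L s) (e : ‖x‖ = ‖y‖) :
    x ∈ T.gK L s := by
  cases s with
  | inl a => exact mem_gK_inl.2 (e ▸ mem_gK_inl.1 hy)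
  | inr w => exact mem_gK_inr.2 (e ▸ mem_gK_inr.1 hy)

theorem den_le {X : Type*} {α : Type} [Fintype α] {A : Atl X α} {χ : α → X → ℝ} {K : α → Set E4}
    (h : A.Ok) (hχ : A.PoU χ K) (G : α → MetricField 4) {s : α} {x : E4} (hx : x ∈ A.U s) :
    A.den χ G s x ≤ √(G s x).det := by
  have h1 : χ s (A.c s x) ≤ 1 := (hχ.sum s x hx) ▸ Finset.single_le_sum
    (f := fun a => χ a (A.c s x)) (fun a _ => hχ.nonneg a _) (Finset.mem_univ s)
  have h2 : (1 : ℝ) ≤ Nat.card (A.Γ s) := by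
    have := Atl.card_pos h s
    exact_mod_cast (show 0 < Nat.card (A.Γ s) by exact_mod_cast this)
  exact (mul_le_of_le_one_left (mul_nonneg (hχ.nonneg _ _) (Real.sqrt_nonneg _))
    (inv_le_one_of_one_le₀ h2)).trans (mul_le_of_le_one_left (Real.sqrt_nonneg _) h1)

/-- upper bound of the integral by chart integrals -/
theorem lint_le_gK (h : T.Ok) (hL : T.Long L) (φ : T.S → E4 → ℝ≥0∞) :
    (T.glob L).lint T.χ b φ ≤ ∑ s, ∫⁻ x in T.gK L s, Atl.rho b s x * φ s x := by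
  have hχ := h.glob_pou hL
  have hO := h.glob_ok hL
  refine Finset.sum_le_sum fun s _ => ?_
  have mK : MeasurableSet (T.gK L s) := by
    cases s with
    | inl a => exact measurableSet_closedBall
    | inr w =>
      exact (measurableSet_le measurable_const measurable_norm).inter
        ((MeasurableSet.const (w ≠ T.root)).imp (measurableSet_le measurable_norm measurable_const))
  rw [← lintegral_indicator mK]
  refine (setLIntegral_mono' (hO.isOpen s).measurableSet fun x hx => ?_).trans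
    (setLIntegral_le_lintegral _ _)
  by_cases hK : x ∈ T.gK L s
  · rw [indicator_of_mem hK]
    exact mul_le_mul_left (ENNReal.ofReal_le_ofReal (den_le hO hχ b hx)) _
  · have : T.χ s ((T.glob L).c s x) = 0 := by
      by_contra h0
      obtain ⟨y, hy, e⟩ := hχ.supp s s x hx h0
      obtain ⟨γ, -, rfl⟩ := (hO.fib s y (hχ.sub s hy) x hx).1 e
      exact hK (mem_gK_of_norm hy (γ.norm_map y))
    simp [Atl.den, this]

/-- lower bound of the integral by chart integrals -/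
theorem chart_le' {X : Type*} {α : Type} [Fintype α] {A : Atl X α} {χ : α → X → ℝ}
    {K : α → Set E4} {G : α → MetricField 4} (h : A.Ok) (hG : A.IsMet G) (hχ : A.PoU χ K)
    {φ : α → E4 → ℝ} (hφ : A.CompF φ) (hc : A.Ct φ) (s : α) {B : Set E4} (hB : B ⊆ A.U s) :
    ∫⁻ x in B, Atl.rho G s x * ENNReal.ofReal (φ s x) ≤
      (Nat.card (A.Γ s) : ℝ≥0∞) * A.lint χ G fun a x => ENNReal.ofReal (φ a x) := by
  have h1 := Atl.chart_le h hG hχ (hφ.map ENNReal.ofReal) s
    ((hc s).aemeasurable (h.isOpen s).measurableSet).ennreal_ofReal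
  refine (lintegral_mono_set hB).trans ?_
  rwa [ENNReal.inv_mul_le_iff (Atl.card_ne h s) (ENNReal.natCast_ne_top _)] at h1

theorem scl_pos (s : T.S) {x : E4} (hx : x ∈ (T.glob L).U s) :
    0 < Sum.elim (fun _ => (1 : ℝ)) (fun _ => ‖x‖) s := by
  cases s with
  | inl a => exact one_pos
  | inr w => exact one_pos.trans hx.1

theorem rw_pos (s : T.S) {x : E4} (hx : x ∈ (T.glob L).U s) : 0 < Sk.rw T L s x :=
  mul_pos (eps_pos L _) (scl_pos s hx)

theorem cont_scl (s : T.S) : Continuous fun x : E4 => Sum.elim (fun _ => (1 : ℝ)) (fun _ => ‖x‖) s := by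
  cases s
  exacts [continuous_const, continuous_norm]

theorem cont_rw (s : T.S) : Continuous (Sk.rw T L s) := continuous_const.mul (cont_scl s)

/-- **the Hardy inequality for tensor fields on `glob L`**, uniform in `L` -/
theorem hardyG (h : T.Ok) (hc : ∀ v, (T.base v).Conn) : ∃ θ : ℝ, 4 / 5 ≤ θ ∧ θ < 1 ∧
    ∀ Λ : ℝ, 0 < Λ → ∃ C : ℝ≥0, ∀ L b, T.Long L → (T.glob L).IsMet b → EllG T θ Λ L b →
      ∀ (k : ℕ) (w : T.S → Tn 4 k), (T.glob L).Sec w →
      (∃ R, ∫⁻ x in {x : E4 | R ≤ ‖x‖},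
        ENNReal.ofReal ((‖x‖ ^ 2)⁻¹ * nsq (b (Sum.inr T.root)) (w (Sum.inr T.root)) x) ≠ ⊤) →
      ((T.glob L).lint T.χ b fun s x => ENNReal.ofReal (nsq (b s) (w s) x / Sk.rw T L s x ^ 2)) ≤
        C * (T.glob L).lint T.χ b fun s x => ENNReal.ofReal (nsq (b s) (cov (b s) (w s)) x) := by
  obtain ⟨θ₀, h1, h2, C, hC⟩ := hardyG_flat (θ' := 4 / 5) h hc (by norm_num) (by norm_num)
  refine ⟨max θ₀ (4 / 5), le_max_right _ _, max_lt h2 (by norm_num), fun Λ hΛ =>
    ⟨(Λ ^ 2).toNNReal * (C * ((Λ ^ 3).toNNReal * ∑ s, (Nat.card (T.grp s) : ℝ≥0))),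
      fun L b hL hb hE k w hw ⟨R, hR⟩ => ?_⟩⟩
  have hO := h.glob_ok hL
  have hχ := h.glob_pou hL
  have sub : ∀ s, gKt T (max θ₀ (4 / 5)) L s ⊆ (T.glob L).U s :=
    gKt_sub h (by positivity) (max_lt h2 (by norm_num))
  have s0 : ∀ s, gKt T θ₀ L s ⊆ gKt T (max θ₀ (4 / 5)) L s :=
    gKt_mono h (by linarith) (le_max_left _ _)
  have s1 : ∀ s, gKt T (4 / 5) L s ⊆ gKt T (max θ₀ (4 / 5)) L s :=
    gKt_mono h (by linarith) (le_max_right _ _)
  set Q := (T.glob L).lint T.χ b fun s x => ENNReal.ofReal (nsq (b s) (cov (b s) (w s)) x)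
  set sc : T.S → E4 → ℝ := fun s x => Sum.elim (fun _ => (1 : ℝ)) (fun _ => ‖x‖) s with hsc
  -- the estimate for the approximations
  have k1 : ∀ δ : ℝ, 0 < δ → ∑ s, e2 T L (T.un s) * ∫⁻ x in gKt T (4 / 5) L s,
      ENNReal.ofReal ((sc s x ^ 2)⁻¹ * rt0 δ (nsq (b s) (w s) x) ^ 2) ≤
      C * ((Λ ^ 3).toNNReal * ((∑ s, (Nat.card (T.grp s) : ℝ≥0) : ℝ≥0) * Q)) := fun δ hδ => by
    refine (hC L (fun s x => rt0 δ (nsq (b s) (w s) x)) ⟨hL, ⟨fun s =>
      (sm_rt0 (hb.riem s) (hw.sm s) hδ).of_le (by simp), (hw.compat.nsq hO hb).map _⟩,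
      max R 2, ne_top_of_le_ne_top hR ?_⟩).trans (mul_le_mul_right ?_ _)
    · refine (setLIntegral_mono' (measurableSet_le measurable_const measurable_norm)
        fun x hx => ENNReal.ofReal_le_ofReal (mul_le_mul_of_nonneg_left (rt0_sq_le
          (nsq_nonneg (hb.riem _) ?_ _) hδ.le) (by positivity))).trans
        (lintegral_mono_set fun x hx => show R ≤ ‖x‖ from (le_max_left R 2).trans hx)
      exact ⟨one_lt_two.trans_le ((le_max_right _ _).trans hx), fun h => absurd rfl h⟩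
    rw [ENNReal.ofNNReal_finsetSum, Finset.sum_mul, Finset.mul_sum]
    refine Finset.sum_le_sum fun s _ => ?_
    refine le_trans ?_ (mul_le_mul_right (chart_le' hO hb hχ ((hw.cov hO hb).compat.nsq hO hb)
      ((hw.cov hO hb).ct_ip hb (hw.cov hO hb)) s ((s0 s).trans (sub s))) _)
    rw [DD, e2, ← lintegral_const_mul' _ _ ENNReal.ofReal_ne_top,
      ← lintegral_const_mul' _ _ ENNReal.coe_ne_top]
    refine setLIntegral_mono' (isClosed_gKt s).measurableSet fun x hx => ?_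
    have hx' := sub s (s0 s hx)
    have e := hE s x (s0 s hx)
    have e0 := eps_pos L (T.un s)
    have d := (ell_det e (by positivity)).1
    have n := nsq_nonneg (hb.riem s) hx' (cov (b s) (w s))
    have kt := kato (hb.riem s) (hw.sm s) hδ hx' (by positivity) (ell_hi e)
    rw [Atl.rho, ← ENNReal.ofReal_mul (Real.sqrt_nonneg _), ← ENNReal.ofReal_mul (sq_nonneg _)]
    change _ ≤ ENNReal.ofReal (Λ ^ 3) * _
    rw [← ENNReal.ofReal_mul (by positivity)]
    refine ENNReal.ofReal_le_ofReal ((mul_le_mul_of_nonneg_left kt (sq_nonneg _)).trans ?_)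
    calc _ = Λ ^ 3 * ((Λ⁻¹ * T.eps L (T.un s) ^ 2) ^ 2 * nsq (b s) (cov (b s) (w s)) x) := by
          field_simp
      _ ≤ _ := by gcongr
  -- the limit
  have k2 : ∑ s, e2 T L (T.un s) * ∫⁻ x in gKt T (4 / 5) L s,
      ENNReal.ofReal ((sc s x ^ 2)⁻¹ * nsq (b s) (w s) x) ≤
      C * ((Λ ^ 3).toNNReal * ((∑ s, (Nat.card (T.grp s) : ℝ≥0) : ℝ≥0) * Q)) := by
    refine le_of_tendsto' (f := fun n : ℕ => ∑ s, e2 T L (T.un s) * ∫⁻ x in gKt T (4 / 5) L s,
      ENNReal.ofReal ((sc s x ^ 2)⁻¹ * rt0 (1 / ((n : ℝ) + 1)) (nsq (b s) (w s) x) ^ 2))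
      (x := atTop) (tendsto_finsetSum _ fun s _ => ENNReal.Tendsto.const_mul ?_
        (Or.inr ENNReal.ofReal_ne_top)) fun n => k1 _ (by positivity)
    have m := (isClosed_gKt (θ := 4 / 5) (L := L) s).measurableSet
    have su := (s1 s).trans (sub s)
    refine lintegral_tendsto_of_tendsto_of_monotone (fun n => ?_) ?_ ?_
    · refine (ContinuousOn.aemeasurable ?_ m).ennreal_ofReal
      exact ((((cont_scl s).pow 2).continuousOn.inv₀ fun x hx =>
        (pow_pos (scl_pos s (su hx)) 2).ne')).mul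
        (((sm_rt0 (hb.riem s) (hw.sm s) (by positivity)).continuousOn.mono su).pow 2)
    · filter_upwards [ae_restrict_mem m] with x hx n n' hn
      have n0 := nsq_nonneg (hb.riem s) (su hx) (w s)
      refine ENNReal.ofReal_le_ofReal (mul_le_mul_of_nonneg_left (pow_le_pow_left₀ (rt0_nonneg n0)
        (rt0_anti n0 (by positivity) ?_) 2) (by positivity))
      exact one_div_le_one_div_of_le (by positivity) (by simpa using hn)
    · filter_upwards [ae_restrict_mem m] with x hx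
      have n0 := nsq_nonneg (hb.riem s) (su hx) (w s)
      have c : Continuous fun δ => (sc s x ^ 2)⁻¹ * rt0 δ (nsq (b s) (w s) x) ^ 2 := by
        unfold rt0; fun_prop
      have := (c.tendsto 0).comp tendsto_one_div_add_atTop_nhds_zero_nat
      rw [rt0_zero n0] at this
      exact ENNReal.tendsto_ofReal this
  refine (lint_le_gK h hL _).trans ?_
  rw [ENNReal.coe_mul, ENNReal.coe_mul, ENNReal.coe_mul, mul_assoc, mul_assoc, mul_assoc]
  refine le_trans ?_ (mul_le_mul_right k2 _)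
  rw [Finset.mul_sum]
  refine Finset.sum_le_sum fun s _ => (lintegral_mono_set (gK_sub h s)).trans ?_
  rw [e2, ← lintegral_const_mul' _ _ ENNReal.ofReal_ne_top,
    ← lintegral_const_mul' _ _ ENNReal.coe_ne_top]
  refine setLIntegral_mono' (isClosed_gKt s).measurableSet fun x hx => ?_
  have hx' := sub s (s1 s hx)
  have e0 := eps_pos L (T.un s)
  have d := (ell_det (hE s x (s1 s hx)) (by positivity)).2
  have n := nsq_nonneg (hb.riem s) hx' (w s)
  have p := scl_pos s hx'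
  rw [Atl.rho, ← ENNReal.ofReal_mul (Real.sqrt_nonneg _), ← ENNReal.ofReal_mul (sq_nonneg _)]
  change _ ≤ ENNReal.ofReal (Λ ^ 2) * _
  rw [← ENNReal.ofReal_mul (by positivity)]
  refine ENNReal.ofReal_le_ofReal ((mul_le_mul_of_nonneg_right d (by positivity)).trans_eq ?_)
  simp only [Sk.rw, hsc]
  field_simp

end Crest.Agent.N207.Hd

end
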