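import Crest.Agent.N207.K.Grn
import Crest.Agent.N207.I.Cal4
import Crest.Agent.N207.A.Arr

/-!
# Row 207, block K (helper1): comparison of jets and covariant norms, limits of compatible families
-/

set_option autoImplicit false
set_option linter.unusedSectionVars false
open MeasureTheory Set Filter Topology Metric
open scoped ContDiff
open Crest.GeometryTopology.CoordMetric
open Crest.Agent.R249.SReg352 Crest.Agent.R249.EV Crest.Agent.N207.I

noncomputable section

namespace Crest.Agent.N207.K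

open Sys

variable {n k : ℕ} {G : MetricField n} {U D : Set (En n)} {y : En n}

/-- the squared 1-jet of a tensor -/
abbrev jT (T : Tn n k) : En n → ℝ := jet fun I z => T z I

theorem quad_le {ι : Type*} [Fintype ι] {a : ι → ι → ℝ} {C : ℝ} (h : ∀ i j, |a i j| ≤ C)
    (u : ι → ℝ) : ∑ i, ∑ j, a i j * (u i * u j) ≤ C * Fintype.card ι * ∑ i, u i ^ 2 := by
  have e : C * Fintype.card ι * ∑ i, u i ^ 2 = ∑ i, ∑ j, C * (u i ^ 2 / 2 + u j ^ 2 / 2) := by
    simp only [mul_add, Finset.sum_add_distrib, Finset.sum_const, Finset.card_univ, nsmul_eq_mul,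
      ← Finset.mul_sum, ← Finset.sum_div]
    ring
  rw [e]
  refine Finset.sum_le_sum fun i _ => Finset.sum_le_sum fun j _ => (le_abs_self _).trans ?_
  rw [abs_mul]
  refine mul_le_mul (h i j) (abs_le.2 ⟨?_, ?_⟩) (abs_nonneg _) ((abs_nonneg _).trans (h i j))
  · nlinarith [sq_nonneg (u i + u j)]
  · nlinarith [sq_nonneg (u i - u j)]

theorem ipA_cmp (hG : IsRiemannianOn G U) (hD : IsCompact D) (hU : D ⊆ U) (k : ℕ) :
    ∃ C : ℝ, 0 < C ∧ ∀ y ∈ D, ∀ B : Arr n k,
      ∑ I, B I ^ 2 ≤ C * ipA (G y)⁻¹ B B ∧ ipA (G y)⁻¹ B B ≤ C * ∑ I, B I ^ 2 := by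
  have hc : ∀ I J : Fin k → Fin n, ContinuousOn (fun y => ∏ s, (G y)⁻¹ (I s) (J s)) D :=
    fun I J => continuousOn_finsetProd _ fun s _ => (sm_inv hG _ _).continuousOn.mono hU
  have e : ∀ y (B : Arr n k), ∑ I, ∑ J, (∏ s, (G y)⁻¹ (I s) (J s)) * B J * B I =
      ipA (G y)⁻¹ B B := fun y B =>
    Finset.sum_congr rfl fun _ _ => Finset.sum_congr rfl fun _ _ => by ring
  obtain ⟨lam, h0, h1⟩ := exists_ell_on hD hc fun x hx ξ hξ => by
    rw [e]
    exact lt_of_le_of_ne (Ar.ipA_nonneg (hG.posDef x (hU hx)) ξ) fun h =>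
      hξ (Ar.eq_zero_of_ipA (hG.posDef x (hU hx)) h.symm)
  choose C C0 hC using fun I J => exists_ub hD (hc I J)
  have h2 : ∀ I J, C I J ≤ ∑ I, ∑ J, C I J := fun I J =>
    (Finset.single_le_sum (fun J _ => (C0 I J).le) (Finset.mem_univ J)).trans
      (Finset.single_le_sum (f := fun I => ∑ J, C I J)
        (fun I _ => Finset.sum_nonneg fun J _ => (C0 I J).le) (Finset.mem_univ I))
  refine ⟨max lam⁻¹ ((∑ I, ∑ J, C I J) * Fintype.card (Fin k → Fin n)), by positivity,
    fun y hy B => ⟨?_, ?_⟩⟩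
  · have := h1 y hy B
    rw [e] at this
    exact ((le_inv_mul_iff₀ h0).2 this).trans (mul_le_mul_of_nonneg_right (le_max_left _ _)
      (Ar.ipA_nonneg (hG.posDef y (hU hy)) B))
  · exact (quad_le (fun I J => (hC I J y hy).trans (h2 I J)) B).trans
      (mul_le_mul_of_nonneg_right (le_max_right _ _) (Finset.sum_nonneg fun _ _ => sq_nonneg _))

theorem sum_cons' (f : (Fin (k + 1) → Fin n) → ℝ) :
    ∑ J, f J = ∑ l, ∑ I : Fin k → Fin n, f (Fin.cons l I) := by
  rw [← Fintype.sum_prod_type', ← (Fin.consEquiv fun _ : Fin (k + 1) => Fin n).sum_comp]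
  rfl

theorem actA_sq {B : Fin n → Fin n → ℝ} {C : ℝ} (h : ∀ m i, |B m i| ≤ C) (A : Arr n k)
    (I : Fin k → Fin n) : actA B A I ^ 2 ≤ (k * n * C) ^ 2 * ∑ J, A J ^ 2 := by
  have p : 0 ≤ ∑ J, A J ^ 2 := Finset.sum_nonneg fun _ _ => sq_nonneg _
  have h1 : |actA B A I| ≤ k * n * C * √(∑ J, A J ^ 2) := by
    have : ∀ s m, |B m (I s) * A (Function.update I s m)| ≤ C * √(∑ J, A J ^ 2) := fun s m => by
      rw [abs_mul]
      exact mul_le_mul (h _ _) (Real.abs_le_sqrt (Finset.single_le_sum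
        (f := fun J => A J ^ 2) (fun _ _ => sq_nonneg _) (Finset.mem_univ _))) (abs_nonneg _)
        ((abs_nonneg _).trans (h m (I s)))
    refine (Finset.abs_sum_le_sum_abs _ _).trans ((Finset.sum_le_sum fun s _ =>
      (Finset.abs_sum_le_sum_abs _ _).trans (Finset.sum_le_sum fun m _ => this s m)).trans
        (le_of_eq ?_))
    simp only [Finset.sum_const, Finset.card_univ, Fintype.card_fin, nsmul_eq_mul]
    ring
  have := pow_le_pow_left₀ (abs_nonneg _) h1 2
  rwa [sq_abs, mul_pow, Real.sq_sqrt p] at this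

theorem jet_cmp (hG : IsRiemannianOn G U) (hD : IsCompact D) (hU : D ⊆ U) (k : ℕ) :
    ∃ C : ℝ, 0 < C ∧ ∀ y ∈ D, ∀ T : Tn n k,
      jT T y ≤ C * (nsq G (cov G T) y + nsq G T y) ∧
        nsq G (cov G T) y + nsq G T y ≤ C * jT T y := by
  obtain ⟨C0, c0, h0⟩ := ipA_cmp hG hD hU k
  obtain ⟨C1, c1, h1⟩ := ipA_cmp hG hD hU (k + 1)
  obtain ⟨Γ, g0, hΓ⟩ := exists_ub hD (f := fun y => ∑ a, ∑ b, ∑ c, |christoffel G y a b c|)
    (continuousOn_finsetSum _ fun a _ => continuousOn_finsetSum _ fun b _ =>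
      continuousOn_finsetSum _ fun c _ => ((sm_chr hG a b c).continuousOn.mono hU).abs)
  set E : ℝ := n * Fintype.card (Fin k → Fin n) * (k * n * Γ) ^ 2 with hE
  have E0 : 0 ≤ E := by positivity
  refine ⟨(2 * E + 2) * (C0 + C1), by positivity, fun y hy T => ?_⟩
  have hb : ∀ l m i, |christoffel G y m l i| ≤ Γ := fun l m i => by
    refine le_trans ?_ ((le_abs_self _).trans (hΓ y hy))
    refine le_trans ?_ (Finset.single_le_sum (f := fun a => ∑ b, ∑ c, |christoffel G y a b c|)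
      (fun _ _ => by positivity) (Finset.mem_univ m))
    refine le_trans ?_ (Finset.single_le_sum (f := fun b => ∑ c, |christoffel G y m b c|)
      (fun _ _ => by positivity) (Finset.mem_univ l))
    exact Finset.single_le_sum (f := fun c => |christoffel G y m l c|)
      (fun _ _ => by positivity) (Finset.mem_univ i)
  set a := ∑ I, T y I ^ 2 with ha
  set b := ∑ l, ∑ I, pderiv l (fun z => T z I) y ^ 2 with hb'
  set c := ∑ J, cov G T y J ^ 2 with hc
  have key : ∀ u v : Fin n → (Fin k → Fin n) → ℝ, (∀ l I, (u l I - v l I) ^ 2 ≤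
      (k * n * Γ) ^ 2 * a) → ∑ l, ∑ I, u l I ^ 2 ≤ 2 * ∑ l, ∑ I, v l I ^ 2 + 2 * E * a :=
    fun u v huv => by
    refine (Finset.sum_le_sum fun l _ => Finset.sum_le_sum fun I _ =>
      (by nlinarith [huv l I, sq_nonneg (u l I - 2 * v l I)] :
        u l I ^ 2 ≤ 2 * v l I ^ 2 + 2 * ((k * n * Γ) ^ 2 * a))).trans (le_of_eq ?_)
    simp only [Finset.sum_add_distrib, ← Finset.mul_sum, Finset.sum_const, Finset.card_univ,
      Fintype.card_fin, nsmul_eq_mul, hE]
    ring
  have k1 : b ≤ 2 * c + 2 * E * a := by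
    rw [hc, sum_cons']
    exact key _ _ fun l I => by
      rw [cov_cons, sub_sub_cancel]; exact actA_sq (hb l) _ I
  have k2 : c ≤ 2 * b + 2 * E * a := by
    rw [hc, sum_cons']
    exact key _ _ fun l I => by
      rw [cov_cons, sub_sub_cancel_left, neg_sq]; exact actA_sq (hb l) _ I
  obtain ⟨a1, a2⟩ := h0 y hy (T y)
  obtain ⟨a3, a4⟩ := h1 y hy (cov G T y)
  have p0 := Ar.ipA_nonneg (hG.posDef y (hU hy)) (T y)
  have p1 := Ar.ipA_nonneg (hG.posDef y (hU hy)) (cov G T y)
  have a0 : 0 ≤ a := Finset.sum_nonneg fun _ _ => sq_nonneg _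
  have b0 : 0 ≤ b := Finset.sum_nonneg fun _ _ => Finset.sum_nonneg fun _ _ => sq_nonneg _
  rw [← ha] at a1 a2
  rw [← hc] at a3 a4
  change a + b ≤ _ * (ipA (G y)⁻¹ _ _ + ipA (G y)⁻¹ _ _) ∧
    ipA (G y)⁻¹ _ _ + ipA (G y)⁻¹ _ _ ≤ _ * (a + b)
  constructor
  · nlinarith [mul_le_mul_of_nonneg_left a1 E0, mul_nonneg c0.le p1, mul_nonneg c1.le p0,
      mul_nonneg E0 (mul_nonneg c0.le p1), mul_nonneg E0 (mul_nonneg c1.le p0),
      mul_nonneg E0 (mul_nonneg c1.le p1), mul_nonneg c0.le p0]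
  · nlinarith [mul_le_mul_of_nonneg_left k2 c1.le, mul_nonneg c0.le a0, mul_nonneg c0.le b0,
      mul_nonneg c1.le a0, mul_nonneg E0 (mul_nonneg c0.le a0), mul_nonneg E0 (mul_nonneg c0.le b0),
      mul_nonneg E0 (mul_nonneg c1.le b0)]

theorem ipA_lower (hG : IsRiemannianOn G U) (hy : y ∈ U) (A : Arr n k) (I : Fin k → Fin n)
    (c : ℝ) : ipA (G y)⁻¹ A (fun J => c * ∏ s, G y (J s) (I s)) = A I * c := by
  have e : ∀ I' : Fin k → Fin n, ∑ J : Fin k → Fin n, (∏ s, (G y)⁻¹ (I' s) (J s)) *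
      (A I' * (c * ∏ s, G y (J s) (I s))) = if I' = I then A I' * c else 0 := fun I' => by
    have h1 := Finset.prod_univ_sum (fun _ : Fin k => Finset.univ)
      fun s m => (G y)⁻¹ (I' s) m * G y m (I s)
    simp only [ginv_g hG hy, Fintype.piFinset_univ, Finset.prod_mul_distrib,
      Fintype.prod_boole, ← funext_iff] at h1
    rw [show (if I' = I then A I' * c else 0) = A I' * c * if I' = I then 1 else 0 by simp]
    refine Eq.trans ?_ (congrArg (A I' * c * ·) (h1.symm.trans (by congr)))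
    rw [Finset.mul_sum]
    exact Finset.sum_congr rfl fun _ _ => by ring
  simp only [ipA, e, Finset.sum_ite_eq', Finset.mem_univ, if_true]

theorem mlk (hD : IsCompact D) {f : En n → ℝ} (hf : ContinuousOn f D) :
    MemLp f 2 (volume.restrict D) :=
  (memLp_two_iff_integrable_sq (hf.aestronglyMeasurable hD.measurableSet)).2
    ((hf.pow 2).integrableOn_compact hD)

/-- change of variables for `L²` limits -/
theorem comp_le {V B : Set (En n)} {F : En n → En n} {x : En n} {δ : ℝ} (hV : IsOpen V)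
    (hF : ContDiffOn ℝ ∞ F V) (hi : InjOn F V) (hd : ∀ z ∈ V, Function.Injective (fderiv ℝ F z))
    (hx : closedBall x δ ⊆ V) (hB : ∀ z ∈ V, F z ∈ B) : ∃ C : ℝ, 0 < C ∧ ∀ g : En n → ℝ,
      IntegrableOn g B → ContinuousOn g B → (∀ y, 0 ≤ g y) →
        ∫ z in ball x δ, g (F z) ≤ C * ∫ y in B, g y := by
  have hb : ball x δ ⊆ V := ball_subset_closedBall.trans hx
  have cd : ContinuousOn (fun z => |(fderiv ℝ F z).det|) V :=
    (ContinuousLinearMap.continuous_det.comp_continuousOn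
      (hF.continuousOn_fderiv_of_isOpen hV (by simp))).abs
  obtain ⟨c, c0, hc⟩ := exists_lb (isCompact_closedBall x δ) (cd.mono hx) fun z hz =>
    abs_pos.2 (LinearEquiv.isUnit_det'
      (LinearEquiv.ofInjectiveEndo (fderiv ℝ F z : En n →ₗ[ℝ] En n) (hd z (hx hz)))).ne_zero
  refine ⟨c⁻¹, by positivity, fun g gi gc g0 => (le_inv_mul_iff₀ c0).2 ?_⟩
  have gF : ContinuousOn (fun z => g (F z)) V := gc.comp hF.continuousOn hB
  refine le_trans ?_ (setIntegral_mono_set gi (.of_forall g0)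
    (image_subset_iff.2 fun z hz => hB z (hb hz) : F '' ball x δ ⊆ B).eventuallyLE)
  rw [integral_image_eq_integral_abs_det_fderiv_smul volume measurableSet_ball
    (fun z hz => ((hF.contDiffAt (hV.mem_nhds (hb hz))).differentiableAt
      (by simp)).hasFDerivAt.hasFDerivWithinAt) (hi.mono hb), ← integral_const_mul]
  exact setIntegral_mono_on ((iob hx gF).const_mul _) (iob hx (cd.mul gF)) measurableSet_ball
    fun z hz => mul_le_mul_of_nonneg_right (hc z (ball_subset_closedBall hz)) (g0 _)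

/-- compatibility passes to `L²_loc` limits -/
theorem compat_lim {X : Type*} {α : Type} {A : Atl X α} (h : A.Ok) {s : ℕ → α → Tn 4 k}
    {u : α → Tn 4 k} (hs : ∀ m, A.Sec (s m)) (hu : ∀ a, SmT (u a) (A.U a))
    (hl : ∀ a, ∀ y ∈ A.U a, ∃ r > 0, closedBall y r ⊆ A.U a ∧ ∀ I,
      Tendsto (fun m => ∫ z in ball y r, (s m a z I - u a z I) ^ 2) atTop (𝓝 0)) :
    A.Compat u := by
  intro a b x F t
  obtain ⟨V, hV, hx, tV, hi⟩ := t.exists_nbhd h
  obtain ⟨r, r0, rU, l⟩ := hl a x t.mem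
  obtain ⟨r', r0', rU', l'⟩ := hl b (F x) t.mem'
  have hF : ContDiffOn ℝ ∞ F V := fun z hz => (tV z hz).cda.contDiffWithinAt
  have hFc : ContinuousOn F V := fun z hz => (tV z hz).cont.continuousWithinAt
  have hW : IsOpen (V ∩ F ⁻¹' ball (F x) r') := hFc.isOpen_inter_preimage hV isOpen_ball
  have hx' : x ∈ V ∩ F ⁻¹' ball (F x) r' := ⟨hx, mem_preimage.2 (mem_ball_self r0')⟩
  obtain ⟨δ, δ0, hδ⟩ : ∃ δ, 0 < δ ∧ closedBall x δ ⊆ (V ∩ F ⁻¹' ball (F x) r') ∩ ball x r :=
    nhds_basis_closedBall.mem_iff.1 (inter_mem (hW.mem_nhds hx') (ball_mem_nhds x r0))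
  have hδ1 : closedBall x δ ⊆ V ∩ F ⁻¹' ball (F x) r' := hδ.trans inter_subset_left
  have hδV : closedBall x δ ⊆ V := hδ1.trans inter_subset_left
  obtain ⟨C, C0, hC⟩ := comp_le hW (hF.mono inter_subset_left) (hi.mono inter_subset_left)
    (fun z hz => (tV z hz.1).inj h) hδ1 fun z hz => mem_preimage.1 hz.2
  funext I
  obtain ⟨p, hp⟩ : ∃ p : (Fin k → Fin 4) → E4 → ℝ, p = fun J z =>
    ∏ i, fderiv ℝ F z (EuclideanSpace.single (I i) 1) (J i) := ⟨_, rfl⟩
  have pc : ∀ J, ContinuousOn (p J) V := fun J => hp ▸ continuousOn_finsetProd _ fun i _ =>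
    (EuclideanSpace.proj (J i) : E4 →L[ℝ] ℝ).continuous.comp_continuousOn
      ((hF.continuousOn_fderiv_of_isOpen hV (by simp)).clm_apply continuousOn_const)
  have pc2 : ContinuousOn (fun z => ∑ J, p J z ^ 2) V :=
    continuousOn_finsetSum _ fun J _ => (pc J).pow 2
  obtain ⟨P, P0, hP⟩ := exists_ub (isCompact_closedBall x δ) (pc2.mono hδV)
  have c1 : ∀ m, ContinuousOn (fun z => s m a z I) V := fun m =>
    ((hs m).sm a I).continuousOn.mono fun z hz => (tV z hz).mem
  have c2 : ContinuousOn (fun z => u a z I) V := (hu a I).continuousOn.mono fun z hz => (tV z hz).mem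
  have c3 : ∀ J, ContinuousOn (fun z => u b (F z) J) V := fun J =>
    (hu b J).continuousOn.comp hF.continuousOn fun z hz => (tV z hz).mem'
  have c4 : ContinuousOn (fun z => pullT F (u b) z I) V :=
    (continuousOn_finsetSum Finset.univ fun J _ => (pc J).mul (c3 J)).congr fun z _ => by
      simp only [pullT, evT, hp, Pi.mul_apply]
  have c5 : ∀ m J, ContinuousOn (fun y => (s m b y J - u b y J) ^ 2) (A.U b) := fun m J =>
    (((hs m).sm b J).continuousOn.sub (hu b J).continuousOn).pow 2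
  have hb := ball_subset_closedBall.trans hδV
  refine lim_uniq (v := fun z => u a z I) (v' := fun z => pullT F (u b) z I)
    (f := fun m z => s m a z I) isOpen_ball isOpen_ball
    (fun m => mlb hδV (c1 m)) (fun m => mlb hδV (c1 m))
    (mlb hδV c2) (mlb hδV c4) (c2.mono hb) (c4.mono hb) ?_ ?_ x
    ⟨mem_ball_self δ0, mem_ball_self δ0⟩
  · refine squeeze_zero (fun m => integral_nonneg fun _ => sq_nonneg _) (fun m => ?_) (l I)
    exact setIntegral_mono_set (iob rU ((((hs m).sm a I).continuousOn.sub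
      (hu a I).continuousOn).pow 2)) (.of_forall fun _ => sq_nonneg _)
      (ball_subset_closedBall.trans (hδ.trans inter_subset_right)).eventuallyLE
  · have l2 := (tendsto_finsetSum Finset.univ fun J _ => (l' J).const_mul C).const_mul P
    simp only [mul_zero, Finset.sum_const_zero] at l2
    refine squeeze_zero (fun m => integral_nonneg fun _ => sq_nonneg _) (fun m => ?_) l2
    have c6 : ∀ J, ContinuousOn (fun z => (s m b (F z) J - u b (F z) J) ^ 2) V := fun J =>
      (c5 m J).comp hF.continuousOn fun z hz => (tV z hz).mem'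
    refine le_trans ?_ (mul_le_mul_of_nonneg_left (Finset.sum_le_sum fun J _ => hC _
      (iob rU' (c5 m J)) ((c5 m J).mono (ball_subset_closedBall.trans rU')) fun _ => sq_nonneg _)
      P0.le)
    rw [← integral_finsetSum _ fun J _ => iob hδV (c6 J), ← integral_const_mul]
    refine setIntegral_mono_on (iob hδV (((c1 m).sub c4).pow 2))
      ((integrable_finsetSum _ fun J _ => iob hδV (c6 J)).const_mul _) measurableSet_ball
      fun z hz => ?_
    have e : s m a z I - pullT F (u b) z I = ∑ J, p J z * (s m b (F z) J - u b (F z) J) := by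
      rw [(hs m).compat a b z F (tV z (hb hz))]
      simp only [pullT, evT, hp, mul_sub, Finset.sum_sub_distrib]
    rw [e]
    exact (Finset.sum_mul_sq_le_sq_mul_sq _ _ _).trans (mul_le_mul_of_nonneg_right
      ((le_abs_self _).trans (hP z (ball_subset_closedBall hz)))
      (Finset.sum_nonneg fun _ _ => sq_nonneg _))

end Crest.Agent.N207.K

end
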