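import Crest.Agent.N207.K.Ins1

/-!
# Row 207, block K (helper1): elliptic systems on an atlas
-/

set_option autoImplicit false
set_option linter.unusedSectionVars false
open MeasureTheory Set Filter Topology Metric
open scoped ContDiff
open Crest.GeometryTopology.CoordMetric
open Crest.Agent.R249.SReg352 Crest.Agent.R249.EV Crest.Agent.N207.I

noncomputable section

namespace Crest.Agent.N207.K

open Sys

variable {X : Type*} {α : Type} [Fintype α] {k : ℕ}

/-- `σ`-symmetric smooth sections -/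
def WS (A : Atl X α) (σ : Equiv.Perm (Fin k)) : Submodule ℝ (α → Tn 4 k) where
  carrier := {s | A.Sec s ∧ ∀ a, ∀ x ∈ A.U a, ∀ I, s a x (I ∘ σ) = s a x I}
  zero_mem' := ⟨Atl.Sec.zero, fun _ _ _ _ => rfl⟩
  add_mem' hs ht := ⟨hs.1.add ht.1, fun a x hx I => by
    simp only [Pi.add_apply, hs.2 a x hx I, ht.2 a x hx I]⟩
  smul_mem' c _ hs := ⟨hs.1.smul c, fun a x hx I => by simp only [Pi.smul_apply, hs.2 a x hx I]⟩

/-- the sections with compact support -/
def WT (A : Atl X α) (σ : Equiv.Perm (Fin k)) : Submodule ℝ (WS A σ) where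
  carrier := {t | ∃ S, A.CS S ∧ A.Van t.1 S}
  zero_mem' := ⟨∅, ⟨fun _ => ∅, fun _ => ⟨isCompact_empty, empty_subset _⟩, empty_subset _⟩,
    fun _ _ _ h => (h rfl).elim⟩
  add_mem' := fun ⟨_, h1, h2⟩ ⟨_, h3, h4⟩ => ⟨_, h1.union h3, h2.add h4⟩
  smul_mem' c _ := fun ⟨S, h1, h2⟩ => ⟨S, h1, h2.of_imp fun b y _ h => by simp [h]⟩

/-- the data of a problem on an atlas: pairing `∫ η ⟨s, t⟩_G dV_G`, energy `∫ e s t dV_{G0}` -/
structure Dat (A : Atl X α) (σ : Equiv.Perm (Fin k)) (χ : α → X → ℝ) (K : α → Set E4)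
    (G G0 : α → MetricField 4) (η : α → E4 → ℝ)
    (e : (α → Tn 4 k) → (α → Tn 4 k) → α → E4 → ℝ) (P : (α → Tn 4 k) → α → Tn 4 k) : Prop where
  ok : A.Ok
  pou : A.PoU χ K
  met : A.IsMet G
  met0 : A.IsMet G0
  inv : ∀ i, σ (σ i) = i
  ηc : A.CompF η
  ηs : ∀ a, ContDiffOn ℝ ∞ (η a) (A.U a)
  ηp : ∀ a, ∀ x ∈ A.U a, 0 < η a x
  lin : ∀ s s' t, A.Sec s → A.Sec s' → A.Sec t → ∀ (b c : ℝ) a, ∀ y ∈ A.U a,
    e (b • s + c • s') t a y = b * e s t a y + c * e s' t a y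
  symm : ∀ s t a, ∀ y ∈ A.U a, e s t a y = e t s a y
  ct : ∀ s t, A.Sec s → A.Sec t → A.Ct (e s t)
  van : ∀ s t a, ∀ y ∈ A.U a, t a =ᶠ[𝓝 y] 0 → e s t a y = 0
  lo : ∀ a D, IsCompact D → D ⊆ A.U a → ∃ C : ℝ, 0 < C ∧
    ∀ s, ∀ y ∈ D, jT (s a) y ≤ C * e s s a y
  P_mem : ∀ s ∈ WS A σ, P s ∈ WS A σ
  P_eq : ∀ a, ∃ H B C, Cf (A.U a) H B C ∧ ∀ s ∈ WS A σ, ∀ I, ∀ y ∈ A.U a,
    P s a y I = opc H B C (fun J z => s a z J) I y

namespace Dat

variable {A : Atl X α} {σ : Equiv.Perm (Fin k)} {χ : α → X → ℝ} {K : α → Set E4}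
  {G G0 : α → MetricField 4} {η : α → E4 → ℝ}
  {e : (α → Tn 4 k) → (α → Tn 4 k) → α → E4 → ℝ} {P : (α → Tn 4 k) → α → Tn 4 k}
  (d : Dat A σ χ K G G0 η e P)
include d

theorem ct_ip {s t : α → Tn 4 k} (hs : A.Sec s) (ht : A.Sec t) :
    A.Ct fun a x => η a x * ip (G a) (s a) (t a) x := fun a =>
  (d.ηs a).continuousOn.mul (hs.ct_ip d.met ht a)

theorem ig_ip (s : WS A σ) (t : WT A σ) :
    A.Intg χ G fun a x => η a x * ip (G a) (s.1 a) (t.1.1 a) x := by
  obtain ⟨S, h1, h2⟩ := t.2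
  exact Atl.intg_of_cs d.ok d.met d.pou h1 (d.ct_ip s.2.1 t.1.2.1)
    ((h2.ip_right s.1).of_imp fun b y _ h => by rw [h, mul_zero])

theorem ig_e (s : WS A σ) (t : WT A σ) : A.Intg χ G0 (e s.1 t.1.1) := by
  obtain ⟨S, h1, h2⟩ := t.2
  obtain ⟨S', h3, h4, h5⟩ := h1.exists_cl d.ok
  exact Atl.intg_of_cs d.ok d.met0 d.pou h4 (d.ct _ _ s.2.1 t.1.2.1)
    ((h2.mono h3).op d.ok h5 fun b y hy h => d.van _ _ b y hy h)

theorem e0 (s : α → Tn 4 k) (a : α) {y : E4} (hy : y ∈ A.U a) : 0 ≤ e s s a y := by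
  obtain ⟨C, hC, h1⟩ := d.lo a {y} isCompact_singleton (singleton_subset_iff.2 hy)
  exact nonneg_of_mul_nonneg_right ((jet_nonneg _ _).trans (h1 s y rfl)) hC

theorem N_lin (b c : ℝ) (s s' t : WT A σ) : A.int χ G0 (e (b • s + c • s').1.1 t.1.1) =
    b * A.int χ G0 (e s.1.1 t.1.1) + c * A.int χ G0 (e s'.1.1 t.1.1) := by
  rw [← Atl.int_const_mul, ← Atl.int_const_mul,
    ← Atl.int_add ((d.ig_e _ t).const_mul _) ((d.ig_e _ t).const_mul _)]
  exact Atl.int_congr d.ok fun a x hx => d.lin _ _ _ s.1.2.1 s'.1.2.1 t.1.2.1 b c a x hx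

theorem N_symm (s t : α → Tn 4 k) : A.int χ G0 (e s t) = A.int χ G0 (e t s) :=
  Atl.int_congr d.ok fun a x hx => d.symm s t a x hx

/-- the abstract problem -/
def pb : Pb 4 (Fin k → Fin 4) α (WS A σ) where
  U := A.U
  c := { toFun := fun s a I y => s.1 a y I, map_add' := fun _ _ => rfl, map_smul' := fun _ _ => rfl }
  P s := ⟨P s.1, d.P_mem _ s.2⟩
  T0 := WT A σ
  ip := LinearMap.mk₂ ℝ (fun s t => A.int χ G fun a x => η a x * ip (G a) (s.1 a) (t.1.1 a) x)
    (fun s s' t => by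
      rw [← Atl.int_add (d.ig_ip s t) (d.ig_ip s' t)]
      simp only [ip, Submodule.coe_add, Pi.add_apply, ipA_add_left, mul_add])
    (fun c s t => by
      rw [smul_eq_mul, ← Atl.int_const_mul]
      simp only [ip, Submodule.coe_smul, Pi.smul_apply, ipA_smul_left, mul_left_comm c])
    (fun s t t' => by
      rw [← Atl.int_add (d.ig_ip s t) (d.ig_ip s t')]
      simp only [ip, Submodule.coe_add, Pi.add_apply, ipA_add_right, mul_add])
    (fun c s t => by
      rw [smul_eq_mul, ← Atl.int_const_mul]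
      simp only [ip, Submodule.coe_smul, Pi.smul_apply, ipA_smul_right, mul_left_comm c])
  N := LinearMap.mk₂ ℝ (fun s t => A.int χ G0 (e s.1.1 t.1.1))
    (fun s s' t => by simpa using d.N_lin 1 1 s s' t)
    (fun c s t => by simpa using d.N_lin c 0 s s t)
    (fun s t t' => by
      simpa [d.N_symm s.1.1] using d.N_lin 1 1 t t' s)
    (fun c s t => by simpa [d.N_symm s.1.1] using d.N_lin c 0 t t s)

theorem pb_ip (s : WS A σ) (t : WT A σ) :
    d.pb.ip s t = A.int χ G fun a x => η a x * ip (G a) (s.1 a) (t.1.1 a) x := rfl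

theorem pb_N (s t : WT A σ) : d.pb.N s t = A.int χ G0 (e s.1.1 t.1.1) := rfl

theorem pb_c (s : WS A σ) (a : α) : d.pb.c s a = fun I y => s.1 a y I := rfl

theorem den_supp {G' : α → MetricField 4} {a : α} {x : E4} (hx : x ∈ A.U a)
    (h : A.den χ G' a x ≠ 0) : A.c a x ∈ A.c a '' K a :=
  d.pou.supp a a x hx fun h0 => h (by simp [Atl.den, h0])

theorem rep (t : WT A σ) : ∃ (C : ℝ) (D : α → Set E4), 0 ≤ C ∧
    (∀ a, IsCompact (D a) ∧ D a ⊆ A.U a) ∧
    ∀ s, |d.pb.ip s t| ≤ C * √(∑ a, ∫ y in D a, jet (d.pb.c s a) y) := by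
  obtain ⟨S, h1, h2⟩ := t.2
  choose D hD hU h3 using fun a => h1.exists_cpt d.ok (d.pou.sub a) (d.pou.cl a)
  obtain ⟨w, hw⟩ : ∃ w : α → (Fin k → Fin 4) → E4 → ℝ, w = fun a I x => A.den χ G a x * η a x *
    ∑ J, (∏ i, (G a x)⁻¹ (I i) (J i)) * t.1.1 a x J := ⟨_, rfl⟩
  have wc : ∀ a I, ContinuousOn (w a I) (D a) := fun a I => hw ▸
    (((Atl.sm_den d.met d.pou a).continuousOn.mul (d.ηs a).continuousOn).mul
      (continuousOn_finsetSum _ fun J _ => (continuousOn_finsetProd _ fun i _ =>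
        (sm_inv (d.met.riem a) _ _).continuousOn).mul (t.1.2.1.sm a J).continuousOn)).mono (hU a)
  refine ⟨∑ a, ∑ I, √(∫ y in D a, w a I y ^ 2), D, by positivity, fun a => ⟨hD a, hU a⟩,
    fun s => ?_⟩
  have sc : ∀ a I, ContinuousOn (fun y => s.1 a y I) (D a) := fun a I =>
    (s.2.1.sm a I).continuousOn.mono (hU a)
  have jc : ∀ a, ContinuousOn (jet (d.pb.c s a)) (D a) := fun a =>
    (jet_cont (d.ok.isOpen a) (s.2.1.sm a)).mono (hU a)
  have j0 : ∀ a, 0 ≤ ∫ y in D a, jet (d.pb.c s a) y := fun a =>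
    integral_nonneg fun y => jet_nonneg _ y
  rw [pb_ip, Atl.int, Finset.sum_mul]
  refine (Finset.abs_sum_le_sum_abs _ _).trans (Finset.sum_le_sum fun a _ => ?_)
  rw [setIntegral_eq_of_subset_of_forall_sdiff_eq_zero (d.ok.isOpen a).measurableSet (hU a)
    fun x hx => ?_, setIntegral_congr_fun (hD a).measurableSet
      (g := fun x => ∑ I, w a I x * s.1 a x I) fun x _ => ?_, integral_finsetSum _
        (f := fun I x => w a I x * s.1 a x I) fun I _ =>
        ((wc a I).mul (sc a I)).integrableOn_compact (hD a), Finset.sum_mul]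
  · refine (Finset.abs_sum_le_sum_abs _ _).trans (Finset.sum_le_sum fun I _ => ?_)
    refine (cs_int (mlk (hD a) (wc a I)) (mlk (hD a) (sc a I))).trans
      (mul_le_mul_of_nonneg_left (Real.sqrt_le_sqrt ?_) (Real.sqrt_nonneg _))
    refine le_trans (setIntegral_mono_on (((sc a I).pow 2).integrableOn_compact (hD a))
      ((jc a).integrableOn_compact (hD a)) (hD a).measurableSet fun y _ =>
        sq_le_jet (d.pb.c s a) I y)
      (Finset.single_le_sum (fun a _ => j0 a) (Finset.mem_univ a))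
  · simp only [hw, ip, ipA, Finset.mul_sum, Finset.sum_mul]
    exact Finset.sum_congr rfl fun _ _ => Finset.sum_congr rfl fun _ _ => by ring
  · by_contra hn
    refine hx.2 (h3 a x hx.1 (d.den_supp hx.1 (left_ne_zero_of_mul hn)) (h2 a x hx.1 fun h0 => ?_))
    simp [ip, h0, ipA_zero_right] at hn

theorem loc1 {a : α} {y₀ : E4} {r : ℝ} (hU : closedBall y₀ r ⊆ A.U a)
    (hi : InjOn (A.c a) (closedBall y₀ r)) : ∃ C : ℝ, 0 < C ∧
      ∀ s : WT A σ, ∫ y in ball y₀ r, jet (d.pb.c s a) y ≤ C * d.pb.N s s := by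
  classical
  have hK := isCompact_closedBall y₀ r
  have hB : ball y₀ r ⊆ A.U a := ball_subset_closedBall.trans hU
  choose D hD hDU h3 using fun b => Atl.exists_cpt₁ d.ok (d.pou.sub b) (d.pou.cl b) hK hU
  choose C1 c1 h1 using fun b => d.lo b _ (hD b) (hDU b)
  choose C2 c2 h2 using fun b => jet_cmp (d.met0.riem b) (hD b) (hDU b) k
  obtain ⟨C3, c3, h4⟩ := jet_cmp (d.met0.riem a) hK hU k
  obtain ⟨c4, c4p, h5⟩ := exists_lb hK ((sm_sqrt_det (d.met0.riem a)).continuousOn.mono hU)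
    fun y hy => Real.sqrt_pos.2 ((d.met0.riem a).posDef y (hU hy)).det_pos
  set C := ∑ b, C2 b * C1 b with hC
  have hCb : ∀ b, C2 b * C1 b ≤ C := fun b =>
    Finset.single_le_sum (fun b _ => (mul_pos (c2 b) (c1 b)).le) (Finset.mem_univ b)
  have C0 : 0 < C := (mul_pos (c2 a) (c1 a)).trans_le (hCb a)
  refine ⟨C3 / c4 * C, by positivity, fun s => ?_⟩
  have hs := s.1.2.1
  obtain ⟨E, hE⟩ : ∃ E : α → E4 → ℝ, E = fun b x =>
    nsq (G0 b) (cov (G0 b) (s.1.1 b)) x + nsq (G0 b) (s.1.1 b) x := ⟨_, rfl⟩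
  have Ec : A.Ct E := fun b => hE ▸
    ((hs.cov d.ok d.met0).ct_ip d.met0 (hs.cov d.ok d.met0) b).add (hs.ct_ip d.met0 hs b)
  have Ef : A.CompF E := hE ▸ (Atl.Compat.nsq d.ok d.met0 (hs.cov d.ok d.met0).compat).map₂
    (Atl.Compat.nsq d.ok d.met0 hs.compat) (· + ·)
  have E0 : ∀ b, ∀ x ∈ A.U b, 0 ≤ E b x := fun b x hx => hE ▸
    add_nonneg (Ar.ipA_nonneg ((d.met0.riem b).posDef x hx) _)
      (Ar.ipA_nonneg ((d.met0.riem b).posDef x hx) _)
  obtain ⟨f, hf⟩ : ∃ f : α → E4 → ℝ, f = fun b x =>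
    if A.c b x ∈ A.c a '' ball y₀ r then E b x else 0 := ⟨_, rfl⟩
  have fc : A.CompF f := fun b b' x hx y hy h => by simp only [hf, h, Ef b b' x hx y hy h]
  have fm : A.Ms f := fun b => by
    refine ((Ec.ms d.ok b).indicator (Atl.isOpen_pre d.ok isOpen_ball hB b).measurableSet).congr ?_
    filter_upwards [ae_restrict_mem (d.ok.isOpen b).measurableSet] with x hx
    simp only [hf, indicator, mem_ofPred_eq, hx, true_and]
  obtain ⟨i1, i2⟩ := Atl.int_inj d.ok d.met0 d.pou fc fm isOpen_ball hB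
    (hi.mono ball_subset_closedBall) fun b y _ h => by
      by_contra hn
      exact h (by simp only [hf, hn, if_false])
  have fa : ∀ x ∈ ball y₀ r, f a x = E a x := fun x hx => by
    simp only [hf, mem_image_of_mem _ hx, if_true]
  have i3 : IntegrableOn (fun x => √(G0 a x).det * f a x) (ball y₀ r) :=
    (iob hU ((sm_sqrt_det (d.met0.riem a)).continuousOn.mul (Ec a))).congr_fun
      (fun x hx => by simp only [Pi.mul_apply, fa x hx]) measurableSet_ball
  have k1 : ∫ y in ball y₀ r, jet (d.pb.c s a) y ≤ C3 / c4 * A.int χ G0 f := by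
    rw [i2 (i1.2 i3), ← integral_const_mul]
    refine setIntegral_mono_on (iob hU (jet_cont (d.ok.isOpen a) (hs.sm a))) (i3.const_mul _)
      measurableSet_ball fun y hy => ?_
    have hy' := ball_subset_closedBall hy
    refine (h4 y hy' (s.1.1 a)).1.trans ?_
    rw [fa y hy]
    have := mul_le_mul_of_nonneg_right (h5 y hy') (E0 a y (hB hy))
    calc _ = C3 / c4 * (c4 * E a y) := by rw [hE]; field_simp
      _ ≤ _ := by gcongr
  refine k1.trans ?_
  rw [mul_assoc, pb_N, ← Atl.int_const_mul C]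
  refine mul_le_mul_of_nonneg_left (Finset.sum_le_sum fun b _ => setIntegral_mono_on
    (i1.2 i3 b) (((d.ig_e s.1 s).const_mul C) b) (d.ok.isOpen b).measurableSet fun x hx => ?_)
    (by positivity)
  by_cases h0 : A.den χ G0 b x = 0
  · simp [h0]
  refine mul_le_mul_of_nonneg_left ?_ (Atl.den_nonneg d.pou b x)
  have e0 := d.e0 s.1.1 b hx
  rw [hf]
  dsimp only
  split_ifs with h
  · have hx' := h3 b x hx (d.den_supp hx h0) (image_mono ball_subset_closedBall h)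
    rw [hE]
    refine (h2 b x hx' _).2.trans ((mul_le_mul_of_nonneg_left (h1 b _ x hx') (c2 b).le).trans ?_)
    rw [← mul_assoc]
    exact mul_le_mul_of_nonneg_right (hCb b) e0
  · positivity

theorem loc2 {a : α} {B : Set E4} (hB : IsOpen B) (hU : B ⊆ A.U a) (hi : InjOn (A.c a) B)
    (I : Fin k → Fin 4) {φ : E4 → ℝ} (hφ : TO B φ) :
    ∃ t, ∀ s, d.pb.ip s t = ∫ y, d.pb.c s a I y * φ y := by
  have hG := riemOn_mono (d.met.riem a) hB hU
  have hp : ∀ y ∈ B, η a y * √(G a y).det ≠ 0 := fun y hy =>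
    (mul_pos (d.ηp a y (hU hy)) (Real.sqrt_pos.2 (hG.posDef y hy).det_pos)).ne'
  obtain ⟨t, t1, t2, t3, t4, -⟩ := Atl.exists_extT d.ok hB hU hi
    (T := fun y J => φ y / (η a y * √(G a y).det) * ∏ i, G a y (J i) (I i))
    (fun J => (hφ.1.1.contDiffOn.div (((d.ηs a).mono hU).mul (sm_sqrt_det hG)) hp).mul
      (contDiffOn_prod fun i _ => hG.contDiffOn _ _)) hφ.1.2 hφ.2 fun x _ h => by
        by_contra hn
        exact h (by funext J; simp [image_eq_zero_of_notMem_tsupport hn])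
  have sσ : ∀ J : Fin k → Fin 4, (J ∘ σ) ∘ σ = J := fun J => funext fun i => by simp [d.inv]
  refine ⟨⟨⟨(1 / 2 : ℝ) • (t + fun a => prmT σ (t a)), (t1.add (t1.prmT σ)).smul _,
    fun b x _ J => ?_⟩, _, t4, t3.of_imp fun b y _ h => ?_⟩, fun s => ?_⟩
  · simp only [Pi.smul_apply, Pi.add_apply, prmT, sσ, add_comm]
  · funext J; simp [prmT, h]
  obtain ⟨i1, i2⟩ := Atl.int_inj d.ok d.met d.pou
    (d.ηc.map₂ (Atl.Compat.ip d.ok d.met s.2.1.compat t1.compat) (· * ·))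
    ((d.ct_ip s.2.1 t1).ms d.ok) hB hU hi (((t3.ip_right s.1).of_imp fun b y _ h => by
      rw [h, mul_zero]).mono (image_mono hφ.2))
  rw [pb_ip, Atl.int_congr d.ok (g := fun a x => η a x * ip (G a) (s.1 a) (t a) x)
    fun b x hx => ?_, i2 (Atl.intg_of_cs d.ok d.met d.pou t4 (d.ct_ip s.2.1 t1)
      ((t3.ip_right s.1).of_imp fun b y _ h => by rw [h, mul_zero])), ← int_test hφ]
  · refine setIntegral_congr_fun hB.measurableSet fun y hy => ?_
    have := hp y hy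
    simp only [ip, t2 y hy, ipA_lower hG hy, pb_c]
    field_simp [left_ne_zero_of_mul this, right_ne_zero_of_mul this]
  · have := Ar.ipA_perm (G b x)⁻¹ σ (s.1 b x) (t b x)
    simp only [s.2.2 b x hx] at this
    simp only [ip, Pi.smul_apply, Pi.add_apply, ipA_smul_right, ipA_add_right]
    rw [show prmT σ (t b) x = fun I => t b x (I ∘ σ) from rfl, this]
    ring

theorem pb_ok {q : ℝ} (q0 : 0 ≤ q)
    (hq : ∀ s t : WT A σ, |d.pb.ip (d.pb.P s) t| ≤ q * √(d.pb.N s s) * √(d.pb.N t t)) :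
    d.pb.Ok q where
  op := d.ok.isOpen
  smc s := s.2.1.sm
  symm s t := d.N_symm _ _
  N0 s := Atl.int_nonneg d.ok d.pou fun a _ hx => d.e0 _ a hx
  ip_symm s t := Atl.int_congr d.ok fun a x hx => by rw [ip_comm (d.met.riem a) hx]
  q0 := q0
  P_eq a := by
    obtain ⟨H, B, C, h1, h2⟩ := d.P_eq a
    exact ⟨H, B, C, h1, fun s => h2 s.1 s.2⟩
  Q_le := hq
  rep := d.rep
  loc a y₀ hy := by
    obtain ⟨r, r0, hU, hi⟩ := d.ok.exists_ball hy
    exact ⟨r, r0, hU, d.loc1 hU hi, fun I φ hφ => d.loc2 isOpen_ball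
      (ball_subset_closedBall.trans hU) (hi.mono ball_subset_closedBall) I hφ⟩
  closed s u hu hl := by
    refine ⟨⟨fun a y I => u a I y, ⟨hu, compat_lim d.ok (fun m => (s m).2.1) hu hl⟩,
      fun a x hx I => ?_⟩, fun _ _ _ _ => rfl⟩
    obtain ⟨r, r0, hU, l⟩ := hl a x hx
    have hB := ball_subset_closedBall.trans hU
    have m1 := fun m => mlb hU ((s m).2.1.sm a I).continuousOn
    exact lim_uniq (v := u a (I ∘ σ)) (v' := u a I) isOpen_ball isOpen_ball m1 m1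
      (mlb hU (hu a _).continuousOn) (mlb hU (hu a _).continuousOn)
      ((hu a _).continuousOn.mono hB) ((hu a _).continuousOn.mono hB)
      ((l (I ∘ σ)).congr fun m => setIntegral_congr_fun measurableSet_ball fun y hy => by
        simp only [pb_c, (s m).2.2 a y (hB hy) I]) (l I) x ⟨mem_ball_self r0, mem_ball_self r0⟩

end Dat

end Crest.Agent.N207.K

end
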