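import Crest.Agent.N207.K.Eta
import Crest.Agent.N207.K.Ins3

/-!
# Row 207, block K (helper1): the analytic leaves of `klin`
-/

set_option autoImplicit false

open scoped ContDiff
open Metric Set Filter Topology MeasureTheory
open Crest.GeometryTopology.CoordMetric
open Crest.Agent.NLib.Ell Crest.Agent.N207.I Crest.Agent.N207.CB

noncomputable section

namespace Crest.Agent.N207.K

variable {M : Type*} (T : TD M) (g : T.V → Fam T) (σ : ℝ)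

/-- **SRC**: the dual norm of a source of size `N / rad²` vanishing on `4 ≤ τ` -/
def SRC : Prop :=
  ∀ T1 : ℝ, 4 / T.r ≤ Real.exp T1 → ∃ T2 C : ℝ, 0 ≤ C ∧ ∀ v T0, T2 ≤ T0 →
    ∀ (F : Fam T) (N : ℝ), 0 ≤ N → Sec T v F →
    (∀ u, ∀ x ∈ (T.core v).U (Sum.inr u), 4 ≤ tau T v u T0 x → F (Sum.inr u) x = 0) →
    (∀ s, ∀ x ∈ T.cK v s, ∀ a b, |rad T s x ^ 2 * F s x a b| ≤ N) → ∀ t, Tst T v t →
      |IK T g T0 v (eta T v σ T1) F t| ≤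
        C * Real.exp (σ * T0) * N * √(NK T g v (eta T v σ T1) t t)

/-- **CMP**: the weighted energy controls the jets on compact sets of the charts -/
def CMP (T1 : ℝ) : Prop :=
  ∀ v s (D : Set E4), IsCompact D → D ⊆ (T.core v).U s → ∃ C : ℝ, 0 ≤ C ∧ ∀ t, Tst T v t →
    ∀ a b, ∫ y in D, t s y a b ^ 2 ≤ C * NK T g v (eta T v σ T1) t t

/-- **CEL**: `L²` bound on the enlarged cells -/
def CEL : Prop :=
  ∀ T1 : ℝ, 4 / T.r ≤ Real.exp T1 → CMP T g σ T1 → ∃ C : ℝ, 0 ≤ C ∧ ∀ v t, Tst T v t →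
    ∀ s, ∀ x ∈ T.cK v s, ∀ a b, ∫ y in ball (0 : E4) (9 / 8), t s (x + rad T s x • y) a b ^ 2 ≤
      C * scl T s x ^ (-(2 * σ)) * NK T g v (eta T v σ T1) t t

/-- **EST**: the estimate on one cell -/
def EST : Prop :=
  ∀ (k : ℕ) (δ : ℝ), 0 < δ → δ ≤ 1 / 8 → ∃ T2 C : ℝ, 0 < C ∧ ∀ v T0, T2 ≤ T0 →
    ∀ (w H : Fam T) (N S : ℝ), 0 ≤ N → 0 ≤ S → Sec T v w →
    (∀ s, ∀ x ∈ (T.core v).U s, Pop (gb T g T0 v s) (w s) x = H s x) → ∀ s, ∀ x ∈ T.cK v s,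
    (∀ y0 ∈ B1, ∀ a b,
      CKA (1 / 2) (ball y0 δ) k N fun y => rad T s x ^ 2 * H s (x + rad T s x • y) a b) →
    (∀ a b, ∫ y in ball (0 : E4) (9 / 8), w s (x + rad T s x • y) a b ^ 2 ≤ S ^ 2) →
    ∀ a b, CKA (1 / 2) B1 (k + 2) (C * (N + S)) fun y => w s (x + rad T s x • y) a b

/-- **FIN**: from the `L²` bounds on the cells to the two estimates of `KAt.ex` -/
def FIN : Prop :=
  ∀ (κ : Type) [Fintype κ] (v : T.V) (ψ : κ → Fam T) (T1 : ℝ) (k : ℕ), (∀ j, Sec T v (ψ j)) →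
    (∀ j, CB.Van T v T1 0 (ψ j)) → ∃ T2 C : ℝ, 0 < C ∧ ∀ T0, T2 ≤ T0 →
    ∀ (w F : Fam T) (μ : κ → ℝ) (N S : ℝ), 0 ≤ N → 0 ≤ S → Sec T v w → Sec T v F →
    (∀ u, ∀ x ∈ (T.core v).U (Sum.inr u), 4 ≤ tau T v u T0 x → F (Sum.inr u) x = 0) →
    CBd T v univ k 2 N F → ‖μ‖ ≤ S →
    (∀ s, ∀ x ∈ (T.core v).U s, Pop (gb T g T0 v s) (w s) x = F s x + ∑ j, μ j • ψ j s x) →
    (∀ s, ∀ x ∈ T.cK v s, ∀ a b, ∫ y in ball (0 : E4) (9 / 8), w s (x + rad T s x • y) a b ^ 2 ≤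
      (S * scl T s x ^ (-σ)) ^ 2) →
    Grw T v σ w ∧ CBd T v (Reg T v T0 5) (k + 2) 0 (C * (N + S * Real.exp (σ * T0))) w

end Crest.Agent.N207.K

end
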