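import Crest.Agent.N207.K.Kl1
import Crest.Agent.N207.K.Gbj
import Crest.Agent.N207.K.Trf

/-!
# Row 207, block K (helper1): dictionary between `Pb` and the cores
-/

set_option autoImplicit false

open scoped ContDiff
open Metric Set Filter Topology MeasureTheory
open Crest.GeometryTopology.CoordMetric
open Crest.Agent.NLib.Ell Crest.Agent.N207.I Crest.Agent.N207.CB Crest.Agent.R249.EV

noncomputable section

namespace Crest.Agent.N207.K

open Sys

theorem aff_le {f : E4 → ℝ} {x : E4} {ρ R : ℝ} (hρ : 0 < ρ)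
    (hf : ContinuousOn f ((fun y => x + ρ • y) '' closedBall 0 R)) (h0 : ∀ y, 0 ≤ f y) :
    ∫ y in ball (0 : E4) R, f (x + ρ • y) ≤
      (ρ ^ 4)⁻¹ * ∫ y in (fun y => x + ρ • y) '' closedBall 0 R, f y := by
  have hd : ∀ z ∈ ball (0 : E4) R, HasFDerivWithinAt (fun z : E4 => x + ρ • z)
      (ρ • ContinuousLinearMap.id ℝ E4) (ball 0 R) z := fun z _ =>
    (((hasFDerivAt_id z).const_smul ρ).const_add x).hasFDerivWithinAt
  have inj : InjOn (fun z : E4 => x + ρ • z) (ball 0 R) :=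
    fun z _ z' _ h => smul_right_injective _ hρ.ne' (add_left_cancel h)
  have dt : |(ρ • ContinuousLinearMap.id ℝ E4).det| = ρ ^ 4 := by
    rw [ContinuousLinearMap.det, ContinuousLinearMap.toLinearMap_smul, LinearMap.det_smul]
    simp [abs_of_pos hρ]
  have e1 := integral_image_eq_integral_abs_det_fderiv_smul volume measurableSet_ball hd inj f
  simp only [dt, smul_eq_mul, integral_const_mul] at e1
  rw [le_inv_mul_iff₀ (by positivity), ← e1]
  exact setIntegral_mono_set (hf.integrableOn_compact ((isCompact_closedBall _ _).image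
    (by fun_prop))) (Eventually.of_forall h0) (image_mono ball_subset_closedBall).eventuallyLE

variable {M : Type*} {T : TD M} {g : T.V → Fam T} {v : T.V} {σ T0 T1 : ℝ} {w t F G : Fam T}

theorem cell_U (h : T.Ok) {s : T.S} {x y : E4} (hx : x ∈ T.cK v s) (hy : ‖y‖ ≤ 9 / 8) :
    x + rad T s x • y ∈ (T.core v).U s := by
  rcases s with a | u
  · obtain ⟨h1, h2⟩ := TD.mem_cK_inl.1 hx
    refine TD.mem_core_inl.2 ⟨h1, (norm_add_le _ _).trans_lt ?_⟩
    rw [norm_smul, show ‖rad T (Sum.inl a) x‖ = 1 / 8 by simp [rad]]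
    linarith
  · exact end_cell h hx hy

theorem pair_eq (h : T.Ok) (hg : (T.core v).IsMet (g v)) (hT : T1 ≤ T0) (h0 : CB.Van T v T1 0 t)
    (w : Fam T) : IK T g T0 v (eta T v σ T1) w t = pair T g v t w := by
  refine Finset.sum_congr rfl fun s _ =>
    setIntegral_congr_fun ((h.core_ok v).isOpen s).measurableSet fun x hx => ?_
  have c := ip_comm (hg.riem s) hx (matT (t s)) (matT (w s))
  rcases s with a | u
  · simp only [c, eta, Sum.elim_inl, one_pow, one_mul]; rfl
  by_cases ht : 0 ≤ tau T v u T1 x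
  · have z : matT (t (Sum.inr u)) x = 0 := by funext I; simp [matT, h0 u x hx ht]
    simp only [c]
    simp only [ip, z, ipA_zero_right, mul_zero]
  · have a : tau T v u T0 x ≤ 0 := by simp only [tau] at ht ⊢; linarith
    simp only [c, eta_one (not_le.1 ht).le, one_pow, one_mul]
    simp only [ip, Atl.den, Ga.gb_eq a]

theorem ofW_lc {κ : Type} [Fintype κ] (a : κ → ℝ) (u : κ → WT (T.core v) sw) :
    ofW (∑ j, a j • u j).1 = ∑ j, a j • ofW (u j).1 := by
  ext s x p q
  simp [ofW, ofT, Finset.sum_apply, Matrix.sum_apply]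

section
variable {η : T.S → E4 → ℝ} (d : Dat (T.core v) sw T.χ (T.cK v) (gb T g T0 v) (g v)
  (fun a x => η a x ^ 2) (eK T η) (pK (gb T g T0 v)))

theorem ip_eq (s : WS (T.core v) sw) (t : WT (T.core v) sw) :
    d.pb.ip s t = IK T g T0 v η (ofW s) (ofW t.1) := by
  simp only [Dat.pb_ip, IK, ofW, matT_ofT]

theorem N_eq (s t : WT (T.core v) sw) : d.pb.N s t = NK T g v η (ofW s.1) (ofW t.1) := by
  simp only [Dat.pb_N, NK, ofW, matT_ofT]; rfl

theorem P_eq (s : WS (T.core v) sw) : ofW (d.pb.P s) = PK T g T0 v (ofW s) := rfl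

theorem ok_of {q : ℝ} (q0 : 0 ≤ q) (hq : ∀ s t, Tst T v s → Tst T v t →
    |IK T g T0 v η (PK T g T0 v s) t| ≤ q * √(NK T g v η s s) * √(NK T g v η t t)) :
    d.pb.Ok q := d.pb_ok q0 fun s t => by
  rw [ip_eq, N_eq, N_eq, P_eq]; exact hq _ _ (tst_ofW s) (tst_ofW t)

theorem cmp_of {q : ℝ} (ok : d.pb.Ok q) (s : T.S) (D : Set E4) (hD : IsCompact D)
    (hU : D ⊆ (T.core v).U s) : ∃ C : ℝ, 0 ≤ C ∧ ∀ t, Tst T v t →
      ∀ a b, ∫ y in D, t s y a b ^ 2 ≤ C * NK T g v η t t := by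
  obtain ⟨C, C0, hC⟩ := ok.cmp s hD hU
  refine ⟨C, C0, fun t ht a b => le_trans ?_ (hC (toT ht))⟩
  exact setIntegral_mono_on ((((ht.sec.sec.sm s ![a, b]).continuousOn.pow 2).mono
    hU).integrableOn_compact hD) (((ok.jc _ s).mono hU).integrableOn_compact hD)
      hD.measurableSet fun y _ => sq_le_jet (d.pb.c (toT ht) s) ![a, b] y

theorem cell_lim (h : T.Ok) {q : ℝ} (ok : d.pb.Ok q) {f : ℕ → WT (T.core v) sw}
    {u : WS (T.core v) sw} {r c : ℝ} (hf : d.pb.Lc f u)
    (hr : Tendsto (fun l => d.pb.N (f l) (f l)) atTop (𝓝 r)) {s : T.S} {x : E4}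
    (hx : x ∈ T.cK v s) (a b : Fin 4) (hc : ∀ t, Tst T v t →
      ∫ y in ball (0 : E4) (9 / 8), t s (x + rad T s x • y) a b ^ 2 ≤ c * NK T g v η t t) :
    ∫ y in ball (0 : E4) (9 / 8), ofW u s (x + rad T s x • y) a b ^ 2 ≤ 2 * c * r := by
  have hK : IsCompact ((fun y : E4 => x + rad T s x • y) '' closedBall 0 (9 / 8)) :=
    (isCompact_closedBall _ _).image (by fun_prop)
  have m : ∀ y ∈ closedBall (0 : E4) (9 / 8), x + rad T s x • y ∈ (T.core v).U s := fun y hy =>
    cell_U h hx (mem_closedBall_zero_iff.1 hy)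
  have hU : (fun y : E4 => x + rad T s x • y) '' closedBall 0 (9 / 8) ⊆ (T.core v).U s := by
    rintro _ ⟨y, hy, rfl⟩; exact m y hy
  have i : ∀ {φ : E4 → ℝ}, ContinuousOn φ ((T.core v).U s) →
      IntegrableOn (fun y => φ (x + rad T s x • y)) (ball 0 (9 / 8)) := fun hφ =>
    ((hφ.comp (by fun_prop) m).integrableOn_compact (isCompact_closedBall _ _)).mono_set
      ball_subset_closedBall
  have c2 : ∀ z : WS (T.core v) sw,
      ContinuousOn (fun y => ofW z s y a b ^ 2) ((T.core v).U s) := fun z =>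
    (z.2.1.sm s ![a, b]).continuousOn.pow 2
  have l := (hr.const_mul (2 * c)).add ((hf s _ hK hU).const_mul (2 * (rad T s x ^ 4)⁻¹))
  rw [mul_zero, add_zero] at l
  refine ge_of_tendsto' l fun n => ?_
  have a1 := hc _ (tst_ofW (f n))
  have a2 := aff_le (rad_pos' hx) ((ok.jc (f n - u) s).mono hU) (jet_nonneg _)
  rw [N_eq, mul_assoc, mul_assoc]
  refine le_trans ?_ (add_le_add (mul_le_mul_of_nonneg_left a1 zero_le_two)
    (mul_le_mul_of_nonneg_left a2 zero_le_two))
  rw [← integral_const_mul, ← integral_const_mul, ← integral_add ((i (c2 _)).const_mul 2)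
    ((i (ok.jc _ s)).const_mul 2)]
  refine setIntegral_mono_on (i (c2 u)) (((i (c2 _)).const_mul 2).add
    ((i (ok.jc _ s)).const_mul 2)) measurableSet_ball fun y _ => ?_
  have k := sq_le_jet (d.pb.c (f n - u) s) ![a, b] (x + rad T s x • y)
  have e : d.pb.c (f n - u) s ![a, b] (x + rad T s x • y) =
    ofW (f n).1 s (x + rad T s x • y) a b - ofW u s (x + rad T s x • y) a b := rfl
  rw [e] at k
  nlinarith [sq_nonneg (2 * ofW (f n).1 s (x + rad T s x • y) a b - ofW u s (x + rad T s x • y) a b)]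

end

end Crest.Agent.N207.K

end
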