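import Crest.Agent.N207.K.Kl2

/-!
# Row 207, block K (helper1): `KLin` from the leaves
-/

set_option autoImplicit false

open scoped ContDiff
open Metric Set Filter Topology MeasureTheory
open Crest.GeometryTopology.CoordMetric
open Crest.Agent.NLib.Ell Crest.Agent.N207.I Crest.Agent.N207.CB Crest.Agent.R249.EV

noncomputable section

namespace Crest.Agent.N207.K

variable {M : Type*} {T : TD M} {g : T.V → Fam T} {v : T.V} {σ T0 T1 : ℝ}

theorem KAt.mono {κ : Type} [Fintype κ] {ψ : κ → Fam T} {k : ℕ} {K K' : ℝ} {En : Fam T → Prop}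
    (h : KAt T g ψ v T0 σ k K En) (hK : K ≤ K') : KAt T g ψ v T0 σ k K' En :=
  ⟨h.add, h.smul, fun F θ N a b c d => by
    obtain ⟨w, μ, h1, h2, h3, h4, h5, h6, h7⟩ := h.ex F θ N a b c d
    have := mul_le_mul_of_nonneg_right hK ((norm_nonneg _).trans d)
    exact ⟨w, μ, h1, h2, h3, h4, h5, fun s x hx hJ a b => (h6 s x hx hJ a b).mono this,
      h7.trans this⟩, h.uniq⟩

theorem van_mono {F : Fam T} {c : ℝ} (h : CB.Van T v T1 c F) (hT : T1 ≤ T0) :
    CB.Van T v T0 c F := fun u x hx ht => h u x hx (by simp only [tau] at ht ⊢; linarith)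

open Classical in
/-- the linear problem on one core -/
theorem kat (h : T.Ok) (hg : (T.core v).IsMet (g v)) (hb : (T.core v).IsMet (gb T g T0 v))
    (hσ : 0 < σ) (hT : 4 / T.r ≤ Real.exp T1) (h1 : T1 ≤ T0) (h0 : 0 ≤ T0)
    {κ : Type} [Fintype κ] {ψ : κ → Fam T} (hψ : ∀ j, Sec T v (ψ j))
    (hv : ∀ j, CB.Van T v T1 0 (ψ j)) {e : κ → ℝ} (he : ∀ j, e j = 1 ∨ e j = -1)
    (eig : ∀ j s, ∀ x ∈ (T.core v).U s, TRg (g v s x) (ψ j s x) = e j • ψ j s x)
    {a : κ → κ → ℝ} (du : ∀ i j, pair T g v (ψ i) (∑ l, a j l • ψ l) = if i = j then 1 else 0)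
    {c q p C1 C2 C3 : ℝ} {k : ℕ} (c0 : 0 < c) (q0 : 0 ≤ q) (p0 : 0 ≤ p) (hC1 : 0 ≤ C1)
    (hC2 : 0 ≤ C2) (hC3 : 0 ≤ C3)
    (hp : ∑ j, √(NK T g v (eta T v σ T1) (∑ l, a j l • ψ l) (∑ l, a j l • ψ l)) ≤ p)
    (hq : ∀ s t, Tst T v s → Tst T v t → |IK T g T0 v (eta T v σ T1) (PK T g T0 v s) t| ≤
      q * √(NK T g v (eta T v σ T1) s s) * √(NK T g v (eta T v σ T1) t t))
    (hc : ∀ t, Tst T v t → (∀ j, pair T g v (ψ j) t = 0) →
      c * NK T g v (eta T v σ T1) t t ≤ IK T g T0 v (eta T v σ T1) (PK T g T0 v t) t)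
    (src : ∀ (F : Fam T) (N : ℝ), 0 ≤ N → Sec T v F → CB.Van T v T0 4 F →
      (∀ s, ∀ x ∈ T.cK v s, ∀ a b, |rad T s x ^ 2 * F s x a b| ≤ N) → ∀ t, Tst T v t →
      |IK T g T0 v (eta T v σ T1) F t| ≤
        C1 * Real.exp (σ * T0) * N * √(NK T g v (eta T v σ T1) t t))
    (cel : ∀ t, Tst T v t → ∀ s, ∀ x ∈ T.cK v s, ∀ a b,
      ∫ y in ball (0 : E4) (9 / 8), t s (x + rad T s x • y) a b ^ 2 ≤
        C2 * scl T s x ^ (-(2 * σ)) * NK T g v (eta T v σ T1) t t)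
    (fin : ∀ (w F : Fam T) (μ : κ → ℝ) (N S : ℝ), 0 ≤ N → 0 ≤ S → Sec T v w → Sec T v F →
      CB.Van T v T0 4 F → CBd T v univ k 2 N F → ‖μ‖ ≤ S →
      (∀ s, ∀ x ∈ (T.core v).U s, Pop (gb T g T0 v s) (w s) x = F s x + ∑ j, μ j • ψ j s x) →
      (∀ s, ∀ x ∈ T.cK v s, ∀ a b, ∫ y in ball (0 : E4) (9 / 8),
        w s (x + rad T s x • y) a b ^ 2 ≤ (S * scl T s x ^ (-σ)) ^ 2) →
      Grw T v σ w ∧ CBd T v (Reg T v T0 5) (k + 2) 0 (C3 * (N + S * Real.exp (σ * T0))) w) :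
    ∃ En, KAt T g ψ v T0 σ k ((C3 + (C3 + 1) * ((1 + √(2 * C2)) * (bC c q p * (C1 + 1)))) *
      Real.exp (2 * σ * T0)) En := by
  have d := dat (σ := σ) h hT hg hb
  have ok := ok_of d q0 hq
  have tψ : ∀ j, Tst T v (ψ j) := fun j => ⟨hψ j, core_cs h (hψ j) (hv j)⟩
  have ipψ : ∀ u j, d.pb.ip u (toT (tψ j)) = pair T g v (ψ j) (ofW u) := fun u j => by
    rw [ip_eq]; exact pair_eq h hg h1 (hv j) _
  have lc : ∀ j, ofW (∑ l, a j l • toT (tψ l)).1 = ∑ l, a j l • ψ l := fun j => ofW_lc _ _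
  have fam : d.pb.Fam (fun j => toT (tψ j)) (fun j => ∑ l, a j l • toT (tψ l)) c :=
    ⟨c0, fun i j => (ipψ _ i).trans ((congrArg _ (lc j)).trans (du i j)), fun t ht => by
      rw [ip_eq, N_eq, P_eq]
      exact hc _ (tst_ofW t) fun j => (ipψ _ j).symm.trans (ht j)⟩
  have e2 : ∀ j, e j * e j = 1 := fun j => by rcases he j with h | h <;> simp [h]
  have tr : ∀ (μ : κ → ℝ) s, ∀ x ∈ (T.core v).U s, ∑ j, μ j • TRg (g v s x) (ψ j s x) =
      ∑ j, (μ j * e j) • ψ j s x := fun μ s x hx =>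
    Finset.sum_congr rfl fun j _ => by rw [eig j s x hx, smul_smul]
  have cs : ∀ (μ : κ → ℝ) s I x, d.pb.c (∑ j, μ j • (toT (tψ j)).1) s I x =
      (∑ j, μ j • ψ j s x) (I 0) (I 1) := fun μ s I x => by
    simp only [map_sum, map_smul, Finset.sum_apply, Pi.smul_apply, Matrix.sum_apply,
      Matrix.smul_apply]
    rfl
  refine ⟨fun w => ∃ u, d.pb.Cl u ∧ w = ofW u, ?_, ?_, fun F θ N hF h4 hN hθ => ?_, ?_⟩
  · rintro _ _ ⟨u, hu, rfl⟩ ⟨u', hu', rfl⟩
    exact ⟨u + u', by simpa using ok.cl_lc hu hu' 1 1, rfl⟩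
  · rintro b _ ⟨u, hu, rfl⟩
    exact ⟨b • u, by simpa using ok.cl_lc hu hu b 0, rfl⟩
  · have N0 : 0 ≤ N := (norm_nonneg _).trans hθ
    have E1 : 1 ≤ Real.exp (σ * T0) := Real.one_le_exp (by positivity)
    obtain ⟨u, μ, cl, eq, hθ', hμ, f, r, hf, hr, hl⟩ := ok.solve fam (p := p)
      (le_of_eq_of_le (Finset.sum_congr rfl fun j _ => congrArg _ ((N_eq d _ _).trans
        (congrArg (fun z => NK T g v _ z z) (lc j)))) hp) (toW hF) (A := C1 * Real.exp (σ * T0) * N)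
      (by positivity) (fun t => by
        rw [ip_eq, N_eq]
        exact src F N N0 hF h4 (fun s x hx a b => by
          simpa using (hN s x hx trivial a b).bdd (mem_ball_self one_pos)) _ (tst_ofW t)) θ
    have b0 : 0 ≤ bC c q p := by unfold bC; positivity
    set B := bC c q p * max (C1 * Real.exp (σ * T0) * N) ‖θ‖
    have B0 : 0 ≤ B := (norm_nonneg _).trans hμ
    have hB : B ≤ bC c q p * (C1 + 1) * (Real.exp (σ * T0) * N) := by
      rw [mul_assoc]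
      refine mul_le_mul_of_nonneg_left (max_le ?_ (hθ.trans ?_)) b0 <;>
        nlinarith [mul_nonneg hC1 (mul_nonneg (zero_le_one.trans E1) N0), mul_nonneg N0
          (sub_nonneg.2 E1)]
    have s0 := Real.sqrt_nonneg (2 * C2)
    have eq' : ∀ s, ∀ x ∈ (T.core v).U s,
        Pop (gb T g T0 v s) (ofW u s) x = F s x + ∑ j, μ j • ψ j s x := fun s x hx => by
      ext i j
      have := eq s ![i, j] x hx
      rw [map_add, Pi.add_apply, Pi.add_apply, Pi.add_apply, cs] at this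
      exact this
    have hS : ‖μ‖ ≤ (1 + √(2 * C2)) * B := hμ.trans (le_mul_of_one_le_left B0 (by linarith))
    obtain ⟨gr, bd⟩ := fin (ofW u) F μ N ((1 + √(2 * C2)) * B) N0 (by positivity) (sec_ofW u) hF
      h4 hN hS eq' fun s x hx i j => by
        have sp := scl_pos ((h.core_pou v).sub s hx)
        refine (cell_lim d h ok hf hl hx i j fun t ht => cel t ht s x hx i j).trans ?_
        have : scl T s x ^ (-(2 * σ)) = (scl T s x ^ (-σ)) ^ 2 := by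
          rw [← Real.rpow_natCast, ← Real.rpow_mul sp.le]; congr 1; push_cast; ring
        rw [this, mul_pow, mul_pow]
        calc _ ≤ 2 * (C2 * (scl T s x ^ (-σ)) ^ 2) * B ^ 2 := by gcongr
          _ = √(2 * C2) ^ 2 * B ^ 2 * (scl T s x ^ (-σ)) ^ 2 := by
            rw [Real.sq_sqrt (by positivity)]; ring
          _ ≤ _ := by gcongr; linarith
    set C' := (1 + √(2 * C2)) * (bC c q p * (C1 + 1))
    have C0 : 0 ≤ C' := by positivity
    have hS' : (1 + √(2 * C2)) * B ≤ C' * (Real.exp (σ * T0) * N) := by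
      rw [mul_assoc]; gcongr
    have E2 : Real.exp (2 * σ * T0) = Real.exp (σ * T0) * Real.exp (σ * T0) := by
      rw [← Real.exp_add]; congr 1; ring
    set E := Real.exp (σ * T0)
    have n1 : N ≤ E * E * N := le_mul_of_one_le_left N0 (one_le_mul_of_one_le_of_one_le E1 E1)
    have n2 : E * N ≤ E * E * N := by gcongr; exact le_mul_of_one_le_left (by linarith) E1
    have n3 : 0 ≤ E * E * N := N0.trans n1
    refine ⟨ofW u, fun j => μ j * e j, sec_ofW u, ⟨u, cl, rfl⟩, gr, fun s x hx => ?_,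
      fun j => (ipψ u j).symm.trans (hθ' j), fun s x hx hJ i j => (bd s x hx hJ i j).mono ?_, ?_⟩
    · simp only [eq' s x hx, tr _ s x hx, mul_assoc, e2, mul_one]
    · rw [E2]
      calc _ ≤ C3 * (E * E * N + C' * (E * N) * E) := by gcongr
        _ = (C3 + C3 * C') * (E * E) * N := by ring
        _ ≤ _ := by gcongr; linarith
    · rw [E2]
      calc _ ≤ ‖μ‖ := (pi_norm_le_iff_of_nonneg (norm_nonneg _)).2 fun j => by
            rcases he j with h | h <;> simpa [h] using norm_le_pi_norm μ j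
        _ ≤ C' * (E * E * N) := (hS.trans hS').trans (by gcongr)
        _ ≤ _ := by nlinarith [mul_nonneg hC3 n3, mul_nonneg (mul_nonneg hC3 C0) n3]
  · rintro _ μ - ⟨u, hu, rfl⟩ eq h0
    obtain ⟨z, z'⟩ := ok.uniq fam hu (μ := fun j => μ j * e j) (fun s I x hx => by
      rw [cs, ← tr μ s x hx, ← eq s x hx]; rfl) fun j => (ipψ u j).trans (h0 j)
    refine ⟨fun s x hx => Matrix.ext fun i j => z s _ x hx, funext fun j => ?_⟩
    have := congrArg (· * e j) (congrFun z' j)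
    simpa [mul_assoc, e2] using this

variable {γ : ℝ} {κ : T.V → Type} [∀ v, Fintype (κ v)] {ψ : ∀ v, κ v → Fam T}

/-- **`KLin`** from the analytic leaves -/
theorem klin_of (h : T.Ok) (hL : T.Lim g γ) (hγ : 0 < γ) (hσ : 0 < σ) (hS : SRC T g σ)
    (hC : CEL T g σ) (hF : FIN T g σ) (hE : EIG T g κ ψ) (hD : DUAL T g κ ψ)
    (hc : COER T g κ ψ σ) : KLin T g κ ψ σ := fun k => by
  obtain ⟨T1, c, q, hT, c0, q0, hψ, hc⟩ := hc
  obtain ⟨Tb, -, -, hb, -⟩ := gbj h hL hγ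
  obtain ⟨Ts, C1, hC1, hS⟩ := hS T1 hT
  obtain ⟨C2, hC2, hC⟩ := hC T1 hT fun v => cmp_of (dat h hT (hL.met v) (hb v _ (le_max_left Tb T1)))
    (ok_of _ q0 (hc v _ (le_max_right Tb T1)).1)
  choose Tf C3 hC3 hF using fun v => hF (κ v) v (ψ v) T1 k (hψ.sec v) (hψ.supp v)
  choose e he eig using hE
  choose a du using hD
  obtain ⟨Tm, hTm⟩ := (Set.finite_range Tf).bddAbove
  let p : T.V → ℝ := fun v =>
    ∑ j, √(NK T g v (eta T v σ T1) (∑ l, a v j l • ψ v l) (∑ l, a v j l • ψ v l))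
  have p0 : ∀ v, 0 ≤ p v := fun v => Finset.sum_nonneg fun _ _ => Real.sqrt_nonneg _
  obtain ⟨C, hCm⟩ := (Set.finite_range fun v =>
    C3 v + (C3 v + 1) * ((1 + √(2 * C2)) * (bC c q (p v) * (C1 + 1)))).bddAbove
  refine ⟨max C 1, max (max T1 Tb) (max (max Ts Tm) 0), by positivity, ⟨hψ.sec, fun v j =>
    van_mono (hψ.supp v j) ((le_max_left _ _).trans (le_max_left _ _))⟩, fun v T0 hT0 => ?_⟩
  simp only [max_le_iff] at hT0
  obtain ⟨⟨t1, t2⟩, ⟨t3, t4⟩, t5⟩ := hT0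
  obtain ⟨En, hk⟩ := kat (k := k) h (hL.met v) (hb v T0 t2) hσ hT t1 t5 (hψ.sec v) (hψ.supp v)
    (he v) (eig v) (du v) c0 q0 (p0 v) hC1 hC2 (hC3 v).le le_rfl (hc v T0 t1).1 (hc v T0 t1).2
    (hS v T0 t3) (hC v) (hF v T0 ((hTm ⟨v, rfl⟩).trans t4))
  exact ⟨En, KAt.mono hk (mul_le_mul_of_nonneg_right ((hCm ⟨v, rfl⟩).trans (le_max_left _ _))
    (Real.exp_pos _).le)⟩

end Crest.Agent.N207.K

end
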