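import Crest.Agent.N207.K.Kl3
import Crest.Agent.N207.K.Cel
import Crest.Agent.N207.K.Fin
import Crest.Agent.N207.K.Est

/-!
# Row 207, block K (helper1): `KLin` from `SRC`, `EIG`, `DUAL`, `COER`
-/

set_option autoImplicit false

open Crest.Agent.N207.I Crest.Agent.N207.CB

namespace Crest.Agent.N207.K

variable {M : Type*} {T : TD M} {g : T.V → Fam T} {σ γ : ℝ} {κ : T.V → Type}
  [∀ v, Fintype (κ v)] {ψ : ∀ v, κ v → Fam T}

theorem klin' (h : T.Ok) (hL : T.Lim g γ) (hγ : 0 < γ) (h0 : 0 < σ) (h1 : σ < 1)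
    (hS : SRC T g σ) (hE : EIG T g κ ψ) (hD : DUAL T g κ ψ) (hc : COER T g κ ψ σ) :
    KLin T g κ ψ σ :=
  klin_of h hL hγ h0 hS (cel h hL h0 h1) (fin h h0 h1 (est h hL hγ)) hE hD hc

end Crest.Agent.N207.K
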