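import Crest.Agent.N207.K.Kl1
import Crest.Agent.N207.K.KSt
import Crest.Agent.N207.K.CoerB
import Crest.Agent.N207.M.Rb

/-!
# Row 207, block K (helper41): the leaf `SRC`
-/

set_option autoImplicit false

open scoped ContDiff
open Metric Set Filter Topology MeasureTheory
open Crest.GeometryTopology.CoordMetric
open Crest.Agent.N207.I Crest.Agent.N207.I.TD Crest.Agent.N207.CB Crest.Agent.N207.M

noncomputable section

namespace Crest.Agent.N207.K

namespace Sr

/-- the majorant of `scl ^ (2 σ - 4)` on the support of the source -/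
def D (σ R : ℝ) (x : E4) : ℝ :=
  (closedBall (0 : E4) 2).indicator (fun _ => 1) x + R ^ (2 * σ) * (R⁻¹ ^ 4 * rbG σ (R⁻¹ • x))

variable {σ R : ℝ}

theorem D1 (x : E4) : 0 ≤ (closedBall (0 : E4) 2).indicator (fun _ => (1 : ℝ)) x :=
  indicator_nonneg (fun _ _ => zero_le_one) x

theorem D2 (hR : 0 < R) (x : E4) : 0 ≤ R ^ (2 * σ) * (R⁻¹ ^ 4 * rbG σ (R⁻¹ • x)) := by
  have := rbG_nonneg (δ := σ) (R⁻¹ • x)
  positivity

theorem D_nonneg (hR : 0 < R) (x : E4) : 0 ≤ D σ R x := add_nonneg (D1 x) (D2 hR x)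

theorem i1 : Integrable ((closedBall (0 : E4) 2).indicator fun _ => (1 : ℝ)) :=
  (integrable_indicator_iff measurableSet_closedBall).2
    (continuousOn_const.integrableOn_compact (isCompact_closedBall 0 2))

theorem D_int (hσ : 0 < σ) (hR : 0 < R) : Integrable (D σ R) :=
  i1.add ((((rbG_int hσ).comp_smul (inv_pos.2 hR).ne').const_mul _).const_mul _)

theorem D_integral (hσ : 0 < σ) (hR : 0 < R) : ∫ x, D σ R x =
    (∫ x, (closedBall (0 : E4) 2).indicator (fun _ => (1 : ℝ)) x) + R ^ (2 * σ) * ∫ x, rbG σ x := by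
  unfold D
  rw [integral_add i1 ((((rbG_int hσ).comp_smul (inv_pos.2 hR).ne').const_mul _).const_mul _),
    integral_const_mul, integral_const_mul, Measure.integral_comp_smul]
  simp only [finrank_euclideanSpace, Fintype.card_fin, smul_eq_mul]
  rw [abs_of_pos (by positivity)]
  field_simp

theorem le_D (hR : 0 < R) {x : E4} (h0 : 0 < ‖x‖) (h1 : ‖x‖ < R) :
    (‖x‖ ^ (σ - 1) / ‖x‖) ^ 2 ≤ D σ R x := by
  have n1 : ‖R⁻¹ • x‖ = R⁻¹ * ‖x‖ := by rw [norm_smul, Real.norm_of_nonneg (by positivity)]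
  have h5 : ‖R⁻¹ • x‖ < 1 := by rw [n1, inv_mul_lt_iff₀ hR, mul_one]; exact h1
  refine le_trans (le_of_eq ?_) (le_add_of_nonneg_left (D1 x))
  have e1 : ∀ {a : ℝ}, 0 < a → a ^ (-(4 - 2 * σ)) = (a ^ σ) ^ 2 / a ^ 4 := fun {a} p => by
    rw [show -(4 - 2 * σ) = σ * (2 : ℕ) - (4 : ℕ) by push_cast; ring, Real.rpow_sub p,
      Real.rpow_mul p.le, Real.rpow_natCast, Real.rpow_natCast]
  have e2 : R ^ (2 * σ) = (R ^ σ) ^ 2 := by
    rw [mul_comm, Real.rpow_mul hR.le, Real.rpow_two]
  have p : 0 < R ^ σ := Real.rpow_pos_of_pos hR σ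
  rw [rbG, indicator_of_mem (mem_ball_zero_iff.2 h5), n1, e1 (by positivity),
    Real.mul_rpow (by positivity) h0.le, Real.inv_rpow hR.le, Real.rpow_sub_one h0.ne', e2]
  field_simp

end Sr

open Sr

variable {M : Type*} {T : TD M} {g : T.V → Fam T} {γ σ : ℝ}

/-- **SRC** -/
theorem src (h : T.Ok) (hL : T.Lim g γ) (hγ : 0 < γ) (h0 : 0 < σ) (h1 : σ < 1) : SRC T g σ := by
  intro T1 hT
  obtain ⟨Λ, e, hΛ, -, hP⟩ := pt_gb h hL hγ
  obtain ⟨T2, -, -, hM, -⟩ := gbj h hL hγ
  have l0 : 0 < Λ := one_pos.trans_le hΛ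
  set E := Real.exp (|T1| + 1) with hE
  have E0 : 0 < E := Real.exp_pos _
  set B := 256 * Λ ^ 6 * E with hB
  have B0 : 0 < B := by positivity
  set V := ∫ x, (closedBall (0 : E4) 2).indicator (fun _ => (1 : ℝ)) x
  set J := ∫ x, rbG σ x
  have V0 : 0 ≤ V := integral_nonneg D1
  have J0 : 0 ≤ J := integral_nonneg rbG_nonneg
  set W := (Fintype.card T.S : ℝ) * (V + Real.exp (8 * σ) * J) with hW
  have W0 : 0 ≤ W := by positivity
  refine ⟨max T2 0, Λ * B * √W, by positivity, fun v T0 hT0 F N N0 hF h4 hN t ht => ?_⟩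
  have t0 : 0 ≤ T0 := (le_max_right _ _).trans hT0
  have hb := hM v T0 ((le_max_left _ _).trans hT0)
  have hg := hL.met v
  have o := h.core_ok v
  have p := h.core_pou v
  set R := Real.exp (T0 + 4) with hR
  have R0 : 0 < R := Real.exp_pos _
  have bd : ∀ s, ∀ x ∈ (T.core v).U s, (T.core v).den T.χ (g v) s x ≤ Λ ^ 2 := fun s x hx => by
    by_cases hz : T.χ s ((T.core v).c s x) = 0
    · simp only [Atl.den, hz, zero_mul, mul_zero]; positivity
    · exact (Hd.den_le o p _ hx).trans
        (Hd.ell_det (hP v s x (cK_of_χ h hx hz)).1 (by positivity)).2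
  have iD := (D_int h0 R0).const_mul ((B * N) ^ 2)
  have ia : (T.core v).Intg T.χ (g v) fun _ x => (B * N) ^ 2 * D σ R x := fun s =>
    Integrable.bdd_mul (c := Λ ^ 2) iD.integrableOn
      ((Atl.sm_den hg p s).continuousOn.aestronglyMeasurable (o.isOpen s).measurableSet)
      ((ae_restrict_mem (o.isOpen s).measurableSet).mono fun x hx => by
        rw [Real.norm_of_nonneg (Atl.den_nonneg p s x)]; exact bd s x hx)
  have a0 : ∀ x, 0 ≤ (B * N) ^ 2 * D σ R x := fun x => mul_nonneg (sq_nonneg _) (D_nonneg R0 x)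
  have key := int_cs o p (ig_IK (σ := σ) h hT hg hb hF ht) ia (ig_NK (σ := σ) h hT hg ht.sec ht)
    (fun _ x _ => a0 x) (fun s x _ => mul_nonneg (sq_nonneg _) (eC_nonneg _ _ _)) fun s x hx => by
      have d0 := Atl.den_nonneg (G := g v) p s x
      by_cases hz : T.χ s ((T.core v).c s x) = 0
      · simp only [Atl.den, hz, zero_mul, mul_zero, le_refl]
      by_cases hF0 : F s x = 0
      · have : matT (F s) x = 0 := by funext I; simp [matT, hF0]
        have e0 : ip (gb T g T0 v s) (matT (F s)) (matT (t s)) x = 0 := by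
          simp [ip, this, ipA]
        rw [e0, mul_zero, abs_zero, mul_zero]; positivity
      have hk := cK_of_χ h hx hz
      obtain ⟨E1, E2⟩ := hP v s x hk
      have ρ0 := scl_pos hx
      have η0 := eta_pos (T := T) (v := v) (σ := σ) (T1 := T1) s x
      set ρ := scl T s x with hρ
      set η := eta T v σ T1 s x
      set c := eC ρ (matT (t s)) (matT (t s)) x
      have c0 : 0 ≤ c := eC_nonneg _ _ _
      have hD : (ρ ^ (σ - 1) / ρ) ^ 2 ≤ D σ R x := by
        rcases s with a | u
        · have : x ∈ closedBall (0 : E4) 2 := mem_closedBall_zero_iff.2 (mem_core_inl.1 hx).2.le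
          refine le_trans (le_of_eq ?_) (le_add_of_nonneg_right (D2 R0 x))
          simp [hρ, scl, this]
        · refine le_D R0 ρ0 ?_
          by_cases hu : u = v
          · by_contra hc
            refine hF0 (h4 u x hx ?_)
            simp only [tau, hu, if_true]
            have := (Real.le_log_iff_exp_le ρ0).2 (not_lt.1 hc)
            simp only [hρ, scl, Sum.elim_inr] at this
            linarith
          · exact (((mem_core_inn hu).1 hx).2.2.trans h.r_lt).trans_le
              (Real.one_le_exp (by linarith))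
      have s1 : ss (matT (F s) x) ≤ (256 * N / ρ ^ 2) ^ 2 := by
        have : ∀ I, matT (F s) x I ^ 2 ≤ (64 * N / ρ ^ 2) ^ 2 := fun I => by
          have := hN s x hk (I 0) (I 1)
          rw [rad_eq, abs_mul, abs_of_pos (by positivity)] at this
          rw [← sq_abs]
          refine pow_le_pow_left₀ (abs_nonneg _) ((le_div_iff₀ (by positivity)).2 ?_) 2
          change |F s x (I 0) (I 1)| * ρ ^ 2 ≤ _
          rw [← hρ] at this
          linarith
        refine (Finset.sum_le_sum fun I _ => this I).trans (le_of_eq ?_)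
        simp only [Finset.sum_const, Finset.card_univ, Fintype.card_fun, Fintype.card_fin,
          nsmul_eq_mul]
        push_cast; ring
      have s2 : ss (matT (t s) x) ≤ (ρ * √c) ^ 2 := by
        rw [mul_pow, Real.sq_sqrt c0]; exact sum_le_eC ρ0.ne' _ x
      have s3 := Cb.abs_ipA l0 (E2 T0).ell (by positivity) (by positivity) s1 s2
      have s4 : √(gb T g T0 v s x).det ≤ Λ ^ 4 * √(g v s x).det := by
        have a1 := (Hd.ell_det (E2 T0).ell (by positivity)).2
        have a2 := mul_le_mul_of_nonneg_left (Hd.ell_det E1 (by positivity)).1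
          (show 0 ≤ Λ ^ 4 by positivity)
        have : Λ ^ 4 * Λ⁻¹ ^ 2 = Λ ^ 2 := by field_simp
        linarith
      have s5 : (T.core v).den T.χ (gb T g T0 v) s x ≤ (T.core v).den T.χ (g v) s x * Λ ^ 4 := by
        have := mul_le_mul_of_nonneg_left (mul_le_mul_of_nonneg_left s4 (p.nonneg s
          ((T.core v).c s x))) (show 0 ≤ (Nat.card ((T.core v).Γ s) : ℝ)⁻¹ by positivity)
        simp only [Atl.den]; linarith
      have s6 : η ≤ E * ρ ^ (σ - 1) := (eta_cmp h h0 h1 hx).2
      have s7 : ρ ^ (σ - 1) / ρ ≤ √(D σ R x) := Real.le_sqrt_of_sq_le hD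
      rw [Real.sqrt_mul (sq_nonneg _), Real.sqrt_mul (sq_nonneg _), Real.sqrt_sq (by positivity),
        Real.sqrt_sq η0.le, abs_mul, abs_of_nonneg (sq_nonneg η)]
      refine (mul_le_mul s5 (mul_le_mul_of_nonneg_left s3 (sq_nonneg η)) (by positivity)
        (by positivity)).trans ?_
      rw [mul_assoc]
      refine mul_le_mul_of_nonneg_left ?_ d0
      calc _ = 256 * Λ ^ 6 * N * (η / ρ) * (η * √c) := by field_simp
        _ ≤ 256 * Λ ^ 6 * N * (E * √(D σ R x)) * (η * √c) := by
          gcongr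
          refine (div_le_div_of_nonneg_right s6 ρ0.le).trans ?_
          rw [mul_div_assoc]; gcongr
        _ = _ := by rw [hB]; ring
  refine key.trans (mul_le_mul_of_nonneg_right (Real.sqrt_le_iff.2 ⟨by positivity, ?_⟩)
    (Real.sqrt_nonneg _))
  have e1 : ∀ s, ∫ x in (T.core v).U s, (T.core v).den T.χ (g v) s x * ((B * N) ^ 2 * D σ R x) ≤
      Λ ^ 2 * ((B * N) ^ 2 * (V + R ^ (2 * σ) * J)) := fun s => by
    rw [← D_integral h0 R0, ← integral_const_mul, ← integral_const_mul]
    refine (setIntegral_mono_on (ia s) (iD.const_mul (Λ ^ 2)).integrableOn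
      (o.isOpen s).measurableSet fun x hx => mul_le_mul_of_nonneg_right (bd s x hx) (a0 x)).trans
      (setIntegral_le_integral (iD.const_mul _) (Eventually.of_forall fun x =>
        mul_nonneg (sq_nonneg _) (a0 x)))
  refine (Finset.sum_le_sum fun s _ => e1 s).trans ?_
  have e2 : R ^ (2 * σ) = Real.exp (8 * σ) * Real.exp (σ * T0) ^ 2 := by
    rw [hR, ← Real.exp_mul, ← Real.exp_nat_mul, ← Real.exp_add]; congr 1; push_cast; ring
  have e3 : 1 ≤ Real.exp (σ * T0) ^ 2 := one_le_pow₀ (Real.one_le_exp (by positivity))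
  have e4 : V + R ^ (2 * σ) * J ≤ (V + Real.exp (8 * σ) * J) * Real.exp (σ * T0) ^ 2 := by
    rw [e2]; nlinarith
  simp only [Finset.sum_const, Finset.card_univ, nsmul_eq_mul, mul_pow, Real.sq_sqrt W0]
  calc _ ≤ (Fintype.card T.S : ℝ) * (Λ ^ 2 * (B ^ 2 * N ^ 2 *
        ((V + Real.exp (8 * σ) * J) * Real.exp (σ * T0) ^ 2))) := by gcongr
    _ = _ := by rw [hW]; ring

end Crest.Agent.N207.K

end
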