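import Crest.Agent.N207.K.Kl1
import Crest.Agent.N207.K.CoerA

/-!
# Row 207, block K (helper1): the dual norm of the source
-/

set_option autoImplicit false

open scoped ContDiff
open Metric Set Filter Topology MeasureTheory
open Crest.GeometryTopology.CoordMetric
open Crest.Agent.NLib.Ell Crest.Agent.N207.I Crest.Agent.N207.I.TD Crest.Agent.N207.CB
open Crest.Agent.R238 (Ell)

noncomputable section

namespace Crest.Agent.N207.K.Sb

/-- singularity at the origin -/
def G0 (σ : ℝ) : E4 → ℝ := (ball 0 1).indicator fun y => ‖y‖ ^ (-(4 - 2 * σ))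

/-- the dominating function -/
def D (σ R : ℝ) (x : E4) : ℝ :=
  R ^ (-(4 - 2 * σ)) * G0 σ (R⁻¹ • x) + (ball (0 : E4) 2).indicator 1 x

variable {σ R : ℝ}

theorem G0_int (h : 0 < σ) : Integrable (G0 σ) :=
  (integrable_indicator_iff measurableSet_ball).2 (integrableOn_ball_of_norm_le_rpow (C := 1)
    (α := 4 - 2 * σ) (by simp) (by simp; linarith) (Eventually.of_forall fun x => by
      rw [one_mul, Real.norm_of_nonneg (Real.rpow_nonneg (norm_nonneg _) _)])
    (Measurable.aestronglyMeasurable (by fun_prop)))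

theorem G0_nonneg (x : E4) : 0 ≤ G0 σ x :=
  indicator_nonneg (fun _ _ => Real.rpow_nonneg (norm_nonneg _) _) _

theorem one_int : Integrable ((ball (0 : E4) 2).indicator (1 : E4 → ℝ)) :=
  (integrable_indicator_iff measurableSet_ball).2 (integrableOn_const measure_ball_lt_top.ne)

theorem one_nonneg (x : E4) : 0 ≤ (ball (0 : E4) 2).indicator (1 : E4 → ℝ) x :=
  indicator_nonneg (fun _ _ => zero_le_one) _

theorem D_int (h : 0 < σ) (hR : 0 < R) : Integrable (D σ R) :=
  (((G0_int h).comp_smul (inv_pos.2 hR).ne').const_mul _).add one_int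

theorem D_nonneg (hR : 0 < R) (x : E4) : 0 ≤ D σ R x :=
  add_nonneg (mul_nonneg (Real.rpow_nonneg hR.le _) (G0_nonneg _)) (one_nonneg x)

theorem D_integral (h : 0 < σ) (hR : 0 < R) : ∫ x, D σ R x =
    R ^ (2 * σ) * (∫ x, G0 σ x) + ∫ x, (ball (0 : E4) 2).indicator (1 : E4 → ℝ) x := by
  unfold D
  rw [integral_add (((G0_int h).comp_smul (inv_pos.2 hR).ne').const_mul _) one_int,
    integral_const_mul, Measure.integral_comp_smul]
  simp only [finrank_euclideanSpace, Fintype.card_fin, smul_eq_mul]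
  rw [abs_of_pos (by positivity), inv_pow, inv_inv, ← mul_assoc, ← Real.rpow_natCast,
    ← Real.rpow_add hR]
  congr 3; push_cast; ring

theorem le_D (hR : 0 < R) {x : E4} (hx : ‖x‖ < R) : ‖x‖ ^ (-(4 - 2 * σ)) ≤ D σ R x := by
  have n : ‖R⁻¹ • x‖ = R⁻¹ * ‖x‖ := by rw [norm_smul, Real.norm_of_nonneg (inv_pos.2 hR).le]
  refine le_add_of_le_of_nonneg (le_of_eq ?_) (one_nonneg x)
  rw [G0, indicator_of_mem (mem_ball_zero_iff.2 (by rwa [n, inv_mul_lt_iff₀ hR, mul_one])), n,
    ← Real.mul_rpow hR.le (by positivity), mul_inv_cancel_left₀ hR.ne']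

theorem ipA_le {Λ : ℝ} {A : Matrix (Fin 4) (Fin 4) ℝ} (h0 : 0 < Λ) (hA : A.PosDef)
    (h : Ell Λ⁻¹ Λ A) (B : Arr 4 2) : √(ipA A⁻¹ B B) ≤ Λ * √(∑ I, B I ^ 2) := by
  rw [← Real.sqrt_sq h0.le, ← Real.sqrt_mul (sq_nonneg _)]
  exact Real.sqrt_le_sqrt (Ar.ipA_le_sum_sq hA h0.le
    (fun v => (inv_mul_le_iff₀ h0).1 (Hd.ell_lo h v)) B)

variable {M : Type*} {T : TD M} {g : T.V → Fam T} {γ : ℝ}

theorem ell_g {Λ : ℝ} {v : T.V} {s : T.S} {x : E4} (h : ∀ T0, Ell Λ⁻¹ Λ (gb T g T0 v s x)) :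
    Ell Λ⁻¹ Λ (g v s x) := by
  rcases s with a | w
  · exact h 0
  · exact Ga.gb_eq (g := g) (v := v) (w := w) (x := x) (T0 := tau T v w 0 x) (by simp [tau]) ▸ h _

theorem src (h : T.Ok) (hL : T.Lim g γ) (hγ : 0 < γ) (h0 : 0 < σ) (h1 : σ < 1) : SRC T g σ := by
  intro T1 hT
  obtain ⟨Λ, e, hΛ, -, pt⟩ := pt_all h hL hγ
  obtain ⟨Tb, -, -, hb, -⟩ := gbj h hL hγ
  have Λ0 : 0 < Λ := by linarith
  set I := ∫ x, G0 σ x
  set V := ∫ x, (ball (0 : E4) 2).indicator (1 : E4 → ℝ) x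
  have I0 : 0 ≤ I := integral_nonneg G0_nonneg
  have V0 : 0 ≤ V := integral_nonneg one_nonneg
  set c := Λ ^ 14 * Real.exp (|T1| + 1) ^ 2 * 65536
  refine ⟨max Tb 0, √(Fintype.card T.S * c * (Real.exp (4 * σ) ^ 2 * I + V)), Real.sqrt_nonneg _,
    fun v T0 hT0 F N N0 hF h4 hN t ht => ?_⟩
  have hg := hL.met v
  have hp := h.core_pou v
  have t0 : 0 ≤ T0 := (le_max_right _ _).trans hT0
  have hb := hb v T0 ((le_max_left _ _).trans hT0)
  obtain ⟨S, s1, s2⟩ := core_cs h hF h4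
  let a : T.S → E4 → ℝ := fun s x =>
    Λ ^ 12 * (eta T v σ T1 s x ^ 2 * (scl T s x ^ 2 * ∑ I, matT (F s) x I ^ 2))
  have ia : (T.core v).Intg T.χ (g v) a := Atl.intg_of_cs (h.core_ok v) hg hp s1
    (fun s => continuousOn_const.mul (((eta_sm s).continuousOn.pow 2).mul
      (((cont_scl s).pow 2).continuousOn.mul (continuousOn_finsetSum _ fun I _ =>
        (hF.sec.sm s I).continuousOn.pow 2))))
    (s2.of_imp fun b y _ e => by simp [a, matT, e])
  have R0 : 0 < Real.exp (T0 + 4) := Real.exp_pos _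
  have key : (T.core v).int T.χ (g v) a ≤
      Fintype.card T.S * (c * N ^ 2 * ∫ x, D σ (Real.exp (T0 + 4)) x) := by
    rw [← Finset.card_univ, ← nsmul_eq_mul, ← Finset.sum_const, ← integral_const_mul]
    refine Finset.sum_le_sum fun s _ => (setIntegral_mono_on (ia s)
      ((D_int h0 R0).const_mul _).integrableOn ((h.core_ok v).isOpen s).measurableSet
        fun x hx => ?_).trans (setIntegral_le_integral ((D_int h0 R0).const_mul _)
          (Eventually.of_forall fun x => mul_nonneg (by positivity) (D_nonneg R0 x)))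
    have D0 := D_nonneg (σ := σ) R0 x
    by_cases hχ : T.χ s ((T.core v).c s x) = 0
    · simp only [Atl.den, hχ, zero_mul, mul_zero]; positivity
    by_cases hz : F s x = 0
    · simp only [a, matT, hz, Matrix.zero_apply, sq, mul_zero, Finset.sum_const_zero]; positivity
    have hK := cK_of_χ h hx hχ
    have sp := scl_pos hx
    have d1 : (T.core v).den T.χ (g v) s x ≤ Λ ^ 2 := (Hd.den_le (h.core_ok v) hp _ hx).trans
      (Hd.ell_det (ell_g fun T0 => (pt v T0 s x hK).ell) (by positivity)).2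
    have d2 : ∑ I, matT (F s) x I ^ 2 ≤ 65536 * N ^ 2 / scl T s x ^ 4 := by
      refine (Finset.sum_le_card_nsmul _ _ (4096 * N ^ 2 / scl T s x ^ 4) fun I _ => ?_).trans
        (le_of_eq (by simp; ring))
      have := sq_le_sq' (abs_le.1 (hN s x hK (I 0) (I 1))).1 (abs_le.1 (hN s x hK (I 0) (I 1))).2
      rw [rad_eq] at this
      rw [le_div_iff₀ (by positivity), matT]
      linarith
    have d3 : scl T s x ^ (-(4 - 2 * σ)) ≤ D σ (Real.exp (T0 + 4)) x := by
      rcases s with b | w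
      · have := (mem_cK_inl.1 hK).2
        simp only [scl, Sum.elim_inl, Real.one_rpow, D]
        rw [indicator_of_mem (mem_ball_zero_iff.2 (by linarith))]
        exact le_add_of_nonneg_left (mul_nonneg (by positivity) (G0_nonneg _))
      refine le_D R0 ?_
      by_cases hw : w = v
      · have := not_le.1 (mt (h4 w x hx) hz)
        simp only [tau, hw, if_true] at this
        rw [← Real.log_lt_iff_lt_exp (core_pos hx)]; linarith
      · exact (((mem_core_inn hw).1 hx).2.2.trans h.r_lt).trans_le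
          (Real.one_le_exp (by linarith))
    have d4 := (eta_cmp (T1 := T1) h h0 h1 hx).2
    have d5 : (scl T s x ^ (σ - 1)) ^ 2 * (scl T s x ^ 2 / scl T s x ^ 4) =
        scl T s x ^ (-(4 - 2 * σ)) := by
      simp only [← Real.rpow_natCast, ← Real.rpow_mul sp.le, ← Real.rpow_sub sp,
        ← Real.rpow_add sp]
      congr 1; push_cast; ring
    have e0 := (eta_pos (v := v) (σ := σ) (T1 := T1) s x).le
    calc _ ≤ Λ ^ 2 * (Λ ^ 12 * ((Real.exp (|T1| + 1) * scl T s x ^ (σ - 1)) ^ 2 *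
          (scl T s x ^ 2 * (65536 * N ^ 2 / scl T s x ^ 4)))) := by unfold a; gcongr
      _ = c * N ^ 2 * scl T s x ^ (-(4 - 2 * σ)) := by rw [← d5]; ring
      _ ≤ _ := by gcongr
  refine (int_cs (h.core_ok v) hp (ig_IK h hT hg hb hF ht) ia (ig_NK h hT hg ht.sec ht)
    (fun s x _ => by positivity) (fun s x _ => mul_nonneg (sq_nonneg _) (eC_nonneg _ _ _))
    fun s x hx => ?_).trans (mul_le_mul_of_nonneg_right ?_ (Real.sqrt_nonneg _))
  · by_cases hχ : T.χ s ((T.core v).c s x) = 0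
    · simp only [Atl.den, hχ, zero_mul, mul_zero, le_refl]
    have hK := cK_of_χ h hx hχ
    have sp := scl_pos hx
    have e0 := (eta_pos (v := v) (σ := σ) (T1 := T1) s x).le
    have p := (hb.riem s).posDef x hx
    have d0 := Atl.den_nonneg (G := g v) hp s x
    have d1 : (T.core v).den T.χ (gb T g T0 v) s x ≤ Λ ^ 4 * (T.core v).den T.χ (g v) s x := by
      have a1 := (Hd.ell_det (pt v T0 s x hK).ell (by positivity)).2
      have a2 := (Hd.ell_det (ell_g fun T0 => (pt v T0 s x hK).ell) (by positivity)).1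
      have a3 := hp.nonneg s ((T.core v).c s x)
      rw [Atl.den, Atl.den, mul_left_comm (Λ ^ 4), mul_left_comm (Λ ^ 4)]
      gcongr
      calc _ ≤ Λ ^ 2 := a1
        _ = Λ ^ 4 * Λ⁻¹ ^ 2 := by field_simp
        _ ≤ _ := by gcongr
    have d2 := (Ar.abs_ipA_le p (matT (F s) x) (matT (t s) x)).trans (mul_le_mul
      (ipA_le Λ0 p (pt v T0 s x hK).ell _) ((ipA_le Λ0 p (pt v T0 s x hK).ell _).trans
        (mul_le_mul_of_nonneg_left (Real.sqrt_le_sqrt (sum_le_eC sp.ne' _ x)) Λ0.le))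
      (Real.sqrt_nonneg _) (by positivity))
    rw [abs_mul, abs_of_nonneg (sq_nonneg _)]
    simp only [a, show Λ ^ 12 = (Λ ^ 6) ^ 2 by ring, Real.sqrt_mul (sq_nonneg _), Real.sqrt_sq e0,
      Real.sqrt_sq sp.le, Real.sqrt_sq (pow_pos Λ0 6).le] at d2 ⊢
    calc _ ≤ Λ ^ 4 * (T.core v).den T.χ (g v) s x * (eta T v σ T1 s x ^ 2 *
          (Λ * √(∑ I, matT (F s) x I ^ 2) * (Λ * (scl T s x *
            √(eC (scl T s x) (matT (t s)) (matT (t s)) x))))) := by gcongr; exact d2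
      _ = _ := by ring
  · have E1 : 1 ≤ Real.exp (σ * T0) ^ 2 := one_le_pow₀ (Real.one_le_exp (by positivity))
    have E2 : Real.exp (T0 + 4) ^ (2 * σ) = Real.exp (4 * σ) ^ 2 * Real.exp (σ * T0) ^ 2 := by
      rw [← Real.exp_mul, ← mul_pow, ← Real.exp_add, ← Real.exp_nat_mul]; congr 1; push_cast; ring
    rw [Real.sqrt_le_iff, mul_pow, mul_pow, Real.sq_sqrt (by positivity)]
    refine ⟨by positivity, key.trans ?_⟩
    rw [D_integral h0 R0, E2]
    calc _ ≤ Fintype.card T.S * (c * N ^ 2 * (Real.exp (4 * σ) ^ 2 * Real.exp (σ * T0) ^ 2 * I +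
          Real.exp (σ * T0) ^ 2 * V)) := by gcongr; exact le_mul_of_one_le_left V0 E1
      _ = _ := by ring

end Crest.Agent.N207.K.Sb

end
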