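import Crest.Agent.N207.K.CoerB
import Crest.Agent.N207.K.Kl1
import Crest.Agent.N207.M.Rb

/-!
# Row 207, block K (helper47): the leaf `SRC`
-/

set_option autoImplicit false
open Set Filter Topology Metric MeasureTheory
open scoped ContDiff
open Crest.GeometryTopology.CoordMetric
open Crest.Agent.R238 (Ell)
open Crest.Agent.N207.Hd Crest.Agent.N207.CB Crest.Agent.N207.I Crest.Agent.N207.M

noncomputable section

namespace Crest.Agent.N207.K.Sx

/-- the dominating function -/
def dm (σ l : ℝ) (x : E4) : ℝ := 3 ^ (4 + 2 * σ) * rbF σ x + l ^ (4 - 2 * σ) * rbG σ (l • x)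

variable {σ l : ℝ}

theorem dm_nonneg (hl : 0 < l) (x : E4) : 0 ≤ dm σ l x := by
  have := rbF_nonneg (δ := σ) x
  have := rbG_nonneg (δ := σ) (l • x)
  unfold dm; positivity

theorem dm_int (h : 0 < σ) (hl : 0 < l) : Integrable (dm σ l) :=
  ((rbF_int h).const_mul _).add (((rbG_int h).comp_smul hl.ne').const_mul _)

theorem dm_integral (h : 0 < σ) (hl : 0 < l) :
    ∫ x, dm σ l x = 3 ^ (4 + 2 * σ) * (∫ x, rbF σ x) + l ^ (-(2 * σ)) * ∫ x, rbG σ x := by
  unfold dm
  rw [integral_add ((rbF_int h).const_mul _) (((rbG_int h).comp_smul hl.ne').const_mul _),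
    integral_const_mul, integral_const_mul, Measure.integral_comp_smul]
  simp only [finrank_euclideanSpace, Fintype.card_fin, smul_eq_mul]
  rw [abs_of_pos (by positivity), ← mul_assoc, ← Real.rpow_natCast, ← Real.rpow_neg hl.le,
    ← Real.rpow_add hl]
  congr 3
  push_cast; ring

variable {M : Type*} {T : TD M} {g : T.V → Fam T} {γ T0 : ℝ} {v : T.V}

theorem dom (h : T.Ok) (h0 : 0 < σ) (hT : 0 ≤ T0) {s : T.S} {x : E4} (hx : x ∈ T.cK v s)
    (ht : ∀ u, s = Sum.inr u → tau T v u T0 x < 4) :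
    scl T s x ^ (-(4 - 2 * σ)) ≤ dm σ (Real.exp (-(T0 + 4))) x := by
  have l0 := Real.exp_pos (-(T0 + 4))
  have p1 := rbF_nonneg (δ := σ) x
  have p2 := rbG_nonneg (δ := σ) (Real.exp (-(T0 + 4)) • x)
  rcases s with a | u
  · have h2 := rb_far h0 one_pos (x := x) (by linarith [(TD.mem_cK_inl.1 hx).2])
    rw [Real.one_rpow] at h2
    exact ((Real.one_rpow _).trans_le h2).trans (le_add_of_nonneg_right (by positivity))
  have x0 := core_pos ((h.core_pou v).sub _ hx)
  have n1 : ‖Real.exp (-(T0 + 4)) • x‖ = Real.exp (-(T0 + 4)) * ‖x‖ := by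
    rw [norm_smul, Real.norm_of_nonneg l0.le]
  have h5 : Real.exp (-(T0 + 4)) * ‖x‖ < 1 := by
    by_cases hu : u = v
    · have := ht u rfl
      simp only [tau, hu, if_true] at this
      rw [← Real.exp_log x0, ← Real.exp_add, Real.exp_lt_one_iff]
      linarith
    · have := ((TD.mem_cK_inn hu).1 hx).2.2
      exact mul_lt_one_of_nonneg_of_lt_one_right (Real.exp_le_one_iff.2 (by linarith)) x0.le
        (by linarith [h.r_lt, h.r_pos])
  refine le_trans (le_of_eq ?_) (le_add_of_nonneg_left (by positivity))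
  rw [rbG, indicator_of_mem (mem_ball_zero_iff.2 (n1 ▸ h5)), n1, Real.mul_rpow l0.le x0.le,
    ← mul_assoc, ← Real.rpow_add l0, add_neg_cancel, Real.rpow_zero, one_mul]
  rfl

theorem src (h : T.Ok) (hL : T.Lim g γ) (hγ : 0 < γ) (h0 : 0 < σ) (h1 : σ < 1) : SRC T g σ := by
  intro T1 hT
  obtain ⟨Λ, e, l1, -, H⟩ := pt_gb h hL hγ
  have l0 : 0 < Λ := by linarith
  set A := ∫ x, rbF σ x with hA
  set B := ∫ x, rbG σ x with hB
  have A0 : 0 ≤ A := integral_nonneg rbF_nonneg
  have B0 : 0 ≤ B := integral_nonneg rbG_nonneg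
  set K := Λ ^ 14 * (Real.exp (|T1| + 1) * 256) ^ 2 with hK
  set Q := Fintype.card T.S * (K * (3 ^ (4 + 2 * σ) * A + Real.exp (8 * σ) * B)) with hQ
  refine ⟨4 / T.r, √Q, Real.sqrt_nonneg _, fun v T0 hT0 F N N0 hF hz hN t ht => ?_⟩
  have o := h.core_ok v
  have p := h.core_pou v
  have T0p : 0 ≤ T0 := le_trans (div_pos four_pos h.r_pos).le hT0
  have lp := Real.exp_pos (-(T0 + 4))
  let a : T.S → E4 → ℝ := fun s x =>
    (Λ ^ 6 * eta T v σ T1 s x * scl T s x) ^ 2 * ss (matT (F s) x)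
  have a0 : ∀ s x, 0 ≤ a s x := fun s x => mul_nonneg (sq_nonneg _) (ss_nonneg _)
  have bd : ∀ s, ∀ x ∈ (T.core v).U s, (T.core v).den T.χ (g v) s x * a s x ≤
      K * N ^ 2 * dm σ (Real.exp (-(T0 + 4))) x := fun s x hx => by
    have d0 := dm_nonneg (σ := σ) lp x
    by_cases hχ : T.χ s ((T.core v).c s x) = 0
    · simp only [Atl.den, hχ, zero_mul, mul_zero]; positivity
    by_cases hF0 : F s x = 0
    · simp only [a, ss, matT, hF0, Matrix.zero_apply, ne_eq, OfNat.ofNat_ne_zero,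
        not_false_eq_true, zero_pow, Finset.sum_const_zero, mul_zero]; positivity
    have hc := cK_of_χ h hx hχ
    have r0 := scl_pos hx
    have b1 := dom h h0 T0p hc fun u hu => not_le.1 fun k => hF0 (hu ▸ hz u x (hu ▸ hx) k)
    have b2 := (den_le o p (g v) hx).trans (ell_det (H v s x hc).1 (by positivity)).2
    have b3 : ss (matT (F s) x) ≤ 4 ^ 2 * (64 * N / scl T s x ^ 2) ^ 2 := ss_le fun I => by
      have := hN s x hc (I 0) (I 1)
      rw [abs_mul, abs_sq, rad_eq] at this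
      rw [le_div_iff₀ (by positivity)]
      change |F s x (I 0) (I 1)| * _ ≤ _
      linarith
    have b4 := (eta_cmp (T1 := T1) h h0 h1 hx).2
    have b5 : (scl T s x ^ (σ - 1)) ^ 2 = scl T s x ^ (-(4 - 2 * σ)) * scl T s x ^ 2 := by
      rw [← Real.rpow_natCast, ← Real.rpow_natCast, ← Real.rpow_mul r0.le, ← Real.rpow_add r0]
      congr 1; push_cast; ring
    have e0 := (eta_pos (T := T) (v := v) (σ := σ) (T1 := T1) s x).le
    calc _ ≤ Λ ^ 2 * ((Λ ^ 6 * (Real.exp (|T1| + 1) * scl T s x ^ (σ - 1)) * scl T s x) ^ 2 *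
          (4 ^ 2 * (64 * N / scl T s x ^ 2) ^ 2)) := by
          refine mul_le_mul b2 (mul_le_mul ?_ b3 (ss_nonneg _) (sq_nonneg _)) (a0 s x) (sq_nonneg _)
          gcongr
      _ = K * N ^ 2 * scl T s x ^ (-(4 - 2 * σ)) := by
          rw [mul_pow, mul_pow, mul_pow, b5, hK]; field_simp; ring
      _ ≤ _ := by gcongr
  have ia : (T.core v).Intg T.χ (g v) a := fun s =>
    Integrable.mono' ((dm_int h0 lp).const_mul _).integrableOn
      (((Atl.sm_den (hL.met v) p s).continuousOn.mul ((((continuousOn_const.mul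
        (eta_sm s).continuousOn).mul (cont_scl s).continuousOn).pow 2).mul (continuousOn_finsetSum _
          fun I _ => (hF.sec.sm s I).continuousOn.pow 2))).aestronglyMeasurable
        (o.isOpen s).measurableSet)
      ((ae_restrict_mem (o.isOpen s).measurableSet).mono fun x hx => by
        rw [Real.norm_of_nonneg (mul_nonneg (Atl.den_nonneg p s x) (a0 s x))]; exact bd s x hx)
  have ib : (T.core v).int T.χ (g v) a ≤ (Real.exp (σ * T0) * N) ^ 2 * Q := by
    have k : ∀ s, ∫ x in (T.core v).U s, (T.core v).den T.χ (g v) s x * a s x ≤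
        (Real.exp (σ * T0) * N) ^ 2 * (K * (3 ^ (4 + 2 * σ) * A + Real.exp (8 * σ) * B)) :=
      fun s => by
      refine (setIntegral_mono_on (ia s) ((dm_int h0 lp).const_mul _).integrableOn
        (o.isOpen s).measurableSet (bd s)).trans ((setIntegral_le_integral
          ((dm_int h0 lp).const_mul _) (.of_forall fun x => mul_nonneg (by positivity)
            (dm_nonneg lp x))).trans ?_)
      rw [integral_const_mul, dm_integral h0 lp, ← Real.exp_mul, ← hA, ← hB,
        show -(T0 + 4) * -(2 * σ) = σ * T0 + σ * T0 + 8 * σ by ring, Real.exp_add, Real.exp_add]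
      have : 1 ≤ Real.exp (σ * T0) ^ 2 := one_le_pow₀ (Real.one_le_exp (by positivity))
      have := mul_le_mul_of_nonneg_right this
        (show 0 ≤ K * N ^ 2 * (3 ^ (4 + 2 * σ) * A) by positivity)
      linarith
    refine (Finset.sum_le_sum fun s _ => k s).trans_eq ?_
    rw [Finset.sum_const, Finset.card_univ, nsmul_eq_mul, hQ]; ring
  have hG := Ga.gb_met h hL hT0 v
  refine (int_cs o p (ig_IK h hT (hL.met v) hG hF ht) ia (ig_NK h hT (hL.met v) ht.sec ht)
    (fun s x _ => a0 s x) (fun s x _ => mul_nonneg (sq_nonneg _) (eC_nonneg _ _ _))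
    fun s x hx => ?_).trans (mul_le_mul_of_nonneg_right ((Real.sqrt_le_sqrt ib).trans_eq ?_)
      (Real.sqrt_nonneg _))
  swap
  · rw [Real.sqrt_mul (sq_nonneg _), Real.sqrt_sq (by positivity)]; ring
  by_cases hχ : T.χ s ((T.core v).c s x) = 0
  · simp [Atl.den, hχ]
  obtain ⟨b1, b2⟩ := H v s x (cK_of_χ h hx hχ)
  have r0 := scl_pos hx
  have e0 := (eta_pos (T := T) (v := v) (σ := σ) (T1 := T1) s x).le
  have c1 := Cb.abs_ipA l0 (b2 T0).ell (A := matT (F s) x) (B := matT (t s) x) (Real.sqrt_nonneg _)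
    (mul_nonneg r0.le (Real.sqrt_nonneg _)) (Real.sq_sqrt (ss_nonneg _)).ge
    ((sum_le_eC r0.ne' _ x).trans_eq (by rw [mul_pow, Real.sq_sqrt (eC_nonneg _ _ _)]))
  have d1 := (ell_det b1 (by positivity)).1
  have d2 := (ell_det (b2 T0).ell (by positivity)).2
  have d3 : √(gb T g T0 v s x).det ≤ Λ ^ 4 * √(g v s x).det :=
    d2.trans (le_trans (le_of_eq (by field_simp)) (mul_le_mul_of_nonneg_left d1 (by positivity)))
  simp only [a, Atl.den, mul_assoc (_ : ℝ)⁻¹, mul_assoc (T.χ _ _), Real.sqrt_mul (sq_nonneg _),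
    Real.sqrt_sq e0, abs_mul, abs_sq, Real.sqrt_sq (show 0 ≤ Λ ^ 6 * eta T v σ T1 s x * scl T s x
      by positivity)]
  refine mul_le_mul_of_nonneg_left (mul_le_mul_of_nonneg_left ((mul_le_mul d3
    (mul_le_mul_of_nonneg_left c1 (sq_nonneg _)) (by positivity)
    (by positivity)).trans_eq ?_) (p.nonneg _ _)) (by positivity)
  ring

end Crest.Agent.N207.K.Sx

end
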