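import Crest.Agent.N207.K.Abs2
import Crest.Agent.N207.K.Euc

/-!
# Row 207, block K (helper1): abstract elliptic systems on a finite family of charts

`Sys n κ J S`: sections `s : S` have components `c s j I` on the open sets `U j`;
integrals are `∑ j, ∫_{U j} om j * f j`; `en` is the energy density, `q` the density of the form of
the operator `P`, `T0` the test sections.
-/

set_option autoImplicit false
set_option linter.unusedSectionVars false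
open MeasureTheory Set Filter Topology Metric
open scoped ContDiff
open Crest.GeometryTopology.CoordMetric (pderiv)
open Crest.Agent.R249.SReg352 Crest.Agent.R249.EV

noncomputable section

namespace Crest.Agent.N207.K

variable {n : ℕ} {κ J S : Type*} [Fintype κ] [Fintype J] [AddCommGroup S] [Module ℝ S]

/-- squared 1-jet -/
def jet (f : κ → En n → ℝ) (y : En n) : ℝ := ∑ I, f I y ^ 2 + ∑ i, ∑ I, pderiv i (f I) y ^ 2

/-- fibre product -/
def fib (H : Matrix κ κ ℝ) (u v : κ → ℝ) : ℝ := ∑ I, ∑ I', H I I' * (u I * v I')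

/-- `∑ j, ∫_{U j} om j * f j` -/
def itg (U : J → Set (En n)) (om f : J → En n → ℝ) : ℝ := ∑ j, ∫ y in U j, om j y * f j y

/-- evaluation -/
def evL {J : Type*} (j : J) (y : En n) : (J → En n → ℝ) →ₗ[ℝ] ℝ where
  toFun f := f j y
  map_add' _ _ := rfl
  map_smul' _ _ := rfl

/-- the data -/
structure Sys (n : ℕ) (κ J S : Type*) [Fintype κ] [Fintype J] [AddCommGroup S] [Module ℝ S] where
  U : J → Set (En n)
  om : J → En n → ℝ
  ρ : J → En n → ℝ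
  c : S →ₗ[ℝ] (J → κ → En n → ℝ)
  H : J → En n → Matrix κ κ ℝ
  en : S →ₗ[ℝ] S →ₗ[ℝ] (J → En n → ℝ)
  q : S →ₗ[ℝ] S →ₗ[ℝ] (J → En n → ℝ)
  P : S →ₗ[ℝ] S
  T0 : Submodule ℝ S

namespace Sys

variable (Y : Sys n κ J S)

/-- fibre product of two sections -/
def e0 (s t : S) (j : J) (y : En n) : ℝ :=
  fib (Y.H j y) (fun I => Y.c s j I y) fun I => Y.c t j I y

/-- integrable families -/
def Ig (f : J → En n → ℝ) : Prop := ∀ j, IntegrableOn (fun y => Y.om j y * f j y) (Y.U j)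

/-- the integral -/
def I (f : J → En n → ℝ) : ℝ := itg Y.U Y.om f

/-- `L²` pairing -/
def ip (s t : S) : ℝ := Y.I (Y.e0 s t)

/-- energy -/
def N (s t : S) : ℝ := Y.I (Y.en s t)

/-- the form of `P` -/
def Q (s t : S) : ℝ := Y.I (Y.q s t)

/-- finite energy -/
def Fe (s : S) : Prop := Y.Ig (Y.en s s)

/-- limits of tests -/
structure Cl (u : S) : Prop where
  fe : Y.Fe u
  lim : ∃ s : ℕ → S, (∀ m, s m ∈ Y.T0) ∧ Tendsto (fun m => Y.N (s m - u) (s m - u)) atTop (𝓝 0)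

/-- equal components -/
def Eqv (s t : S) : Prop := ∀ j I, ∀ y ∈ Y.U j, Y.c s j I y = Y.c t j I y

/-- the axioms -/
structure Ok (qC : ℝ) : Prop where
  op : ∀ j, IsOpen (Y.U j)
  om0 : ∀ j, ∀ y ∈ Y.U j, 0 ≤ Y.om j y
  com : ∀ j, ContinuousOn (Y.om j) (Y.U j)
  smρ : ∀ j, ContDiffOn ℝ ∞ (Y.ρ j) (Y.U j)
  ρpos : ∀ j, ∀ y ∈ Y.U j, 0 < Y.ρ j y
  smc : ∀ s j I, ContDiffOn ℝ ∞ (Y.c s j I) (Y.U j)
  smH : ∀ j I I', ContDiffOn ℝ ∞ (fun y => Y.H j y I I') (Y.U j)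
  posH : ∀ j, ∀ y ∈ Y.U j, (Y.H j y).PosDef
  en_symm : ∀ s t j, ∀ y ∈ Y.U j, Y.en s t j y = Y.en t s j y
  en_cont : ∀ s t j, ContinuousOn (Y.en s t j) (Y.U j)
  en_cmp : ∀ j K, IsCompact K → K ⊆ Y.U j → ∃ C : ℝ, 0 < C ∧ ∀ s, ∀ y ∈ K,
    jet (Y.c s j) y ≤ C * Y.en s s j y ∧ Y.en s s j y ≤ C * jet (Y.c s j) y
  q0 : 0 ≤ qC
  q_cont : ∀ s t j, ContinuousOn (Y.q s t j) (Y.U j)
  q_le : ∀ s t j, ∀ y ∈ Y.U j, |Y.q s t j y| ≤ qC * √(Y.en s s j y) * √(Y.en t t j y)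
  P_eq : ∀ j, ∃ a B C, Cf (Y.U j) a B C ∧
    ∀ s I, ∀ y ∈ Y.U j, Y.c (Y.P s) j I y = opc a B C (Y.c s j) I y
  supp : ∀ t ∈ Y.T0, ∀ j, ∃ K, IsCompact K ∧ K ⊆ Y.U j ∧
    ∀ y ∈ Y.U j, y ∉ K → Y.om j y = 0 ∨ ∀ I, Y.c t j I =ᶠ[𝓝 y] 0
  ibp : ∀ s, ∀ t ∈ Y.T0, Y.Q s t = Y.ip (Y.P s) t
  loc : ∀ j, ∀ y₀ ∈ Y.U j, ∃ r > 0, closedBall y₀ r ⊆ Y.U j ∧
    (∀ s ∈ Y.T0, ∫ y in ball y₀ r, Y.ρ j y * Y.en s s j y ≤ Y.N s s) ∧
    ∀ A : κ → En n → ℝ, (∀ I, TO (ball y₀ r) (A I)) → ∃ t ∈ Y.T0,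
      (∀ I, ∀ y ∈ ball y₀ r, Y.c t j I y = A I y) ∧
      ∀ s, Y.ip s t = ∫ y in ball y₀ r, Y.ρ j y * Y.e0 s t j y
  closed : ∀ (s : ℕ → S) (A : J → κ → En n → ℝ), (∀ j I, ContDiffOn ℝ ∞ (A j I) (Y.U j)) →
    (∀ j, ∀ y ∈ Y.U j, ∃ r > 0, ∀ I,
      Tendsto (fun m => ∫ z in ball y r, (Y.c (s m) j I z - A j I z) ^ 2) atTop (𝓝 0)) →
    ∃ u, ∀ j I, ∀ y ∈ Y.U j, Y.c u j I y = A j I y

/-- the Garding inequality -/
def Gard (c₀ : ℝ) : Prop := ∃ (C : ℝ) (K : J → Set (En n)), (∀ j, IsCompact (K j) ∧ K j ⊆ Y.U j) ∧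
  ∀ t ∈ Y.T0, c₀ * Y.N t t ≤ Y.Q t t + C * ∑ j, ∫ y in K j, ∑ I, Y.c t j I y ^ 2

/-- a coercive family of constraints `ψ` with dual tests `φ` -/
structure Fam {m : Type*} [Fintype m] [DecidableEq m] (ψ φ : m → S) (c : ℝ) : Prop where
  pos : 0 < c
  tψ : ∀ k, ψ k ∈ Y.T0
  tφ : ∀ k, φ k ∈ Y.T0
  dual : ∀ k l, Y.ip (φ l) (ψ k) = if k = l then 1 else 0
  coer : ∀ t ∈ Y.T0, (∀ k, Y.ip t (ψ k) = 0) → c * Y.N t t ≤ Y.Q t t

variable {Y} {qC : ℝ} {s s' t u v : S} {f g : J → En n → ℝ}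

theorem jet_nonneg (f : κ → En n → ℝ) (y : En n) : 0 ≤ jet f y :=
  add_nonneg (Finset.sum_nonneg fun _ _ => sq_nonneg _)
    (Finset.sum_nonneg fun _ _ => Finset.sum_nonneg fun _ _ => sq_nonneg _)

theorem sq_le_jet (f : κ → En n → ℝ) (I : κ) (y : En n) : f I y ^ 2 ≤ jet f y :=
  le_add_of_le_of_nonneg
    (Finset.single_le_sum (f := fun I => f I y ^ 2) (fun _ _ => sq_nonneg _) (Finset.mem_univ I))
    (Finset.sum_nonneg fun _ _ => Finset.sum_nonneg fun _ _ => sq_nonneg _)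

theorem pd_sq_le_jet (f : κ → En n → ℝ) (i : Fin n) (I : κ) (y : En n) :
    pderiv i (f I) y ^ 2 ≤ jet f y := by
  refine le_add_of_nonneg_of_le (Finset.sum_nonneg fun _ _ => sq_nonneg _) ?_
  refine le_trans ?_ (Finset.single_le_sum (f := fun i => ∑ I, pderiv i (f I) y ^ 2)
    (fun _ _ => Finset.sum_nonneg fun _ _ => sq_nonneg _) (Finset.mem_univ i))
  exact Finset.single_le_sum (f := fun I => pderiv i (f I) y ^ 2) (fun _ _ => sq_nonneg _)
    (Finset.mem_univ I)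

theorem jet_zero {f : κ → En n → ℝ} {y : En n} (h : ∀ I, f I =ᶠ[𝓝 y] 0) : jet f y = 0 := by
  have h1 : ∀ I i, pderiv i (f I) y = 0 := fun I i => by
    rw [pderiv, (h I).fderiv_eq]; simp
  simp [jet, h1, fun I => (h I).eq_of_nhds]

theorem jet_cont {U : Set (En n)} (hU : IsOpen U) {f : κ → En n → ℝ}
    (hf : ∀ I, ContDiffOn ℝ ∞ (f I) U) : ContinuousOn (jet f) U :=
  (continuousOn_finsetSum _ fun I _ => (hf I).continuousOn.pow 2).add
    (continuousOn_finsetSum _ fun i _ => continuousOn_finsetSum _ fun I _ =>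
      (smpd hU (hf I) i).continuousOn.pow 2)

theorem Ig.add (hf : Y.Ig f) (hg : Y.Ig g) : Y.Ig (f + g) := fun j => by
  simp only [Pi.add_apply, mul_add]
  exact (hf j).add (hg j)

theorem Ig.smul (hf : Y.Ig f) (a : ℝ) : Y.Ig (a • f) := fun j => by
  simp only [Pi.smul_apply, smul_eq_mul, mul_left_comm _ a]
  exact (hf j).const_mul a

theorem I_add (hf : Y.Ig f) (hg : Y.Ig g) : Y.I (f + g) = Y.I f + Y.I g := by
  simp only [I, itg, Pi.add_apply, mul_add, ← Finset.sum_add_distrib]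
  exact Finset.sum_congr rfl fun j _ => integral_add (hf j) (hg j)

theorem I_smul (a : ℝ) (f : J → En n → ℝ) : Y.I (a • f) = a * Y.I f := by
  simp only [I, itg, Pi.smul_apply, smul_eq_mul, mul_left_comm _ a, integral_const_mul,
    Finset.mul_sum]

theorem e0_add_left (s s' t : S) : Y.e0 (s + s') t = Y.e0 s t + Y.e0 s' t := by
  funext j y
  simp only [e0, fib, map_add, Pi.add_apply, add_mul, mul_add, Finset.sum_add_distrib]

theorem e0_smul_left (a : ℝ) (s t : S) : Y.e0 (a • s) t = a • Y.e0 s t := by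
  funext j y
  simp only [e0, fib, map_smul, Pi.smul_apply, smul_eq_mul, Finset.mul_sum]
  exact Finset.sum_congr rfl fun _ _ => Finset.sum_congr rfl fun _ _ => by ring

namespace Ok

variable (h : Y.Ok qC)
include h

theorem ms (j : J) : MeasurableSet (Y.U j) := (h.op j).measurableSet

theorem en0 (s : S) (j : J) {y : En n} (hy : y ∈ Y.U j) : 0 ≤ Y.en s s j y := by
  obtain ⟨C, hC, h1⟩ := h.en_cmp j {y} isCompact_singleton (singleton_subset_iff.2 hy)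
  exact nonneg_of_mul_nonneg_right ((jet_nonneg _ _).trans (h1 s y rfl).1) hC

theorem en_cs (s t : S) (j : J) {y : En n} (hy : y ∈ Y.U j) :
    |Y.en s t j y| ≤ √(Y.en s s j y) * √(Y.en t t j y) :=
  form_cs (Y.en.compr₂ (evL j y))
    (fun s t => h.en_symm s t j y hy) (fun s => h.en0 s j hy) s t

theorem en_zero {j : J} {y : En n} (hy : y ∈ Y.U j) (h0 : ∀ I, Y.c t j I =ᶠ[𝓝 y] 0) :
    Y.en t t j y = 0 := by
  obtain ⟨C, hC, h1⟩ := h.en_cmp j {y} isCompact_singleton (singleton_subset_iff.2 hy)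
  have := (h1 t y rfl).2
  rw [jet_zero h0, mul_zero] at this
  exact le_antisymm this (h.en0 t j hy)

theorem I_congr (hfg : ∀ j, ∀ y ∈ Y.U j, f j y = g j y) : Y.I f = Y.I g :=
  Finset.sum_congr rfl fun j _ => setIntegral_congr_fun (h.ms j) fun y hy => by
    simp only [hfg j y hy]

theorem I_mono (hf : Y.Ig f) (hg : Y.Ig g) (hfg : ∀ j, ∀ y ∈ Y.U j, f j y ≤ g j y) :
    Y.I f ≤ Y.I g :=
  Finset.sum_le_sum fun j _ => setIntegral_mono_on (hf j) (hg j) (h.ms j) fun y hy =>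
    mul_le_mul_of_nonneg_left (hfg j y hy) (h.om0 j y hy)

theorem I_nonneg (hf : ∀ j, ∀ y ∈ Y.U j, 0 ≤ f j y) : 0 ≤ Y.I f :=
  Finset.sum_nonneg fun j _ => setIntegral_nonneg (h.ms j) fun y hy =>
    mul_nonneg (h.om0 j y hy) (hf j y hy)

theorem ig_of_le (hg : Y.Ig g) (hf : ∀ j, ContinuousOn (f j) (Y.U j))
    (hfg : ∀ j, ∀ y ∈ Y.U j, |f j y| ≤ g j y) : Y.Ig f := fun j => by
  refine Integrable.mono' (hg j) (((h.com j).mul (hf j)).aestronglyMeasurable (h.ms j)) ?_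
  filter_upwards [ae_restrict_mem (h.ms j)] with y hy
  rw [Real.norm_eq_abs, abs_mul, abs_of_nonneg (h.om0 j y hy)]
  exact mul_le_mul_of_nonneg_left (hfg j y hy) (h.om0 j y hy)

theorem ig_test (ht : t ∈ Y.T0) (hf : ∀ j, ContinuousOn (f j) (Y.U j))
    (h0 : ∀ j, ∀ y ∈ Y.U j, (∀ I, Y.c t j I =ᶠ[𝓝 y] 0) → f j y = 0) : Y.Ig f := fun j => by
  obtain ⟨K, hK, hKU, h1⟩ := h.supp t ht j
  refine IntegrableOn.of_forall_sdiff_eq_zero
    ((((h.com j).mul (hf j)).mono hKU).integrableOn_compact hK) (h.ms j) fun y hy => ?_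
  rcases h1 y hy.1 hy.2 with h2 | h2
  · rw [h2, zero_mul]
  · rw [h0 j y hy.1 h2, mul_zero]

theorem e0_cont (s t : S) (j : J) : ContinuousOn (Y.e0 s t j) (Y.U j) :=
  continuousOn_finsetSum _ fun I _ => continuousOn_finsetSum _ fun I' _ =>
    (h.smH j I I').continuousOn.mul ((h.smc s j I).continuousOn.mul (h.smc t j I').continuousOn)

theorem e0_comm (s t : S) (j : J) {y : En n} (hy : y ∈ Y.U j) : Y.e0 s t j y = Y.e0 t s j y := by
  simp only [e0, fib]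
  rw [Finset.sum_comm]
  refine Finset.sum_congr rfl fun I _ => Finset.sum_congr rfl fun I' _ => ?_
  have := (h.posH j y hy).1.apply I I'
  rw [star_trivial] at this
  rw [this]; ring

theorem ip_comm (s t : S) : Y.ip s t = Y.ip t s := h.I_congr fun j _ hy => h.e0_comm s t j hy

theorem ig_e0 (s : S) (ht : t ∈ Y.T0) : Y.Ig (Y.e0 s t) :=
  h.ig_test ht (h.e0_cont s t) fun j y _ h0 => by
    simp [e0, fib, fun I => (h0 I).eq_of_nhds]

theorem ip_add (s s' : S) (ht : t ∈ Y.T0) : Y.ip (s + s') t = Y.ip s t + Y.ip s' t := by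
  rw [ip, e0_add_left, I_add (h.ig_e0 s ht) (h.ig_e0 s' ht)]; rfl

omit h in
theorem ip_smul (a : ℝ) (s t : S) : Y.ip (a • s) t = a * Y.ip s t := by
  rw [ip, e0_smul_left, I_smul]; rfl

/-- pairing with a test -/
def ipL (ht : t ∈ Y.T0) : S →ₗ[ℝ] ℝ where
  toFun s := Y.ip s t
  map_add' s s' := h.ip_add s s' ht
  map_smul' a s := ip_smul a s t

theorem ip_sub (s s' : S) (ht : t ∈ Y.T0) : Y.ip (s - s') t = Y.ip s t - Y.ip s' t :=
  (h.ipL ht).map_sub s s'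

theorem ip_lc {m : Type*} [Fintype m] (x : m → ℝ) (w : m → S) (ht : t ∈ Y.T0) :
    Y.ip (∑ k, x k • w k) t = ∑ k, x k * Y.ip (w k) t := by
  have := map_sum (h.ipL ht) (fun k => x k • w k) Finset.univ
  simp only [map_smul, smul_eq_mul] at this
  exact this

theorem fe_test (ht : t ∈ Y.T0) : Y.Fe t :=
  h.ig_test ht (h.en_cont t t) fun _ _ hy h0 => h.en_zero hy h0

omit h in
theorem sqrt_mul_le {a b τ : ℝ} (ha : 0 ≤ a) (hb : 0 ≤ b) (hτ : 0 < τ) :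
    √a * √b ≤ τ / 2 * a + τ⁻¹ / 2 * b := by
  have h1 := Real.sq_sqrt ha
  have h2 := Real.sq_sqrt hb
  have h3 : 0 ≤ τ⁻¹ * (τ * √a - √b) ^ 2 := by positivity
  have h4 : τ⁻¹ * (τ * √a - √b) ^ 2 = τ * √a ^ 2 - 2 * (√a * √b) + τ⁻¹ * √b ^ 2 := by
    field_simp; ring
  rw [h4, h1, h2] at h3
  linarith

theorem ig_dom {C : ℝ} (hC : 0 ≤ C) (hs : Y.Fe s) (ht : Y.Fe t)
    (hf : ∀ j, ContinuousOn (f j) (Y.U j))
    (hle : ∀ j, ∀ y ∈ Y.U j, |f j y| ≤ C * √(Y.en s s j y) * √(Y.en t t j y)) :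
    Y.Ig f ∧ |Y.I f| ≤ C * √(Y.N s s) * √(Y.N t t) := by
  have key : ∀ τ : ℝ, 0 < τ → ∀ j, ∀ y ∈ Y.U j,
      |f j y| ≤ ((C * (τ / 2)) • Y.en s s + (C * (τ⁻¹ / 2)) • Y.en t t) j y := fun τ hτ j y hy => by
    refine (hle j y hy).trans ?_
    have := mul_le_mul_of_nonneg_left (sqrt_mul_le (h.en0 s j hy) (h.en0 t j hy) hτ) hC
    simp only [Pi.add_apply, Pi.smul_apply, smul_eq_mul]
    linarith
  have hi : Y.Ig f := h.ig_of_le ((hs.smul _).add (ht.smul _)) hf (key 1 one_pos)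
  refine ⟨hi, ?_⟩
  have ha : 0 ≤ Y.N s s := h.I_nonneg fun j _ hy => h.en0 s j hy
  have hb : 0 ≤ Y.N t t := h.I_nonneg fun j _ hy => h.en0 t j hy
  have k2 : ∀ τ : ℝ, 0 < τ → |Y.I f| ≤ C * (τ / 2) * Y.N s s + C * (τ⁻¹ / 2) * Y.N t t :=
    fun τ hτ => by
    have e1 := I_add (hs.smul (C * (τ / 2))) (ht.smul (C * (τ⁻¹ / 2)))
    rw [I_smul, I_smul] at e1
    have a1 := h.I_mono hi ((hs.smul _).add (ht.smul _)) fun j y hy =>
      (le_abs_self _).trans (key τ hτ j y hy)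
    have a2 := h.I_mono (hi.smul (-1)) ((hs.smul _).add (ht.smul _)) fun j y hy => by
      refine le_trans ?_ (key τ hτ j y hy)
      simp only [Pi.smul_apply, smul_eq_mul, neg_mul, one_mul]
      exact neg_le_abs _
    rw [I_smul] at a2
    rw [e1] at a1 a2
    exact abs_le.2 ⟨by simp only [N]; linarith, a1⟩
  refine le_of_forall_pos_le_add fun ε hε => ?_
  set a := √(Y.N s s) with hd
  set b := √(Y.N t t) with he
  have a0 : 0 ≤ a := Real.sqrt_nonneg _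
  have b0 : 0 ≤ b := Real.sqrt_nonneg _
  obtain ⟨δ, hδ, hδ1⟩ : ∃ δ : ℝ, 0 < δ ∧ C * (δ * (a + b)) ≤ ε :=
    ⟨ε / (C * (a + b) + 1), by positivity, by
      rw [mul_left_comm, div_mul_eq_mul_div, div_le_iff₀ (by positivity)]
      nlinarith [mul_nonneg hC (add_nonneg a0 b0)]⟩
  have k3 := k2 ((b + δ) / (a + δ)) (by positivity)
  rw [← Real.sq_sqrt ha, ← Real.sq_sqrt hb, ← hd, ← he] at k3
  have k4 : (b + δ) / (a + δ) * a ^ 2 ≤ (b + δ) * a := by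
    rw [div_mul_eq_mul_div, div_le_iff₀ (by positivity)]
    have : 0 ≤ (b + δ) * a * δ := by positivity
    nlinarith
  have k5 : ((b + δ) / (a + δ))⁻¹ * b ^ 2 ≤ (a + δ) * b := by
    rw [inv_div, div_mul_eq_mul_div, div_le_iff₀ (by positivity)]
    have : 0 ≤ (a + δ) * b * δ := by positivity
    nlinarith
  have k6 := mul_le_mul_of_nonneg_left k4 hC
  have k7 := mul_le_mul_of_nonneg_left k5 hC
  have k8 : 0 ≤ C * (δ * (a + b)) := by positivity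
  nlinarith

theorem ig_en (hs : Y.Fe s) (ht : Y.Fe t) : Y.Ig (Y.en s t) :=
  (h.ig_dom zero_le_one hs ht (h.en_cont s t) fun j y hy => by
    rw [one_mul]; exact h.en_cs s t j hy).1

theorem ig_q (hs : Y.Fe s) (ht : Y.Fe t) : Y.Ig (Y.q s t) :=
  (h.ig_dom h.q0 hs ht (h.q_cont s t) (h.q_le s t)).1

theorem Q_le (hs : Y.Fe s) (ht : Y.Fe t) : |Y.Q s t| ≤ qC * √(Y.N s s) * √(Y.N t t) :=
  (h.ig_dom h.q0 hs ht (h.q_cont s t) (h.q_le s t)).2

theorem N0 (s : S) : 0 ≤ Y.N s s := h.I_nonneg fun j _ hy => h.en0 s j hy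

theorem N_comm (s t : S) : Y.N s t = Y.N t s := h.I_congr fun j y hy => h.en_symm s t j y hy

/-- the sections of finite energy -/
def FE : Submodule ℝ S where
  carrier := {s | Y.Fe s}
  zero_mem' := h.fe_test Y.T0.zero_mem
  add_mem' {s t} hs ht := by
    have := ((h.ig_en hs hs).add (h.ig_en ht hs)).add ((h.ig_en hs ht).add (h.ig_en ht ht))
    simpa only [mem_ofPred_eq, Fe, map_add, LinearMap.add_apply] using this
  smul_mem' a s hs := by
    have := (Ig.smul hs a).smul a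
    simpa only [mem_ofPred_eq, Fe, map_smul, LinearMap.smul_apply] using this

theorem T0_le : Y.T0 ≤ h.FE := fun _ ht => h.fe_test ht

theorem fe_sub (hs : Y.Fe s) (ht : Y.Fe t) : Y.Fe (s - t) := h.FE.sub_mem hs ht

theorem fe_add (hs : Y.Fe s) (ht : Y.Fe t) : Y.Fe (s + t) := h.FE.add_mem hs ht

/-- the energy as a bilinear form -/
def NL : h.FE →ₗ[ℝ] h.FE →ₗ[ℝ] ℝ := LinearMap.mk₂ ℝ (fun s t => Y.N s t)
  (fun s s' t => by
    simp only [N, Submodule.coe_add, map_add, LinearMap.add_apply]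
    exact I_add (h.ig_en s.2 t.2) (h.ig_en s'.2 t.2))
  (fun a s t => by simp only [N, Submodule.coe_smul, map_smul, LinearMap.smul_apply, I_smul,
    smul_eq_mul])
  (fun s t t' => by
    simp only [N, Submodule.coe_add, map_add]
    exact I_add (h.ig_en s.2 t.2) (h.ig_en s.2 t'.2))
  (fun a s t => by simp only [N, Submodule.coe_smul, map_smul, I_smul, smul_eq_mul])

/-- the form of `P` as a bilinear form -/
def QL : h.FE →ₗ[ℝ] h.FE →ₗ[ℝ] ℝ := LinearMap.mk₂ ℝ (fun s t => Y.Q s t)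
  (fun s s' t => by
    simp only [Q, Submodule.coe_add, map_add, LinearMap.add_apply]
    exact I_add (h.ig_q s.2 t.2) (h.ig_q s'.2 t.2))
  (fun a s t => by simp only [Q, Submodule.coe_smul, map_smul, LinearMap.smul_apply, I_smul,
    smul_eq_mul])
  (fun s t t' => by
    simp only [Q, Submodule.coe_add, map_add]
    exact I_add (h.ig_q s.2 t.2) (h.ig_q s.2 t'.2))
  (fun a s t => by simp only [Q, Submodule.coe_smul, map_smul, I_smul, smul_eq_mul])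

theorem NL_apply (s t : h.FE) : h.NL s t = Y.N s t := rfl

theorem QL_apply (s t : h.FE) : h.QL s t = Y.Q s t := rfl

theorem N_add_le (hs : Y.Fe s) (ht : Y.Fe t) :
    Y.N (s + t) (s + t) ≤ 2 * Y.N s s + 2 * Y.N t t :=
  form_add_le h.NL (fun s => h.N0 s) ⟨s, hs⟩ ⟨t, ht⟩

theorem N_smul (a : ℝ) (s : S) : Y.N (a • s) (a • s) = a ^ 2 * Y.N s s := by
  simp only [N, map_smul, LinearMap.smul_apply, I_smul]; ring

end Ok

end Sys

end Crest.Agent.N207.K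

end
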