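import Crest.Agent.N207.K.Sch
import Crest.Agent.N207.I.Defs

/-!
# Row 207, block K (helper10): Hölder bounds under changes of charts
-/

set_option autoImplicit false

open scoped ContDiff
open Metric Set Filter Topology
open Crest.GeometryTopology.CoordMetric
open Crest.Agent.NLib.Ell Crest.Agent.N207.I Crest.Agent.R273.SchA_152

noncomputable section

namespace Crest.Agent.N207.K

/-- precomposition with a fixed smooth map -/
theorem precomp {n : ℕ} {Φ : EE n → EE n} {O W : Set (EE n)} (hO : IsOpen O) (hW : IsOpen W)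
    (hΦ : ContDiffOn ℝ ∞ Φ O) {z0 : EE n} {R a : ℝ} (hR : closedBall z0 R ⊆ O)
    (hm : ∀ z ∈ ball z0 R, Φ z ∈ W) (ha : 0 ≤ a) (ha1 : a ≤ 1) (k : ℕ) :
    ∃ C : ℝ, 0 < C ∧ ∀ (F : Type) [NormedAddCommGroup F] [NormedSpace ℝ F] (f : EE n → F) (N : ℝ),
      CKA a W k N f → CKA a (ball z0 R) k (C * N) fun z => f (Φ z) := by
  rcases (ball z0 R).eq_empty_or_nonempty with he | ⟨z1, hz1⟩
  · exact ⟨1, one_pos, fun F _ _ f N _ => he ▸ CKA.empty _⟩
  obtain ⟨V1, hV1⟩ := exists_cka hO hΦ hR ha ha1 1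
  obtain ⟨L, hL1, hL⟩ : ∃ L : ℝ, 1 ≤ L ∧ ∀ x ∈ ball z0 R, ∀ y ∈ ball z0 R,
      ‖Φ x - Φ y‖ ≤ L * ‖x - y‖ :=
    ⟨max 1 (n * V1), le_max_left _ _, fun x hx y hy =>
      (convex_ball z0 R).norm_image_sub_le_of_norm_fderiv_le
        (fun w hw => hV1.diffAt isOpen_ball hw)
        (fun w hw => ((hV1.fderiv isOpen_ball).bdd hw).trans (le_max_right _ _)) hy hx⟩
  have h0 : ∀ (F : Type) [NormedAddCommGroup F] (f : EE n → F) (N : ℝ), HO a N W f →
      HO a (L * N) (ball z0 R) fun z => f (Φ z) := fun F _ f N h => by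
    have hN : 0 ≤ N := h.nonneg (hm z1 hz1)
    refine ⟨fun x hx => (h.bdd _ (hm x hx)).trans (le_mul_of_one_le_left hN hL1),
      fun x hx y hy => (h.hol _ (hm x hx) _ (hm y hy)).trans ?_⟩
    have h1 : ‖Φ x - Φ y‖ ^ a ≤ L * ‖x - y‖ ^ a := by
      refine (Real.rpow_le_rpow (norm_nonneg _) (hL x hx y hy) ha).trans ?_
      rw [Real.mul_rpow (by linarith) (norm_nonneg _)]
      refine mul_le_mul_of_nonneg_right ?_ (Real.rpow_nonneg (norm_nonneg _) _)
      simpa using Real.rpow_le_rpow_of_exponent_le hL1 ha1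
    calc N * ‖Φ x - Φ y‖ ^ a ≤ N * (L * ‖x - y‖ ^ a) := mul_le_mul_of_nonneg_left h1 hN
      _ = L * N * ‖x - y‖ ^ a := by ring
  induction k with
  | zero => exact ⟨L, by linarith, fun F _ _ f N h => h0 F f N h⟩
  | succ k ih =>
    obtain ⟨C, hC, ih⟩ := ih
    obtain ⟨V, hV⟩ := exists_cka hO hΦ hR ha ha1 (k + 1)
    have hV0 : 0 ≤ V := hV.nonneg hz1
    have hp : 0 ≤ 2 ^ (k + 1) * (C * n * V) := by positivity
    refine ⟨L + 2 ^ (k + 1) * (C * n * V), by linarith, fun F _ _ f N h => ?_⟩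
    have hN : 0 ≤ N := h.nonneg (hm z1 hz1)
    refine ⟨(h0 F f N h.ho).mono (by nlinarith), fun z hz =>
      ((h.diffAt hW (hm z hz)).comp z (hV.diffAt isOpen_ball hz)).differentiableWithinAt,
      fun i => ?_⟩
    refine ((CKA.app isOpen_ball (ih _ _ _ (h.fderiv hW)) (hV.pd i)).congr isOpen_ball
      fun z hz => ?_).mono (by nlinarith)
    exact DFunLike.congr_fun (fderiv_comp z (h.diffAt hW (hm z hz)) (hV.diffAt isOpen_ball hz)) _

/-- smooth functions on the cells inside a compact set -/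
theorem cka_cpt {n : ℕ} {F : Type} [NormedAddCommGroup F] [NormedSpace ℝ F] {g : EE n → F}
    {U K : Set (EE n)} (hU : IsOpen U) (hg : ContDiffOn ℝ ∞ g U) (hK : IsCompact K) (hKU : K ⊆ U)
    {a : ℝ} (ha : 0 ≤ a) (ha1 : a ≤ 1) (k : ℕ) (ρ : ℝ) :
    ∃ V : ℝ, 0 ≤ V ∧ ∀ (x : EE n) (r : ℝ), 0 < r → r ≤ ρ → (∀ y ∈ ball (0 : EE n) 1, x + r • y ∈ K) →
      CKA a (ball 0 1) k V fun y => g (x + r • y) := by
  have hb : ∀ j : ℕ, ∃ B, ∀ x ∈ K, ‖iteratedFDeriv ℝ j g x‖ ≤ B := fun j =>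
    hK.exists_bound_of_continuousOn fun x hx =>
      ((hg.contDiffAt (hU.mem_nhds (hKU hx))).iteratedFDeriv_right (m := 0) (i := j)
        (by exact_mod_cast le_top)).continuousAt.continuousWithinAt
  choose B hB using hb
  refine ⟨max 1 ρ ^ (k + 1) * (2 * ∑ j ∈ Finset.range (k + 2), |B j|), by positivity,
    fun x r hr hρ h => ?_⟩
  have hs : ball x r ⊆ K := fun z hz => by
    have := h (r⁻¹ • (z - x)) (by
      rw [mem_ball_zero_iff, norm_smul, norm_inv, Real.norm_of_nonneg hr.le, inv_mul_lt_iff₀ hr,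
        mul_one]
      exact mem_ball_iff_norm.1 hz)
    rwa [smul_inv_smul₀ hr.ne', add_sub_cancel] at this
  have h1 : CKA a (ball x r) k (2 * ∑ j ∈ Finset.range (k + 2), |B j|) g :=
    CKA.of_bounds isOpen_ball (convex_ball _ _) ha ha1
      ((hg.mono (hs.trans hKU)).of_le (by exact_mod_cast le_top)) fun j hj z hz =>
      ((hB j z (hs hz)).trans (le_abs_self _)).trans (Finset.single_le_sum
        (f := fun j => |B j|) (fun _ _ => abs_nonneg _) (Finset.mem_range.2 (by omega)))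
  refine (h1.affine isOpen_ball ha ha1 x (r := r)
    ((abs_of_pos hr).le.trans (hρ.trans (le_max_right _ _))) (le_max_left _ _)).subset
    fun y hy => ?_
  rw [mem_preimage, mem_ball_iff_norm, add_sub_cancel_left, norm_smul, Real.norm_of_nonneg hr.le]
  exact mul_lt_of_lt_one_right hr (mem_ball_zero_iff.1 hy)

variable {X : Type*} {α : Type} {A : Atl X α}

theorem tr_evt (h : A.Ok) {a b : α} {x : E4} {F : E4 → E4} (t : A.Tr a b x F) :
    ∀ᶠ z in 𝓝 x, A.Tr a b z F := by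
  filter_upwards [(h.isOpen a).mem_nhds t.mem,
    t.sm.self_of_nhds.continuousAt.eventually ((h.isOpen b).mem_nhds t.mem'),
    t.sm.eventually_nhds, t.eq.eventually_nhds] with z h1 h2 h3 h4
  exact ⟨h1, h2, h3, h4⟩

/-- transfer of a cell bound through one change of charts -/
theorem trf_tr (h : A.Ok) {s s' : α} {z0 : E4} {H : E4 → E4} (t : A.Tr s s' z0 H) {ρ : ℝ}
    (hρ : 0 < ρ) (k j : ℕ) : ∃ R C : ℝ, 0 < R ∧ 0 < C ∧ ∀ (F : α → MetricField 4) (N : ℝ),
      A.Compat (fun s => matT (F s)) →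
      (∀ a b, CKA (1 / 2) (ball 0 1) k N fun y => ρ ^ j * F s' (H z0 + ρ • y) a b) →
      ∀ a b, CKA (1 / 2) (ball z0 R) k (C * N) fun z => F s z a b := by
  have hc : ContinuousAt (fun z => ρ⁻¹ • (H z - H z0)) z0 :=
    (t.sm.self_of_nhds.continuousAt.sub continuousAt_const).const_smul ρ⁻¹
  obtain ⟨ε, hε, hb⟩ := Metric.eventually_nhds_iff_ball.1 ((tr_evt h t).and
    (hc.eventually (isOpen_ball.mem_nhds (x := ρ⁻¹ • (H z0 - H z0)) (s := ball 0 1) (by simp))))
  have hH : ContDiffOn ℝ ∞ H (ball z0 ε) := fun z hz =>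
    (hb z hz).1.sm.self_of_nhds.contDiffWithinAt
  have hR : closedBall z0 (ε / 2) ⊆ ball z0 ε := closedBall_subset_ball (half_lt_self hε)
  obtain ⟨C, hC, hp⟩ := precomp (Φ := fun z => ρ⁻¹ • (H z - H z0)) (a := 1 / 2) isOpen_ball
    (isOpen_ball (x := (0 : E4)) (ε := 1)) ((hH.sub contDiffOn_const).const_smul _) hR
    (fun z hz => (hb z (hR (ball_subset_closedBall hz))).2) (by norm_num) (by norm_num) k
  have hD : ContDiffOn ℝ ∞ (fderiv ℝ H) (ball z0 ε) :=
    hH.fderiv_of_isOpen isOpen_ball (by exact_mod_cast le_rfl)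
  obtain ⟨V, hV⟩ := exists_cka (a := 1 / 2) (g := fun z (I J : Fin 2 → Fin 4) =>
      (ρ ^ j)⁻¹ * ∏ p, fderiv ℝ H z (EuclideanSpace.single (I p) 1) (J p)) isOpen_ball
    (contDiffOn_pi.2 fun I => contDiffOn_pi.2 fun J => contDiffOn_const.mul
      (contDiffOn_prod fun p _ => (EuclideanSpace.proj (𝕜 := ℝ) (J p)).contDiff.comp_contDiffOn
        (hD.clm_apply contDiffOn_const))) hR (by norm_num) (by norm_num) k
  have hV0 : 0 ≤ V := hV.nonneg (mem_ball_self (half_pos hε))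
  refine ⟨ε / 2, 16 * (2 ^ (k + 1) * (V * C)) + 1, half_pos hε, by positivity,
    fun F N hF hN a b => ?_⟩
  have hN0 : 0 ≤ N := (hN a b).nonneg (mem_ball_self one_pos)
  refine ((CKA.sum_le isOpen_ball fun J : Fin 2 → Fin 4 => CKA.mul isOpen_ball
    ((hV.apply isOpen_ball ![a, b]).apply isOpen_ball J) (hp _ _ _ (hN (J 0) (J 1)))).congr
    isOpen_ball fun z hz => ?_).mono ?_
  · have e := congrFun (hF s s' z H (hb z (hR (ball_subset_closedBall hz))).1) ![a, b]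
    refine e.trans ?_
    rw [smul_inv_smul₀ hρ.ne', add_sub_cancel, pullT, evT]
    refine Finset.sum_congr rfl fun J _ => ?_
    simp only [matT]
    field_simp
  · simp only [Fintype.card_fun, Fintype.card_fin]
    push_cast
    nlinarith

/-- cell bounds give bounds on small balls around the points of a compact set -/
theorem trf_cpt [Fintype α] {χ : α → X → ℝ} {K : α → Set E4} (h : A.Ok) (hp : A.PoU χ K)
    {ρ : α → E4 → ℝ} (hρ : ∀ s, ∀ x ∈ K s, 0 < ρ s x) (k j : ℕ) {s : α} {K0 : Set E4}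
    (hK : IsCompact K0) (hU : K0 ⊆ A.U s) :
    ∀ᶠ t in 𝓝 (0 : ℝ), ∀ z ∈ K0, 0 < t → ∀ (F : α → MetricField 4) (N : ℝ),
      A.Compat (fun s => matT (F s)) →
      (∀ s, ∀ x ∈ K s, ∀ a b,
        CKA (1 / 2) (ball 0 1) k N fun y => ρ s x ^ j * F s (x + ρ s x • y) a b) →
      ∀ a b, CKA (1 / 2) (ball z t) k (t⁻¹ * N) fun z => F s z a b := by
  refine hK.eventually_forall_of_forall_eventually fun z0 hz0 => ?_
  obtain ⟨s', -, hs'⟩ := Finset.exists_ne_zero_of_sum_ne_zero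
    ((hp.sum s z0 (hU hz0)).trans_ne one_ne_zero)
  obtain ⟨x', hx', e⟩ := hp.supp s' s z0 (hU hz0) hs'
  obtain ⟨H, t, rfl⟩ := h.loc s s' z0 (hU hz0) x' (hp.sub s' hx') e.symm
  obtain ⟨R, C, hR, hC, hb⟩ := trf_tr h t (hρ s' _ hx') k j
  have c1 : Continuous fun p : ℝ × E4 => p.1 + dist p.2 z0 := by fun_prop
  have c2 : Continuous fun p : ℝ × E4 => p.1 * C := by fun_prop
  filter_upwards [c1.continuousAt.eventually (gt_mem_nhds (a := R) (by simpa using hR)),
    c2.continuousAt.eventually (gt_mem_nhds (a := 1) (by simp))] with p h1 h2 h0 F N hF hN a b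
  have hN0 : 0 ≤ N := (hN s' _ hx' a b).nonneg (mem_ball_self one_pos)
  refine ((hb F N hF (hN s' _ hx') a b).subset (ball_subset_ball' h1.le)).mono
    (mul_le_mul_of_nonneg_right ?_ hN0)
  rw [← one_div, le_div_iff₀' h0]
  exact h2.le

end Crest.Agent.N207.K

end
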